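/-
Row 324 (S0582), PDE core, module HI (`regularity`: the limit of the iterates is smooth): DEFINITIONS.      Architect: helper402.
Design note (read it first): origin/helper402:docs/R324_HI.md.       Blueprint: origin/helper232:docs/R324_blueprint.md, 7.5, 7.6.

NOTATION.   `U : Tri = (σ, h₃, b)`,   `u = uT U = (σ, h₃, X b)`  ("u-form"),   `v = hvT U = uT (L̃ U)`,   `tt = ttF = -X ∂_y`,
  jets  `π = hpp e U = (σ', h₃', b, X b', e)`   (`e = 1`: the jets of the solution, with the constant `1` as fifth jet;  `e = 0`: the jets of a DIRECTION `V`; `∂_t (hpp 1 U) = hpp 0 (∂_t U)`).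
  `HGf` = functions `G (t,y) ξ`, `ξ ∈ ℝ³`;  `hcmp G u = G (t,y) (u (t,y))`.
STRUCTURE OF THE NONLINEARITY (`HNSt`, `HNStOK`):      `NN_j(U) = M(p;u) (L̃ U)_j + A0_j(p;u) + xr_j Σ_{c,c'} A2_{j c c'}(p;u) π_c π_c'`,    `hxr = (X, X, 1)`,   hence in u-form
       `uT (NN U)_i = M(p;u) v_i + xu_i A0_i(p;u) + X Σ A2_{i c c'}(p;u) π_c π_c'`,    `hxu = (1, 1, X)`.
CLASSES of families `𝓕 : ℕ → Fn` on `[s₁,s₂] × [-1,1]` (all bounds uniform in the index `k`):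
  `HiB0 n` : `|∂_t^j 𝓕|` bounded, `j ≤ n`;      `HiB n` : `𝓕` and `tt 𝓕` in `HiB0 n`  (multipliers);
  `HiA n`  : `∫ 𝕀[(∂_t^j 𝓕)² + (tt ∂_t^j 𝓕)²] dt` bounded, `j ≤ n`  (atoms / forcings);      `HiP n` : `𝓕 ∈ HiA n` and `X 𝓕 ∈ HiB0 n`  (jets);
  `HiX n`  : `sup_t (E0+E1)(∂_t^j U_k) + ∫ (D0+D1)(∂_t^j U_k)` bounded, `j ≤ n`  (solutions).
-/
import Claimed.Agent.R324.Core.NonlinDefs
import Claimed.Agent.R324.Core.PR.SmR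
import Claimed.Agent.R324.Core.PR.TT

set_option autoImplicit false

namespace Claimed.Agent.R324.Core

open Set Filter Topology MeasureTheory
open scoped ContDiff

noncomputable section

/-! ## 0. Strip, triples -/

/-- equality on the closed strip `t < 0`, `y ∈ [-1,1]`. -/
def HiEq (f g : Fn) : Prop := ∀ t < 0, ∀ y ∈ Icc (-1 : ℝ) 1, f (t, y) = g (t, y)

/-- vanishing for `t ≤ ts` on `[-1,1]`. -/
def HiVan (ts : ℝ) (f : Fn) : Prop := ∀ t ≤ ts, ∀ y ∈ Icc (-1 : ℝ) 1, f (t, y) = 0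

/-- smooth triples. -/
def SmTri (U : Tri) : Prop := ∀ j, Sm (U j)

/-- `∂_t` of a triple. -/
def dT3 (U : Tri) : Tri := fun j => dT (U j)

/-- `U + h V`. -/
def tAdd (U : Tri) (h : ℝ) (V : Tri) : Tri := fun j p => U j p + h * V j p

/-- `v = uT (L̃ U)`. -/
def hvT (q : ℝ) (g : Bg) (U : Tri) : Tri := uT (Lt q g U)

/-- the defect `∂_t U - L̃ U`. -/
def hdef (q : ℝ) (g : Bg) (U : Tri) : Tri := fun j p => dT (U j) p - Lt q g U j p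

/-- the jets `(σ', h₃', b, X b', e)`. -/
def hpp (e : ℝ) (U : Tri) : Fin 5 → Fn :=
  ![dY (U 0), dY (U 1), U 2, fun p => Xf p.2 * dY (U 2) p, fun _ => e]

/-- `X` as a function of `(t,y)`. -/
def hXF : Fn := fun p => Xf p.2

/-- `hxr = (X, X, 1)`. -/
def hxr (j : Fin 3) : Fn := fun p => if j = 2 then 1 else Xf p.2

/-- `hxu = (1, 1, X)`. -/
def hxu (i : Fin 3) : Fn := fun p => if i = 2 then Xf p.2 else 1

/-! ## 1. Generic smooth functions of `(t,y)` and `ξ ∈ ℝ³` -/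

/-- functions `G (t,y) ξ`. -/
abbrev HGf := ℝ × ℝ → (Fin 3 → ℝ) → ℝ

/-- smooth on `{t < 0} × ℝ × ℝ³`. -/
def HGSm (G : HGf) : Prop :=
  ContDiffOn ℝ ∞ (fun z : (ℝ × ℝ) × (Fin 3 → ℝ) => G z.1 z.2)
    ((Iio (0 : ℝ) ×ˢ (univ : Set ℝ)) ×ˢ (univ : Set (Fin 3 → ℝ)))

/-- `G (t,y) (u (t,y))`. -/
def hcmp (G : HGf) (u : Tri) : Fn := fun p => G p (fun b => u b p)

/-- `∂_t G`. -/
def hgDt (G : HGf) : HGf := fun p ξ => deriv (fun s => G (s, p.2) ξ) p.1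

/-- `∂_y G`. -/
def hgDy (G : HGf) : HGf := fun p ξ => deriv (fun z => G (p.1, z) ξ) p.2

/-- `∂_{ξ_b} G`. -/
def hgDx (b : Fin 3) (G : HGf) : HGf := fun p ξ => deriv (fun r => G p (Function.update ξ b r)) (ξ b)

/-- `Σ_b (∂_{ξ_b} G)(p; u) u'_b`:  the derivative of `hcmp G u` in the direction `u'`. -/
def hcmpL (G : HGf) (u u' : Tri) : Fn := fun p => ∑ b, hcmp (hgDx b G) u p * u' b p

/-! ## 2. The structure of the nonlinearity -/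

/-- `𝗆𝗆 = Z e₁ / Z̃ - 1` as a function of `(p; ξ)`,  `h₁ = ξ₀ + q/(q+1) ξ₂`. -/
def hmmG (q : ℝ) (g : Bg) : HGf := fun p ξ =>
  g.Z p * Real.exp (-(ξ 0 + q / (q + 1) * ξ 2)) / (bgR q g).Z p - 1

/-- structure data. -/
structure HNSt where
  M : HGf
  A0 : Fin 3 → HGf
  A2 : Fin 3 → Fin 5 → Fin 5 → HGf

/-- all coefficients are smooth. -/
def HNSt.IsSm (S : HNSt) : Prop := HGSm S.M ∧ (∀ i, HGSm (S.A0 i)) ∧ ∀ i c c', HGSm (S.A2 i c c')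

/-- the quadratic part `Σ_{c,c'} A2_{j c c'}(p;u) π_c π_c'`. -/
def HNSt.quad (S : HNSt) (U : Tri) (j : Fin 3) : Fn := fun p =>
  ∑ c, ∑ c', hcmp (S.A2 j c c') (uT U) p * (hpp 1 U c p * hpp 1 U c' p)

/-- the structured operator, raw form. -/
def HNSt.raw (S : HNSt) (q : ℝ) (g : Bg) (U : Tri) : Tri := fun j p =>
  hcmp S.M (uT U) p * Lt q g U j p + hcmp (S.A0 j) (uT U) p + hxr j p * S.quad U j p

/-- the structured operator, u-form. -/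
def HNSt.uf (S : HNSt) (q : ℝ) (g : Bg) (U : Tri) : Tri := fun i p =>
  hcmp S.M (uT U) p * hvT q g U i p + hxu i p * hcmp (S.A0 i) (uT U) p + Xf p.2 * S.quad U i p

/-- `S` represents `NN`. -/
structure HNStOK (q : ℝ) (g : Bg) (S : HNSt) : Prop where
  sm : S.IsSm
  hM : S.M = hmmG q g
  eq : ∀ U : Tri, SmTri U → ∀ j, ∀ t < 0, ∀ y : ℝ, NN q g U j (t, y) = S.raw q g U j (t, y)

/-! ### the three types of terms and their linearisations (`G` generic) -/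

/-- type 1: `G(p;u) v_i`. -/
def hty1 (q : ℝ) (g : Bg) (G : HGf) (U : Tri) (i : Fin 3) : Fn := fun p => hcmp G (uT U) p * hvT q g U i p

/-- type 2: `G(p;u) X π_c π_c'`. -/
def hty2 (G : HGf) (U : Tri) (c c' : Fin 5) : Fn := fun p =>
  hcmp G (uT U) p * (Xf p.2 * (hpp 1 U c p * hpp 1 U c' p))

/-- linearisation of type 1. -/
def hly1 (q : ℝ) (g : Bg) (G : HGf) (U V : Tri) (i : Fin 3) : Fn := fun p =>
  hcmp G (uT U) p * hvT q g V i p + hcmpL G (uT U) (uT V) p * hvT q g U i p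

/-- linearisation of type 2. -/
def hly2 (G : HGf) (U V : Tri) (c c' : Fin 5) : Fn := fun p =>
  hcmp G (uT U) p * (Xf p.2 * (hpp 1 U c p * hpp 0 V c' p + hpp 0 V c p * hpp 1 U c' p))
    + hcmpL G (uT U) (uT V) p * (Xf p.2 * (hpp 1 U c p * hpp 1 U c' p))

/-- the linearisation of `S.uf` at `U` in the direction `V`. -/
def HNSt.lin (S : HNSt) (q : ℝ) (g : Bg) (U V : Tri) : Tri := fun i p =>
  hly1 q g S.M U V i p + hxu i p * hcmpL (S.A0 i) (uT U) (uT V) p + ∑ c, ∑ c', hly2 (S.A2 i c c') U V c c' p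

/-- the linearisation of `uT (NN ·)`, canonical definition. -/
def hlinN (q : ℝ) (g : Bg) (U V : Tri) : Tri := fun i p =>
  deriv (fun h : ℝ => uT (NN q g (tAdd U h V)) i p) 0

/-! ## 3. Classes of families -/

/-- weighted sup classes:  `w(y) |∂_y^j ∂_t^i 𝓕_k| ≤ C`,  `i ≤ I`, `j ≤ r`   (`dY^[j] (dT^[i] f) = e2Pd i j f`). -/
def HiW (w : ℝ → ℝ) (s₁ s₂ : ℝ) (I r : ℕ) (𝓕 : ℕ → Fn) : Prop :=
  ∀ i ≤ I, ∀ j ≤ r, ∃ C : ℝ, ∀ k : ℕ, ∀ t ∈ Icc s₁ s₂, ∀ y ∈ Icc (-1 : ℝ) 1,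
    w y * |dY^[j] (dT^[i] (𝓕 k)) (t, y)| ≤ C

/-- the weights `1`, `X^{1/4}`, `X^{1/2}`. -/
def hw0 : ℝ → ℝ := fun _ => 1
def hwQ : ℝ → ℝ := fun y => Real.sqrt (Real.sqrt (Xf y))
def hwH : ℝ → ℝ := fun y => Real.sqrt (Xf y)

/-- admissible weights. -/
def HwOK (w : ℝ → ℝ) : Prop := ∀ y ∈ Icc (-1 : ℝ) 1, 0 ≤ w y ∧ w y ≤ 1

/-- `|∂_t^j 𝓕_k| ≤ C`, `j ≤ n`. -/
def HiB0 (s₁ s₂ : ℝ) (n : ℕ) (𝓕 : ℕ → Fn) : Prop := HiW hw0 s₁ s₂ n 0 𝓕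

/-- multipliers. -/
def HiB (s₁ s₂ : ℝ) (n : ℕ) (𝓕 : ℕ → Fn) : Prop :=
  HiB0 s₁ s₂ n 𝓕 ∧ HiB0 s₁ s₂ n (fun k => ttF (𝓕 k))

/-- the density `𝕀[f² + (tt f)²]` at time `t`. -/
def haDen (f : Fn) (t : ℝ) : ℝ := II (fun y => (f (t, y)) ^ 2 + (ttF f (t, y)) ^ 2)

/-- atoms, forcings. -/
def HiA (s₁ s₂ : ℝ) (n : ℕ) (𝓕 : ℕ → Fn) : Prop :=
  ∀ j ≤ n, ∃ C : ℝ, ∀ k : ℕ, ∫ s in s₁..s₂, haDen (dT^[j] (𝓕 k)) s ≤ C

/-- jets. -/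
def HiP (s₁ s₂ : ℝ) (n : ℕ) (𝓕 : ℕ → Fn) : Prop :=
  HiA s₁ s₂ n 𝓕 ∧ HiB0 s₁ s₂ n (fun k p => Xf p.2 * 𝓕 k p)

/-- the pole operator `X p' - d y p`. -/
def hPo (d : ℝ) (p : Fn) : Fn := fun z => Xf z.2 * dY p z - d * z.2 * p z

/-- `E = E0 + E1`. -/
def hiE (q : ℝ) (g : Bg) (Γ : ℝ) (U : Tri) (t : ℝ) : ℝ := E0 q Γ U t + E1 q g Γ U t

/-- `D = D0 + D1`. -/
def hiD (q : ℝ) (g : Bg) (Γ : ℝ) (U : Tri) (t : ℝ) : ℝ := D0 q Γ U t + D1 q g Γ U t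

/-- solutions. -/
def HiX (q : ℝ) (g : Bg) (Γ s₁ s₂ : ℝ) (n : ℕ) (U : ℕ → Tri) : Prop :=
  ∀ j ≤ n, ∃ C : ℝ, ∀ k : ℕ, (∀ t ∈ Icc s₁ s₂, hiE q g Γ (dT3^[j] (U k)) t ≤ C) ∧
    ∫ s in s₁..s₂, hiD q g Γ (dT3^[j] (U k)) s ≤ C

/-- the forcing density for a triple given in u-form. -/
def hDYu (q Γ : ℝ) (s : Tri) (t : ℝ) : ℝ :=
  II (fun y => V1 q Γ t y * ∑ i, kapJ q i * ((ttF (s i) (t, y)) ^ 2 + q * (s i (t, y)) ^ 2))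

/-! ## 4. Universal constants and facts (from the modules W, LD0, NL, AP; see `HI/Need.lean`) -/

/-- the universal constants (they depend on `q, g, Γ` only). -/
structure HiC where
  Λ₀ : ℝ
  Cs : ℝ
  Cj : ℝ
  A : ℝ
  c : ℝ
  Cu : ℝ
  K : ℝ
  ε₁ : ℝ
  δ₀ : ℝ

/-- the universal facts. -/
structure HiU (q : ℝ) (g : Bg) (Γ : ℝ) (κ : HiC) : Prop where
  hΛ : 0 < κ.Λ₀
  hCs : 0 ≤ κ.Cs
  hCj : 0 ≤ κ.Cj
  hA : 1 ≤ κ.A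
  hc : 0 < κ.c
  hCu : 0 ≤ κ.Cu
  hK : 0 ≤ κ.K
  hε : 0 < κ.ε₁
  hδ : 0 < κ.δ₀
  /-- SUP (W7 + W0(c)) -/
  sup : ∀ t ∈ Ico (-κ.Λ₀) 0, ∀ U : Tri, SmTri U → ∀ y ∈ Icc (-1 : ℝ) 1,
    n2 q (slT U t) y + n2t q (slT U t) y ≤ κ.Cs * hiE q g Γ U t
  /-- JETS (W5, `om = V1`) -/
  jets : ∀ t ∈ Ico (-κ.Λ₀) 0, ∀ U : Tri, SmTri U →
    II (fun y => V1 q Γ t y * ∑ c, ((hpp 0 U c (t, y)) ^ 2 + (ttF (hpp 0 U c) (t, y)) ^ 2)) ≤ κ.Cj * hiD q g Γ U t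
  /-- local linear estimate (H2 = `A`(LE0) + (LE1)) -/
  h2 : ∀ s₂ < 0, ∃ C' : ℝ, 0 ≤ C' ∧ ∀ U : Tri, SmTri U → ∀ t ∈ Icc (-κ.Λ₀) s₂, ∃ e' : ℝ,
    HasDerivAt (fun s => κ.A * E0 q Γ U s + E1 q g Γ U s) e' t ∧
      e' + κ.c * hiD q g Γ U t ≤ C' * (κ.A * E0 q Γ U t + E1 q g Γ U t) + κ.Cu * DY q Γ (hdef q g U) t
  /-- estimate of the LINEARISED nonlinearity (N0/N1a for `U + h V`, `U`, divided by `h²`, `h → 0`; + SUP) -/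
  lin : ∀ t ∈ Ico (-κ.Λ₀) 0, ∀ U V : Tri, SmTri U → SmTri V → hiE q g Γ U t ≤ κ.ε₁ ^ 2 →
    hDYu q Γ (hlinN q g U V) t
      ≤ κ.K * ((hiE q g Γ U t + (-t) ^ 6) * hiD q g Γ V t + hiE q g Γ V t * hiD q g Γ U t)
  /-- smallness of `𝗆𝗆` -/
  mm : ∀ t ∈ Ico (-κ.Λ₀) 0, ∀ y ∈ Icc (-1 : ℝ) 1, ∀ ξ : Fin 3 → ℝ, (∀ b, |ξ b| ≤ κ.δ₀) →
    |hmmG q g (t, y) ξ| ≤ 1 / 4

/-! ## 5. The iteration -/

/-- the time cut-off as a function of `(t,y)`. -/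
def hiTh (τc : ℝ) : Fn := fun p => thetaC τc p.1

/-- the control term `Σ_i β_i(τ(t)) Ac_i`. -/
def hiSb {N : ℕ} (Ac : Fin N → Tri) (b : ℝ → EuclideanSpace ℝ (Fin N)) : Tri :=
  fun j p => ∑ i, b (tauOf p.1) i * Ac i j p

/-- the static standing assumptions on a time interval `[s₁,s₂] ⊆ [-Λ₀,0)`. -/
structure HiK (q : ℝ) (g : Bg) (Γ : ℝ) (κ : HiC) (s₁ s₂ : ℝ) : Prop where
  hq : 1 < q
  hg : BgSm g
  hΓ : 0 ≤ Γ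
  hU : HiU q g Γ κ
  h₁ : -κ.Λ₀ ≤ s₁
  h₁₂ : s₁ ≤ s₂
  h₂ : s₂ < 0

/-- the standing assumptions of the module. -/
structure HiCtx (q : ℝ) (g : Bg) (Γ : ℝ) (κ : HiC) (S : HNSt) (ε τs Δ : ℝ) (N : ℕ) (Ac : Fin N → Tri)
    (U : ℕ → Tri) (β : ℕ → ℝ → EuclideanSpace ℝ (Fin N)) : Prop where
  hq : 1 < q
  hm : ∃ m : ℕ, q = 2 * (m : ℝ) + 1
  hg : BgGood q g
  hΓ : 0 ≤ Γ
  hU : HiU q g Γ κ
  hS : HNStOK q g S
  hε : 0 < ε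
  hts : -κ.Λ₀ ≤ tOf τs
  /-- smallness: `hiE (U k) ≤ 2 ε² ≤ ε₁²` -/
  hε1 : 2 * ε ^ 2 ≤ κ.ε₁ ^ 2
  /-- smallness: `|u_b|² ≤ 2 n2 ≤ 4 Cs ε² ≤ δ₀²` -/
  hεδ : 4 * κ.Cs * ε ^ 2 ≤ κ.δ₀ ^ 2
  /-- smallness of `η² = 2 ε² + Λ_s⁶` (absorption in `hi_met`) -/
  hη : 4 * κ.Cu * κ.K * (1 / κ.c + 1) * (2 * ε ^ 2 + (-(tOf τs)) ^ 6) ≤ 1
  hΔ : 0 < Δ
  hAc : ∀ i j, Sm (Ac i j)
  it : Iter q g Γ ε τs Δ N Ac U β

/-- the remainder of the equation of `∂_t^J U_{k+1}`, in u-form: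
`uT (∂_t U^J_{k+1} - L̃ U^J_{k+1}) = θ · lin(U_k)[U^J_k] + hiR J k`. -/
def hiR (q : ℝ) (g : Bg) (S : HNSt) (τc : ℝ) (U : ℕ → Tri) (J k : ℕ) : Tri := fun i p =>
  uT (hdef q g (dT3^[J] (U (k + 1)))) i p - hiTh τc p * S.lin q g (U k) (dT3^[J] (U k)) i p

end

/-- hygiene (rule 6): the on-demand equation lemmas of the definitions of this file are generated here, once. -/
theorem hi_defs_hygiene : True := by
  have := @HiEq.eq_1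
  have := @HiVan.eq_1
  have := @SmTri.eq_1
  have := @dT3.eq_1
  have := @tAdd.eq_1
  have := @hvT.eq_1
  have := @hdef.eq_1
  have := @hpp.eq_1
  have := @hXF.eq_1
  have := @hxr.eq_1
  have := @hxu.eq_1
  have := @HGSm.eq_1
  have := @hcmp.eq_1
  have := @hgDt.eq_1
  have := @hgDy.eq_1
  have := @hgDx.eq_1
  have := @hcmpL.eq_1
  have := @hmmG.eq_1
  have := @HNSt.IsSm.eq_1
  have := @HNSt.quad.eq_1
  have := @HNSt.raw.eq_1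
  have := @HNSt.uf.eq_1
  have := @hty1.eq_1
  have := @hty2.eq_1
  have := @hly1.eq_1
  have := @hly2.eq_1
  have := @HNSt.lin.eq_1
  have := @hlinN.eq_1
  have := @HiB.eq_1
  have := @haDen.eq_1
  have := @HiA.eq_1
  have := @HiP.eq_1
  have := @HiW.eq_1
  have := @hw0.eq_1
  have := @hwQ.eq_1
  have := @hwH.eq_1
  have := @HwOK.eq_1
  have := @HiB0.eq_1
  have := @hPo.eq_1
  have := @hiE.eq_1
  have := @hiD.eq_1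
  have := @HiX.eq_1
  have := @hDYu.eq_1
  have := @hiTh.eq_1
  have := @hiSb.eq_1
  have := @hiR.eq_1
  trivial

end Claimed.Agent.R324.Core
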