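/-
Row 324, module HI, file Strip: equality on the closed strip `t < 0`, `y ∈ [-1,1]` (`HiEq`) and vanishing for `t ≤ ts` (`HiVan`) are stable under `dT`, `dY`, `ttF`, `Lt`.
Model: R325/Core/HI/Strip.lean (pack R325/Pk52.lean).     `Sm f = E2Sm 0 f`, `dT = e2Pdt`, `dY = e2Pdx` by `rfl` (Core/PR/Sm.lean).
PROOFS.  `dT`: at `(t,y)`, `t < 0`, the functions `s ↦ f (s,y)`, `s ↦ g (s,y)` agree on the neighbourhood `Iio 0` of `t` (`Filter.EventuallyEq.deriv_eq`).
`dY`: both slices are differentiable and agree on `Icc (-1) 1`; `HasDerivAt.hasDerivWithinAt` + `UniqueDiffWithinAt.eq_deriv` (`uniqueDiffOn_Icc`).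
`HiVan` for `dT`: for `t < ts` as above; at `t = ts` the derivative is the left derivative (`uniqueDiffWithinAt_Iic`) of a function which vanishes on `Iic ts`.
-/
import Claimed.Agent.R324.Core.HI.Defs

set_option autoImplicit false

namespace Claimed.Agent.R324.Core

open Set Filter Topology MeasureTheory
open scoped ContDiff

variable {f g k : Fn} {q : ℝ} {bg : Bg} {U V : Tri} {ts : ℝ}

theorem HiEq.refl (f : Fn) : HiEq f f := fun _ _ _ _ => rfl

theorem HiEq.symm (h : HiEq f g) : HiEq g f := fun t ht y hy => (h t ht y hy).symm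

theorem HiEq.trans (h : HiEq f g) (h' : HiEq g k) : HiEq f k :=
  fun t ht y hy => (h t ht y hy).trans (h' t ht y hy)

theorem hi_eq_of_all (h : ∀ t < 0, ∀ y : ℝ, f (t, y) = g (t, y)) : HiEq f g := fun t ht y _ => h t ht y

theorem hi_dT_congr (h : HiEq f g) : HiEq (dT f) (dT g) := by
  intro t ht y hy
  show deriv (fun s => f (s, y)) t = deriv (fun s => g (s, y)) t
  apply Filter.EventuallyEq.deriv_eq
  filter_upwards [Iio_mem_nhds ht] with s hs
  exact h s hs y hy

theorem hi_dT_iter_congr (h : HiEq f g) (j : ℕ) : HiEq (dT^[j] f) (dT^[j] g) := by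
  induction j with
  | zero => exact h
  | succ j ih =>
    rw [Function.iterate_succ_apply', Function.iterate_succ_apply']
    exact hi_dT_congr ih

theorem hi_dY_congr (hf : Sm f) (hg : Sm g) (h : HiEq f g) : HiEq (dY f) (dY g) := by
  intro t ht y hy
  have h1 : HasDerivWithinAt (fun z => f (t, z)) (dY f (t, y)) (Icc (-1 : ℝ) 1) y :=
    (hf.hasDerivAt_y ht y).hasDerivWithinAt
  have h2 : HasDerivWithinAt (fun z => f (t, z)) (dY g (t, y)) (Icc (-1 : ℝ) 1) y :=
    (hg.hasDerivAt_y ht y).hasDerivWithinAt.congr (fun z hz => h t ht z hz) (h t ht y hy)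
  exact (uniqueDiffOn_Icc (by norm_num : (-1 : ℝ) < 1) y hy).eq_deriv _ h1 h2

theorem hi_dY_iter_congr (hf : Sm f) (hg : Sm g) (h : HiEq f g) (j : ℕ) : HiEq (dY^[j] f) (dY^[j] g) := by
  induction j with
  | zero => exact h
  | succ j ih =>
    rw [Function.iterate_succ_apply', Function.iterate_succ_apply']
    exact hi_dY_congr (hf.dY_iter j) (hg.dY_iter j) ih

theorem hi_ttF_congr (hf : Sm f) (hg : Sm g) (h : HiEq f g) : HiEq (ttF f) (ttF g) := by
  intro t ht y hy
  show -(Xf y) * dY f (t, y) = -(Xf y) * dY g (t, y)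
  rw [hi_dY_congr hf hg h t ht y hy]

theorem hi_dT_van (hf : Sm f) (hts : ts < 0) (h : HiVan ts f) : HiVan ts (dT f) := by
  intro t ht y hy
  have h1 : HasDerivAt (fun s => f (s, y)) (dT f (t, y)) t := hf.hasDerivAt_t (lt_of_le_of_lt ht hts) y
  have h2 : HasDerivWithinAt (fun s => f (s, y)) 0 (Iic ts) t :=
    (hasDerivWithinAt_const t (Iic ts) (0 : ℝ)).congr (fun s hs => h s hs y hy) (h t ht y hy)
  exact (uniqueDiffOn_Iic ts t ht).eq_deriv _ h1.hasDerivWithinAt h2

theorem hi_dT_iter_van (hf : Sm f) (hts : ts < 0) (h : HiVan ts f) (j : ℕ) : HiVan ts (dT^[j] f) := by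
  induction j with
  | zero => exact h
  | succ j ih =>
    rw [Function.iterate_succ_apply']
    exact hi_dT_van (hf.dT_iter j) hts ih

theorem hi_dY_van (hf : Sm f) (hts : ts < 0) (h : HiVan ts f) : HiVan ts (dY f) := by
  intro t ht y hy
  have h1 : HasDerivWithinAt (fun z => f (t, z)) (dY f (t, y)) (Icc (-1 : ℝ) 1) y :=
    (hf.hasDerivAt_y (lt_of_le_of_lt ht hts) y).hasDerivWithinAt
  have h2 : HasDerivWithinAt (fun z => f (t, z)) 0 (Icc (-1 : ℝ) 1) y :=
    (hasDerivWithinAt_const y (Icc (-1 : ℝ) 1) (0 : ℝ)).congr (fun z hz => h t ht z hz) (h t ht y hy)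
  exact (uniqueDiffOn_Icc (by norm_num : (-1 : ℝ) < 1) y hy).eq_deriv _ h1 h2

theorem hi_ttF_van (hf : Sm f) (hts : ts < 0) (h : HiVan ts f) : HiVan ts (ttF f) := by
  intro t ht y hy
  show -(Xf y) * dY f (t, y) = 0
  rw [hi_dY_van hf hts h t ht y hy, mul_zero]

/-- `Lt` only sees the triple on the strip (`Lop`: `dY`, `dY ∘ dY`). -/
theorem hi_Lt_congr (hU : SmTri U) (hV : SmTri V) (h : ∀ j, HiEq (U j) (V j)) (j : Fin 3) :
    HiEq (Lt q bg U j) (Lt q bg V j) := by
  intro t ht y hy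
  have e1 := hi_dY_congr (hU j) (hV j) (h j) t ht y hy
  have e2 := hi_dY_congr (hU j).dY (hV j).dY (hi_dY_congr (hU j) (hV j) (h j)) t ht y hy
  have e3 : ∀ k, U k (t, y) = V k (t, y) := fun k => h k t ht y hy
  simp only [Lt, Lop, e1, e2, e3]

theorem hi_Lt_van (hU : SmTri U) (hts : ts < 0) (h : ∀ j, HiVan ts (U j)) (j : Fin 3) :
    HiVan ts (Lt q bg U j) := by
  intro t ht y hy
  have e1 := hi_dY_van (hU j) hts (h j) t ht y hy
  have e2 := hi_dY_van (hU j).dY hts (hi_dY_van (hU j) hts (h j)) t ht y hy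
  have e3 : ∀ k, U k (t, y) = 0 := fun k => h k t ht y hy
  simp only [Lt, Lop, e1, e2, e3, mul_zero, add_zero, Finset.sum_const_zero]

theorem hi_uT_congr (h : ∀ j, HiEq (U j) (V j)) (i : Fin 3) : HiEq (uT U i) (uT V i) := by
  intro t ht y hy
  have e3 : ∀ k, U k (t, y) = V k (t, y) := fun k => h k t ht y hy
  fin_cases i <;> simp [uT, e3]

theorem hi_uT_van (h : ∀ j, HiVan ts (U j)) (i : Fin 3) : HiVan ts (uT U i) := by
  intro t ht y hy
  have e3 : ∀ k, U k (t, y) = 0 := fun k => h k t ht y hy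
  fin_cases i <;> simp [uT, e3]

end Claimed.Agent.R324.Core
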