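/-
Row 324, module HI, file W: calculus of the weighted classes `HiW w s₁ s₂ I r`   (`w(y) |∂_y^j ∂_t^i 𝓕_k| ≤ C`, `i ≤ I`, `j ≤ r`, on `[s₁,s₂] × [-1,1]`, uniformly in `k`).
PORT of R325/EngUBr.lean + R325/EngUBrB.lean (= Claimed/Agent/R325/Pk33.lean, lines 610-900: same statements and proofs without the weight, on `[0,1]`).
`dY^[j] (dT^[i] f) = e2Pd i j f` (rfl), `Sm = E2Sm 0`, `dT = e2Pdt`, `dY = e2Pdx`: use R324/E2/PdA.lean, PdB.lean (`e2Pd_add`, `e2Pd_neg`, `e2Pd_sub`, `e2Pd_sum`, `e2Pd_pdt`, `E2Sm.pd_pdx`, `e2Pdx_mul`, `e2Pdt_mul`, `E2Sm.pd`), `Sm.bdd`.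
All products by induction through `hiW_of_dT` / `hiW_of_dY` (no binomial formulas).
-/
import Claimed.Agent.R324.Core.HI.Strip

set_option autoImplicit false

namespace Claimed.Agent.R324.Core

open Set Filter Topology MeasureTheory
open scoped ContDiff

variable {w w' w₁ w₂ : ℝ → ℝ} {s₁ s₂ : ℝ} {I I' r r' n : ℕ} {𝓕 𝓖 : ℕ → Fn} {f g : Fn} {y : ℝ}

/-! ### weights -/

theorem hiW_Xf_mem (hy : y ∈ Icc (-1 : ℝ) 1) : 0 ≤ Xf y ∧ Xf y ≤ 1 := by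
  unfold Xf
  constructor <;> nlinarith [hy.1, hy.2]

theorem hwOK_0 : HwOK hw0 := fun _ _ => ⟨zero_le_one, le_rfl⟩

theorem hwOK_Q : HwOK hwQ := by
  intro y hy
  unfold hwQ
  refine ⟨Real.sqrt_nonneg _, ?_⟩
  rw [Real.sqrt_le_one, Real.sqrt_le_one]
  exact (hiW_Xf_mem hy).2

theorem hwOK_H : HwOK hwH := by
  intro y hy
  unfold hwH
  refine ⟨Real.sqrt_nonneg _, ?_⟩
  rw [Real.sqrt_le_one]
  exact (hiW_Xf_mem hy).2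

theorem HwOK.mul (h₁ : HwOK w₁) (h₂ : HwOK w₂) : HwOK (fun y => w₁ y * w₂ y) :=
  fun y hy => ⟨mul_nonneg (h₁ y hy).1 (h₂ y hy).1, mul_le_one₀ (h₁ y hy).2 (h₂ y hy).1 (h₂ y hy).2⟩

theorem hwQ_mul_hwQ (hy : y ∈ Icc (-1 : ℝ) 1) : hwQ y * hwQ y = hwH y := by
  unfold hwQ hwH
  exact Real.mul_self_sqrt (Real.sqrt_nonneg _)

theorem hwH_mul_hwH (hy : y ∈ Icc (-1 : ℝ) 1) : hwH y * hwH y = Xf y := by
  unfold hwH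
  exact Real.mul_self_sqrt (hiW_Xf_mem hy).1

/-- `√X ≤ X^{1/4}` for `0 ≤ X ≤ 1`. -/
theorem hwH_le_hwQ (hy : y ∈ Icc (-1 : ℝ) 1) : hwH y ≤ hwQ y := by
  rw [← hwQ_mul_hwQ hy]
  exact mul_le_of_le_one_left (hwOK_Q y hy).1 (hwOK_Q y hy).2

/-! ### structural rules -/

theorem hi_pd_congr (hf : Sm f) (hg : Sm g) (h : HiEq f g) (i j : ℕ) :
    HiEq (dY^[j] (dT^[i] f)) (dY^[j] (dT^[i] g)) :=
  hi_dY_iter_congr (hf.dT_iter i) (hg.dT_iter i) (hi_dT_iter_congr h i) j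

theorem HiW.mono (h : HiW w s₁ s₂ I r 𝓕) (hI : I' ≤ I) (hr : r' ≤ r) : HiW w s₁ s₂ I' r' 𝓕 :=
  fun i hi j hj => h i (hi.trans hI) j (hj.trans hr)

theorem HiW.shift (h : HiW w s₁ s₂ I r 𝓕) : HiW w s₁ s₂ I r (fun k => 𝓕 (k + 1)) :=
  fun i hi j hj => (h i hi j hj).imp fun _ hC k => hC (k + 1)

theorem HiW.congr (h₂ : s₂ < 0) (hf : ∀ k, Sm (𝓕 k)) (hg : ∀ k, Sm (𝓖 k)) (h : HiW w s₁ s₂ I r 𝓕)
    (e : ∀ k, HiEq (𝓖 k) (𝓕 k)) : HiW w s₁ s₂ I r 𝓖 := by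
  intro i hi j hj
  obtain ⟨C, hC⟩ := h i hi j hj
  refine ⟨C, fun k t ht y hy => ?_⟩
  rw [hi_pd_congr (hg k) (hf k) (e k) i j t (lt_of_le_of_lt ht.2 h₂) y hy]
  exact hC k t ht y hy

/-- a smaller weight. -/
theorem HiW.weight (h : HiW w s₁ s₂ I r 𝓕) (hle : ∀ y ∈ Icc (-1 : ℝ) 1, w' y ≤ w y) : HiW w' s₁ s₂ I r 𝓕 := by
  intro i hi j hj
  obtain ⟨C, hC⟩ := h i hi j hj
  exact ⟨C, fun k t ht y hy => (mul_le_mul_of_nonneg_right (hle y hy) (abs_nonneg _)).trans (hC k t ht y hy)⟩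

theorem HiW.bound (h : HiW w s₁ s₂ I r 𝓕) {i j : ℕ} (hi : i ≤ I) (hj : j ≤ r) : ∃ C : ℝ, 0 ≤ C ∧
    ∀ k : ℕ, ∀ t ∈ Icc s₁ s₂, ∀ y ∈ Icc (-1 : ℝ) 1, w y * |dY^[j] (dT^[i] (𝓕 k)) (t, y)| ≤ C := by
  obtain ⟨C, hC⟩ := h i hi j hj
  exact ⟨max C 0, le_max_right _ _, fun k t ht y hy => (hC k t ht y hy).trans (le_max_left _ _)⟩

theorem hiW_zero_zero {C : ℝ} (h : ∀ k : ℕ, ∀ t ∈ Icc s₁ s₂, ∀ y ∈ Icc (-1 : ℝ) 1, w y * |𝓕 k (t, y)| ≤ C) :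
    HiW w s₁ s₂ 0 0 𝓕 := by
  intro i hi j hj
  obtain rfl : i = 0 := by omega
  obtain rfl : j = 0 := by omega
  exact ⟨C, h⟩

/-- a fixed smooth function (`Sm.bdd`). -/
theorem hiW_const (hw : HwOK w) (h₂ : s₂ < 0) (hg : Sm g) (s₁ : ℝ) (I r : ℕ) : HiW w s₁ s₂ I r (fun _ => g) := by
  intro i _ j _
  obtain ⟨C, hC0, hC⟩ := ((hg.dT_iter i).dY_iter j).bdd s₁ h₂ (-1) 1
  refine ⟨C, fun _ t ht y hy => ?_⟩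
  exact (mul_le_of_le_one_left (abs_nonneg _) (hw y hy).2).trans (hC t ht y hy)

theorem HiW.dT (h : HiW w s₁ s₂ (I + 1) r 𝓕) : HiW w s₁ s₂ I r (fun k => dT (𝓕 k)) := by
  intro i hi j hj
  obtain ⟨C, hC⟩ := h (i + 1) (Nat.succ_le_succ hi) j hj
  refine ⟨C, fun k t ht y hy => ?_⟩
  have e : Core.dT^[i] (Core.dT (𝓕 k)) = Core.dT^[i + 1] (𝓕 k) := (Function.iterate_succ_apply _ _ _).symm
  show w y * |Core.dY^[j] (Core.dT^[i] (Core.dT (𝓕 k))) (t, y)| ≤ C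
  rw [e]
  exact hC k t ht y hy

theorem HiW.dY (h₂ : s₂ < 0) (hf : ∀ k, Sm (𝓕 k)) (h : HiW w s₁ s₂ I (r + 1) 𝓕) :
    HiW w s₁ s₂ I r (fun k => dY (𝓕 k)) := by
  intro i hi j hj
  obtain ⟨C, hC⟩ := h i hi (j + 1) (Nat.succ_le_succ hj)
  refine ⟨C, fun k t ht y hy => ?_⟩
  have e : Core.dY^[j] (Core.dT^[i] (Core.dY (𝓕 k))) (t, y) = Core.dY^[j + 1] (Core.dT^[i] (𝓕 k)) (t, y) :=
    E2Sm.pd_pdx (hf k) i j t (lt_of_le_of_lt ht.2 h₂) y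
  show w y * |Core.dY^[j] (Core.dT^[i] (Core.dY (𝓕 k))) (t, y)| ≤ C
  rw [e]
  exact hC k t ht y hy

theorem hiW_of_dT (h0 : HiW w s₁ s₂ 0 r 𝓕) (h : HiW w s₁ s₂ I r (fun k => dT (𝓕 k))) : HiW w s₁ s₂ (I + 1) r 𝓕 := by
  intro i hi j hj
  cases i with
  | zero => exact h0 0 le_rfl j hj
  | succ i =>
    obtain ⟨C, hC⟩ := h i (Nat.le_of_succ_le_succ hi) j hj
    refine ⟨C, fun k t ht y hy => ?_⟩
    have e : Core.dT^[i + 1] (𝓕 k) = Core.dT^[i] (Core.dT (𝓕 k)) := Function.iterate_succ_apply _ _ _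
    rw [e]
    exact hC k t ht y hy

theorem hiW_of_dY (h₂ : s₂ < 0) (hf : ∀ k, Sm (𝓕 k)) (h0 : HiW w s₁ s₂ I 0 𝓕)
    (h : HiW w s₁ s₂ I r (fun k => dY (𝓕 k))) : HiW w s₁ s₂ I (r + 1) 𝓕 := by
  intro i hi j hj
  cases j with
  | zero => exact h0 i hi 0 le_rfl
  | succ j =>
    obtain ⟨C, hC⟩ := h i hi j (Nat.le_of_succ_le_succ hj)
    refine ⟨C, fun k t ht y hy => ?_⟩
    have e : Core.dY^[j] (Core.dT^[i] (Core.dY (𝓕 k))) (t, y) = Core.dY^[j + 1] (Core.dT^[i] (𝓕 k)) (t, y) :=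
      E2Sm.pd_pdx (hf k) i j t (lt_of_le_of_lt ht.2 h₂) y
    rw [← e]
    exact hC k t ht y hy

/-! ### algebra -/

theorem HiW.add (hw : HwOK w) (h₂ : s₂ < 0) (hf : ∀ k, Sm (𝓕 k)) (hg : ∀ k, Sm (𝓖 k)) (h : HiW w s₁ s₂ I r 𝓕)
    (h' : HiW w s₁ s₂ I r 𝓖) : HiW w s₁ s₂ I r (fun k p => 𝓕 k p + 𝓖 k p) := by
  intro i hi j hj
  obtain ⟨C, hC⟩ := h i hi j hj
  obtain ⟨C', hC'⟩ := h' i hi j hj
  refine ⟨C + C', fun k t ht y hy => ?_⟩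
  have e : Core.dY^[j] (Core.dT^[i] (fun p => 𝓕 k p + 𝓖 k p)) (t, y)
      = Core.dY^[j] (Core.dT^[i] (𝓕 k)) (t, y) + Core.dY^[j] (Core.dT^[i] (𝓖 k)) (t, y) :=
    e2Pd_add (hf k) (hg k) i j t (lt_of_le_of_lt ht.2 h₂) y
  rw [e]
  refine (mul_le_mul_of_nonneg_left (abs_add_le _ _) (hw y hy).1).trans ?_
  rw [mul_add]
  exact add_le_add (hC k t ht y hy) (hC' k t ht y hy)

theorem HiW.neg (h₂ : s₂ < 0) (hf : ∀ k, Sm (𝓕 k)) (h : HiW w s₁ s₂ I r 𝓕) :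
    HiW w s₁ s₂ I r (fun k p => -𝓕 k p) := by
  intro i hi j hj
  obtain ⟨C, hC⟩ := h i hi j hj
  refine ⟨C, fun k t ht y hy => ?_⟩
  have e : Core.dY^[j] (Core.dT^[i] (fun p => -𝓕 k p)) (t, y) = -Core.dY^[j] (Core.dT^[i] (𝓕 k)) (t, y) :=
    e2Pd_neg (hf k) i j t (lt_of_le_of_lt ht.2 h₂) y
  rw [e, abs_neg]
  exact hC k t ht y hy

theorem HiW.sub (hw : HwOK w) (h₂ : s₂ < 0) (hf : ∀ k, Sm (𝓕 k)) (hg : ∀ k, Sm (𝓖 k)) (h : HiW w s₁ s₂ I r 𝓕)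
    (h' : HiW w s₁ s₂ I r 𝓖) : HiW w s₁ s₂ I r (fun k p => 𝓕 k p - 𝓖 k p) := by
  intro i hi j hj
  obtain ⟨C, hC⟩ := h i hi j hj
  obtain ⟨C', hC'⟩ := h' i hi j hj
  refine ⟨C + C', fun k t ht y hy => ?_⟩
  have e : Core.dY^[j] (Core.dT^[i] (fun p => 𝓕 k p - 𝓖 k p)) (t, y)
      = Core.dY^[j] (Core.dT^[i] (𝓕 k)) (t, y) - Core.dY^[j] (Core.dT^[i] (𝓖 k)) (t, y) :=
    e2Pd_sub (hf k) (hg k) i j t (lt_of_le_of_lt ht.2 h₂) y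
  rw [e]
  refine (mul_le_mul_of_nonneg_left (abs_sub _ _) (hw y hy).1).trans ?_
  rw [mul_add]
  exact add_le_add (hC k t ht y hy) (hC' k t ht y hy)

theorem hiW_sum (hw : HwOK w) (h₂ : s₂ < 0) {ι : Type} (s : Finset ι) {𝓗 : ι → ℕ → Fn}
    (hf : ∀ a ∈ s, ∀ k, Sm (𝓗 a k)) (h : ∀ a ∈ s, HiW w s₁ s₂ I r (𝓗 a)) :
    HiW w s₁ s₂ I r (fun k p => ∑ a ∈ s, 𝓗 a k p) := by
  intro i hi j hj
  choose! C hC using fun a (ha : a ∈ s) => h a ha i hi j hj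
  refine ⟨∑ a ∈ s, C a, fun k t ht y hy => ?_⟩
  have e : Core.dY^[j] (Core.dT^[i] (fun p => ∑ a ∈ s, 𝓗 a k p)) (t, y) = ∑ a ∈ s, Core.dY^[j] (Core.dT^[i] (𝓗 a k)) (t, y) :=
    e2Pd_sum s (fun a ha => hf a ha k) i j t (lt_of_le_of_lt ht.2 h₂) y
  rw [e]
  refine (mul_le_mul_of_nonneg_left (Finset.abs_sum_le_sum_abs _ _) (hw y hy).1).trans ?_
  rw [Finset.mul_sum]
  exact Finset.sum_le_sum fun a ha => hC a ha k t ht y hy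

/-- products, `I = 0`. -/
theorem hiW_mul_zero (hw₁ : HwOK w₁) (hw₂ : HwOK w₂) (h₂ : s₂ < 0) (hf : ∀ k, Sm (𝓕 k)) (hg : ∀ k, Sm (𝓖 k))
    (h : HiW w₁ s₁ s₂ 0 r 𝓕) (h' : HiW w₂ s₁ s₂ 0 r 𝓖) :
    HiW (fun y => w₁ y * w₂ y) s₁ s₂ 0 r (fun k p => 𝓕 k p * 𝓖 k p) := by
  induction r generalizing 𝓕 𝓖 with
  | zero =>
    obtain ⟨C, hC⟩ := h 0 le_rfl 0 le_rfl
    obtain ⟨C', hC'⟩ := h' 0 le_rfl 0 le_rfl
    refine hiW_zero_zero (C := |C| * |C'|) fun k t ht y hy => ?_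
    have e : w₁ y * w₂ y * |𝓕 k (t, y) * 𝓖 k (t, y)| = (w₁ y * |𝓕 k (t, y)|) * (w₂ y * |𝓖 k (t, y)|) := by
      rw [abs_mul]
      ring
    rw [e]
    exact mul_le_mul ((hC k t ht y hy).trans (le_abs_self _)) ((hC' k t ht y hy).trans (le_abs_self _))
      (mul_nonneg (hw₂ y hy).1 (abs_nonneg _)) (abs_nonneg _)
  | succ r ih =>
    refine hiW_of_dY h₂ (fun k => (hf k).mul (hg k))
      ((ih hf hg (h.mono le_rfl (Nat.le_succ r)) (h'.mono le_rfl (Nat.le_succ r))).mono le_rfl (Nat.zero_le r)) ?_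
    have h1 : HiW (fun y => w₁ y * w₂ y) s₁ s₂ 0 r (fun k p => Core.dY (𝓕 k) p * 𝓖 k p) :=
      ih (fun k => (hf k).dY) hg (h.dY h₂ hf) (h'.mono le_rfl (Nat.le_succ r))
    have h2 : HiW (fun y => w₁ y * w₂ y) s₁ s₂ 0 r (fun k p => 𝓕 k p * Core.dY (𝓖 k) p) :=
      ih hf (fun k => (hg k).dY) (h.mono le_rfl (Nat.le_succ r)) (h'.dY h₂ hg)
    refine HiW.congr h₂ (fun k => ((hf k).dY.mul (hg k)).add ((hf k).mul (hg k).dY))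
      (fun k => ((hf k).mul (hg k)).dY)
      (HiW.add (hw₁.mul hw₂) h₂ (fun k => (hf k).dY.mul (hg k)) (fun k => (hf k).mul (hg k).dY) h1 h2) ?_
    intro k t ht y _
    exact dY_mul (hf k) (hg k) ht y

/-- **products**: the weights multiply. -/
theorem HiW.mul (hw₁ : HwOK w₁) (hw₂ : HwOK w₂) (h₂ : s₂ < 0) (hf : ∀ k, Sm (𝓕 k)) (hg : ∀ k, Sm (𝓖 k))
    (h : HiW w₁ s₁ s₂ I r 𝓕) (h' : HiW w₂ s₁ s₂ I r 𝓖) :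
    HiW (fun y => w₁ y * w₂ y) s₁ s₂ I r (fun k p => 𝓕 k p * 𝓖 k p) := by
  induction I generalizing 𝓕 𝓖 with
  | zero => exact hiW_mul_zero hw₁ hw₂ h₂ hf hg h h'
  | succ I ih =>
    refine hiW_of_dT
      (hiW_mul_zero hw₁ hw₂ h₂ hf hg (h.mono (Nat.zero_le _) le_rfl) (h'.mono (Nat.zero_le _) le_rfl)) ?_
    have h1 : HiW (fun y => w₁ y * w₂ y) s₁ s₂ I r (fun k p => Core.dT (𝓕 k) p * 𝓖 k p) :=
      ih (fun k => (hf k).dT) hg h.dT (h'.mono (Nat.le_succ I) le_rfl)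
    have h2 : HiW (fun y => w₁ y * w₂ y) s₁ s₂ I r (fun k p => 𝓕 k p * Core.dT (𝓖 k) p) :=
      ih hf (fun k => (hg k).dT) (h.mono (Nat.le_succ I) le_rfl) h'.dT
    refine HiW.congr h₂ (fun k => ((hf k).dT.mul (hg k)).add ((hf k).mul (hg k).dT))
      (fun k => ((hf k).mul (hg k)).dT)
      (HiW.add (hw₁.mul hw₂) h₂ (fun k => (hf k).dT.mul (hg k)) (fun k => (hf k).mul (hg k).dT) h1 h2) ?_
    intro k t ht y _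
    exact dT_mul (hf k) (hg k) ht y

/-- bounded times weighted. -/
theorem HiW.mul0 (hw : HwOK w) (h₂ : s₂ < 0) (hf : ∀ k, Sm (𝓕 k)) (hg : ∀ k, Sm (𝓖 k))
    (h : HiW hw0 s₁ s₂ I r 𝓕) (h' : HiW w s₁ s₂ I r 𝓖) : HiW w s₁ s₂ I r (fun k p => 𝓕 k p * 𝓖 k p) :=
  (HiW.mul hwOK_0 hw h₂ hf hg h h').weight fun y _ => (one_mul (w y)).symm.le

/-- `𝔔 · 𝔔 ⊆ ℌ`. -/
theorem HiW.mulQQ (h₂ : s₂ < 0) (hf : ∀ k, Sm (𝓕 k)) (hg : ∀ k, Sm (𝓖 k))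
    (h : HiW hwQ s₁ s₂ I r 𝓕) (h' : HiW hwQ s₁ s₂ I r 𝓖) : HiW hwH s₁ s₂ I r (fun k p => 𝓕 k p * 𝓖 k p) :=
  (HiW.mul hwOK_Q hwOK_Q h₂ hf hg h h').weight fun _ hy => (hwQ_mul_hwQ hy).symm.le

theorem hiW_dT_iter_X_mul (hf : Sm f) (i : ℕ) : ∀ t < 0, ∀ y : ℝ,
    Core.dT^[i] (fun p => Xf p.2 * f p) (t, y) = Xf y * Core.dT^[i] f (t, y) := by
  induction i generalizing f with
  | zero => intro t _ y; rfl
  | succ i ih =>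
    intro t ht y
    rw [Function.iterate_succ_apply, Function.iterate_succ_apply, ← ih hf.dT t ht y]
    exact e2Pdt_iter_congr (T := 0) (fun t ht y => dT_y_mul Xf hf ht y) i t ht y

/-- `X ℌ ⊆ 𝔅₀`      (`∂_t^i (X f) = X ∂_t^i f`: `dT_y_mul`;  `X |f| = √X (√X |f|) ≤ C`). -/
theorem HiW.X_mul (h₂ : s₂ < 0) (hf : ∀ k, Sm (𝓕 k)) (h : HiW hwH s₁ s₂ I 0 𝓕) :
    HiW hw0 s₁ s₂ I 0 (fun k p => Xf p.2 * 𝓕 k p) := by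
  intro i hi j hj
  obtain rfl : j = 0 := by omega
  obtain ⟨C, hC0, hC⟩ := h.bound hi (le_refl 0)
  refine ⟨C, fun k t ht y hy => ?_⟩
  show hw0 y * |Core.dT^[i] (fun p => Xf p.2 * 𝓕 k p) (t, y)| ≤ C
  rw [hiW_dT_iter_X_mul (hf k) i t (lt_of_le_of_lt ht.2 h₂) y, abs_mul, abs_of_nonneg (hiW_Xf_mem hy).1,
    ← hwH_mul_hwH hy]
  have h1 : hwH y * |Core.dT^[i] (𝓕 k) (t, y)| ≤ C := hC k t ht y hy
  have h2 : 0 ≤ hwH y * |Core.dT^[i] (𝓕 k) (t, y)| := mul_nonneg (hwOK_H y hy).1 (abs_nonneg _)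
  have h3 : hwH y * (hwH y * |Core.dT^[i] (𝓕 k) (t, y)|) ≤ hwH y * |Core.dT^[i] (𝓕 k) (t, y)| :=
    mul_le_of_le_one_left h2 (hwOK_H y hy).2
  have e : hw0 y * (hwH y * hwH y * |Core.dT^[i] (𝓕 k) (t, y)|) = hwH y * (hwH y * |Core.dT^[i] (𝓕 k) (t, y)|) := by
    unfold hw0
    ring
  rw [e]
  exact h3.trans h1

/-! ### `HiB0 = HiW hw0 · 0` -/

theorem HiB0.bound (h : HiB0 s₁ s₂ n 𝓕) {j : ℕ} (hj : j ≤ n) : ∃ C : ℝ, 0 ≤ C ∧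
    ∀ k : ℕ, ∀ t ∈ Icc s₁ s₂, ∀ y ∈ Icc (-1 : ℝ) 1, |dT^[j] (𝓕 k) (t, y)| ≤ C := by
  obtain ⟨C, hC0, hC⟩ := HiW.bound h hj (le_refl 0)
  refine ⟨C, hC0, fun k t ht y hy => ?_⟩
  have h1 : hw0 y * |Core.dT^[j] (𝓕 k) (t, y)| ≤ C := hC k t ht y hy
  unfold hw0 at h1
  rwa [one_mul] at h1

theorem hiB0_zero {C : ℝ} (h : ∀ k : ℕ, ∀ t ∈ Icc s₁ s₂, ∀ y ∈ Icc (-1 : ℝ) 1, |𝓕 k (t, y)| ≤ C) :
    HiB0 s₁ s₂ 0 𝓕 :=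
  hiW_zero_zero (C := C) fun k t ht y hy => by
    unfold hw0
    rw [one_mul]
    exact h k t ht y hy

end Claimed.Agent.R324.Core
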