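/-
Row 324, module HI, file Beta: the time cut-off `hiTh τc` and the control terms `hiSb Ac (β k) j = Σ_i β_{k,i}(τ(t)) Ac_i j` are smooth, and bounded with all derivatives uniformly in `k` (`Iter.βbd`).
PORT (almost verbatim) of R325/Core/HI/Beta.lean (Claimed/Agent/R325/Pk55.lean), with `HiBd` replaced by `HiW hw0` (HI/W.lean) and triples.
`∂_t [φ(τ(t))] = φ'(τ(t)) / (-t)`, `tauOf t = - log (-t)`.
-/
import Claimed.Agent.R324.Core.HI.W

set_option autoImplicit false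

namespace Claimed.Agent.R324.Core

open Set Filter Topology MeasureTheory
open scoped ContDiff

variable {q : ℝ} {g : Bg} {Γ : ℝ} {κ : HiC} {S : HNSt} {ε τs Δ : ℝ} {N : ℕ} {Ac : Fin N → Tri}
  {U : ℕ → Tri} {β : ℕ → ℝ → EuclideanSpace ℝ (Fin N)} {s₁ s₂ t : ℝ}

theorem hi_tOf_neg (τ : ℝ) : tOf τ < 0 := by
  unfold tOf
  exact neg_lt_zero.mpr (Real.exp_pos _)

theorem hi_tOf_lt {τ τ' : ℝ} (h : τ < τ') : tOf τ < tOf τ' := by
  unfold tOf
  exact neg_lt_neg (Real.exp_lt_exp.mpr (neg_lt_neg h))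

theorem hi_tauOf_ge {τ : ℝ} (ht : tOf τ ≤ t) (ht0 : t < 0) : τ ≤ tauOf t := by
  unfold tOf at ht
  unfold tauOf
  have h1 : -t ≤ Real.exp (-τ) := by linarith
  have h2 : Real.log (-t) ≤ -τ := by
    have := Real.log_le_log (by linarith : (0 : ℝ) < -t) h1
    rwa [Real.log_exp] at this
  linarith

theorem hi_Beta_tauOf_sm : Sm (fun p : ℝ × ℝ => tauOf p.1) := by
  unfold tauOf
  exact (sm_fst.neg.log (fun t ht _ => ne_of_gt (by simpa using ht))).neg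

theorem hi_Beta_tauOf_hasDerivAt (ht : t < 0) : HasDerivAt tauOf (1 / (-t)) t := by
  unfold tauOf
  have h1 : HasDerivAt (fun s : ℝ => -s) (-1) t := (hasDerivAt_id t).neg
  have h2 : HasDerivAt (fun s : ℝ => -Real.log (-s)) (-(-1 / -t)) t :=
    (h1.log (ne_of_gt (by linarith : (0 : ℝ) < -t))).neg
  have e : (1 : ℝ) / (-t) = -(-1 / -t) := by rw [neg_div, neg_neg]
  rw [e]
  exact h2

theorem sm_hiTh (τc : ℝ) : Sm (hiTh τc) := by
  unfold hiTh thetaC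
  exact Sm.comp Real.smoothTransition.contDiff (hi_Beta_tauOf_sm.sub (sm_const τc))

theorem hi_Th_nonneg (τc : ℝ) (p : ℝ × ℝ) : 0 ≤ hiTh τc p := Real.smoothTransition.nonneg _

theorem hi_Th_le_one (τc : ℝ) (p : ℝ × ℝ) : hiTh τc p ≤ 1 := Real.smoothTransition.le_one _

theorem hi_Th_one (τc : ℝ) (ht : tOf (τc + 1) ≤ t) (ht0 : t < 0) (y : ℝ) : hiTh τc (t, y) = 1 := by
  have h1 : τc + 1 ≤ tauOf t := hi_tauOf_ge ht ht0
  exact Real.smoothTransition.one_of_one_le (by linarith)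

theorem hi_beta_sm {b : ℝ → EuclideanSpace ℝ (Fin N)} (hb : ContDiff ℝ ∞ b) (l : ℕ) (i : Fin N) :
    Sm (fun p : ℝ × ℝ => (iteratedDeriv l b (tauOf p.1)) i) := by
  have h1 : ContDiff ℝ ∞ (iteratedDeriv l b) := by
    rw [iteratedDeriv_eq_iterate]
    exact hb.iterate_deriv l
  have h2 : ContDiff ℝ ∞ (fun s => (iteratedDeriv l b s) i) := contDiff_euclidean.1 h1 i
  exact Sm.comp h2 hi_Beta_tauOf_sm

theorem hi_Beta_inv_sm : Sm (fun p : ℝ × ℝ => 1 / (-p.1)) :=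
  (sm_const 1).div sm_fst.neg (fun t ht _ => ne_of_gt (by simpa using ht))

theorem hi_Beta_hasDerivAt {b : ℝ → EuclideanSpace ℝ (Fin N)} (hb : ContDiff ℝ ∞ b) (l : ℕ)
    (i : Fin N) (ht : t < 0) :
    HasDerivAt (fun s => (iteratedDeriv l b (tauOf s)) i)
      ((iteratedDeriv (l + 1) b (tauOf t)) i * (1 / (-t))) t := by
  have h1 : ContDiff ℝ ∞ (iteratedDeriv l b) := by
    rw [iteratedDeriv_eq_iterate]
    exact hb.iterate_deriv l
  have h2 : HasDerivAt (iteratedDeriv l b) (iteratedDeriv (l + 1) b (tauOf t)) (tauOf t) := by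
    rw [iteratedDeriv_succ]
    exact ((h1.differentiable (by simp)) _).hasDerivAt
  have h3 : HasDerivAt (fun s => (iteratedDeriv l b s) i)
      ((iteratedDeriv (l + 1) b (tauOf t)) i) (tauOf t) :=
    (EuclideanSpace.proj i : EuclideanSpace ℝ (Fin N) →L[ℝ] ℝ).hasFDerivAt.comp_hasDerivAt _ h2
  exact h3.comp t (hi_Beta_tauOf_hasDerivAt ht)

theorem hi_Beta_base (C : HiCtx q g Γ κ S ε τs Δ N Ac U β) (s₁ s₂ : ℝ) (l : ℕ) (i : Fin N) :
    HiW hw0 s₁ s₂ 0 0 (fun k p => (iteratedDeriv l (β k) (tauOf p.1)) i) := by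
  obtain ⟨Cβ, hCβ⟩ := C.it.βbd
  refine hiW_zero_zero (C := Cβ l) fun n t _ y _ => ?_
  change (1 : ℝ) * |(iteratedDeriv l (β n) (tauOf t)) i| ≤ Cβ l
  rw [one_mul, ← Real.norm_eq_abs]
  exact (PiLp.norm_apply_le _ i).trans (hCβ n l _).1

theorem hi_Beta_r0 (C : HiCtx q g Γ κ S ε τs Δ N Ac U β) (h₂ : s₂ < 0) (I : ℕ) :
    ∀ (l : ℕ) (i : Fin N), HiW hw0 s₁ s₂ I 0 (fun k p => (iteratedDeriv l (β k) (tauOf p.1)) i) := by
  induction I with
  | zero => exact fun l i => hi_Beta_base C s₁ s₂ l i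
  | succ I ih =>
    intro l i
    have hmul : HiW hw0 s₁ s₂ I 0
        (fun n p => (iteratedDeriv (l + 1) (β n) (tauOf p.1)) i * (1 / (-p.1))) :=
      HiW.mul0 hwOK_0 h₂ (fun n => hi_beta_sm (C.it.βsm n) (l + 1) i) (fun _ => hi_Beta_inv_sm)
        (ih (l + 1) i) (hiW_const hwOK_0 h₂ hi_Beta_inv_sm s₁ I 0)
    refine hiW_of_dT (hi_Beta_base C s₁ s₂ l i) (HiW.congr h₂
      (fun n => (hi_beta_sm (C.it.βsm n) (l + 1) i).mul hi_Beta_inv_sm)
      (fun n => (hi_beta_sm (C.it.βsm n) l i).dT) hmul ?_)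
    intro n t ht y _
    exact (hi_Beta_hasDerivAt (C.it.βsm n) l i ht).deriv

theorem hi_beta_W (C : HiCtx q g Γ κ S ε τs Δ N Ac U β) (h₂ : s₂ < 0) (I r l : ℕ) (i : Fin N) :
    HiW hw0 s₁ s₂ I r (fun k p => (iteratedDeriv l (β k) (tauOf p.1)) i) := by
  cases r with
  | zero => exact hi_Beta_r0 C h₂ I l i
  | succ r =>
    apply hiW_of_dY h₂ (fun n => hi_beta_sm (C.it.βsm n) l i) (hi_Beta_r0 C h₂ I l i)
    have e : (fun n => dY (fun p : ℝ × ℝ => (iteratedDeriv l (β n) (tauOf p.1)) i))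
        = fun _ _ => (0 : ℝ) := by
      funext n p
      simp [dY]
    rw [e]
    exact hiW_const hwOK_0 h₂ (sm_const 0) s₁ I r

theorem hi_Beta_sm0 (C : HiCtx q g Γ κ S ε τs Δ N Ac U β) (i : Fin N) (n : ℕ) :
    Sm (fun p : ℝ × ℝ => β n (tauOf p.1) i) := by
  have := hi_beta_sm (C.it.βsm n) 0 i
  simpa only [iteratedDeriv_zero] using this

theorem sm_hiSb (C : HiCtx q g Γ κ S ε τs Δ N Ac U β) (k : ℕ) : SmTri (hiSb Ac (β k)) := by
  intro j
  exact sm_sum Finset.univ (F := fun i p => β k (tauOf p.1) i * Ac i j p)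
    (fun i _ => (hi_Beta_sm0 C i k).mul (C.hAc i j))

theorem hi_Sb_W (C : HiCtx q g Γ κ S ε τs Δ N Ac U β) (h₂ : s₂ < 0) (I r : ℕ) (j : Fin 3) :
    HiW hw0 s₁ s₂ I r (fun k => hiSb Ac (β k) j) := by
  have hbd : ∀ i : Fin N, HiW hw0 s₁ s₂ I r (fun n (p : ℝ × ℝ) => β n (tauOf p.1) i) := by
    intro i
    have := hi_beta_W C (s₁ := s₁) h₂ I r 0 i
    simpa only [iteratedDeriv_zero] using this
  exact hiW_sum hwOK_0 h₂ Finset.univ (𝓗 := fun i n p => β n (tauOf p.1) i * Ac i j p)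
    (fun i _ n => (hi_Beta_sm0 C i n).mul (C.hAc i j))
    (fun i _ => HiW.mul0 hwOK_0 h₂ (hi_Beta_sm0 C i) (fun _ => C.hAc i j) (hbd i)
      (hiW_const hwOK_0 h₂ (C.hAc i j) s₁ I r))

/-- the control vanishes for `τ(t) ≥ τs + Δ`. -/
theorem hi_Sb_zero (C : HiCtx q g Γ κ S ε τs Δ N Ac U β) (k : ℕ) (ht : tOf (τs + Δ) ≤ t) (ht0 : t < 0)
    (j : Fin 3) (y : ℝ) : hiSb Ac (β k) j (t, y) = 0 := by
  have h1 : τs + Δ ≤ tauOf t := hi_tauOf_ge ht ht0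
  have h2 : β k (tauOf t) = 0 := C.it.βsupp k _ (Or.inr h1)
  simp only [hiSb, h2]
  simp

end Claimed.Agent.R324.Core
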