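/-
Row 324, module HI, file Ops: the operators on triples (`dT3`, `tAdd`, `uT`, `hvT`, `hdef`, `hpp`, `Lt`): smoothness, commutation with `dT`, linearity.
All identities hold for `t < 0` and ALL real `y`.   Tools: Core/PR/Sm.lean (`dT_add`, `dT_mul`, `dT_y_mul`, `Sm.dT_dY`, ...), Core/PR/Jet0.lean, Core/PR/SmR.lean (`sm_Lt`, `bgR_sm`).
-/
import Claimed.Agent.R324.Core.HI.Strip

set_option autoImplicit false

namespace Claimed.Agent.R324.Core

open Set Filter Topology MeasureTheory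
open scoped ContDiff

noncomputable section

variable {q : ℝ} {g : Bg} {U V : Tri} {f : Fn} {t : ℝ}

/-! ### smoothness -/

theorem SmTri.dT3 (hU : SmTri U) : SmTri (dT3 U) := fun j => (hU j).dT

theorem SmTri.dT3_iter (hU : SmTri U) (J : ℕ) : SmTri (Core.dT3^[J] U) := by
  induction J with
  | zero => exact hU
  | succ n ih =>
    rw [Function.iterate_succ_apply']
    exact ih.dT3

theorem SmTri.tAdd (hU : SmTri U) (h : ℝ) (hV : SmTri V) : SmTri (tAdd U h V) :=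
  fun j => (hU j).add ((hV j).const_mul h)

theorem SmTri.uT (hU : SmTri U) : SmTri (uT U) := fun i => sm_uT hU i

theorem SmTri.Lt (hq : 1 < q) (hg : BgSm g) (hU : SmTri U) : SmTri (Lt q g U) := fun j => sm_Lt hq hg hU j

theorem SmTri.hvT (hq : 1 < q) (hg : BgSm g) (hU : SmTri U) : SmTri (hvT q g U) := (hU.Lt hq hg).uT

theorem SmTri.hdef (hq : 1 < q) (hg : BgSm g) (hU : SmTri U) : SmTri (hdef q g U) :=
  fun j => (hU j).dT.sub (sm_Lt hq hg hU j)

theorem SmTri.NN (hq : 1 < q) (hg : BgSm g) (hU : SmTri U) : SmTri (NN q g U) := fun j => sm_NN hq hg hU j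

theorem sm_hpp (e : ℝ) (hU : SmTri U) (c : Fin 5) : Sm (hpp e U c) := by
  fin_cases c
  · exact (hU 0).dY
  · exact (hU 1).dY
  · exact hU 2
  · exact sm_Xf.mul (hU 2).dY
  · exact sm_const e

theorem sm_hxr (j : Fin 3) : Sm (hxr j) := by
  unfold hxr
  by_cases h : j = 2
  · simp only [if_pos h]
    exact sm_const 1
  · simp only [if_neg h]
    exact sm_Xf

theorem sm_hxu (i : Fin 3) : Sm (hxu i) := by
  unfold hxu
  by_cases h : i = 2
  · simp only [if_pos h]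
    exact sm_Xf
  · simp only [if_neg h]
    exact sm_const 1

/-! ### commutation with `dT` -/

theorem hi_dT_ttF (hf : Sm f) (ht : t < 0) (y : ℝ) : dT (ttF f) (t, y) = ttF (dT f) (t, y) := by
  have h1 : dT (ttF f) (t, y) = -(Xf y) * dT (dY f) (t, y) :=
    dT_y_mul (fun z => -(Xf z)) hf.dY ht y
  rw [h1, hf.dT_dY ht y]
  rfl

theorem hi_dT_iter_ttF (hf : Sm f) (j : ℕ) (ht : t < 0) (y : ℝ) : dT^[j] (ttF f) (t, y) = ttF (dT^[j] f) (t, y) := by
  induction j generalizing t with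
  | zero => rfl
  | succ n ih =>
    rw [Function.iterate_succ_apply', Function.iterate_succ_apply',
      dT_congr (g := ttF (dT^[n] f)) (fun s hs => ih hs) ht, hi_dT_ttF (hf.dT_iter n) ht y]

theorem hi_dT_uT (hU : SmTri U) (i : Fin 3) (ht : t < 0) (y : ℝ) : dT (uT U i) (t, y) = uT (dT3 U) i (t, y) := by
  have h0 : dT (uT U 0) (t, y) = uT (dT3 U) 0 (t, y) := by
    rw [uT_zero, uT_zero]; rfl
  have h1 : dT (uT U 1) (t, y) = uT (dT3 U) 1 (t, y) := by
    rw [uT_one, uT_one]; rfl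
  have h2 : dT (uT U 2) (t, y) = uT (dT3 U) 2 (t, y) := by
    rw [uT_two, uT_two]
    exact dT_y_mul Xf (hU 2) ht y
  fin_cases i
  · exact h0
  · exact h1
  · exact h2

theorem hi_dT_iter_uT (hU : SmTri U) (i : Fin 3) (j : ℕ) (ht : t < 0) (y : ℝ) :
    dT^[j] (uT U i) (t, y) = uT (dT3^[j] U) i (t, y) := by
  induction j generalizing t with
  | zero => rfl
  | succ n ih =>
    rw [Function.iterate_succ_apply', Function.iterate_succ_apply',
      dT_congr (g := uT (dT3^[n] U) i) (fun s hs => ih hs) ht, hi_dT_uT (hU.dT3_iter n) i ht y]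

/-- `∂_t (σ', h₃', b, X b', e) = ` the jets of `∂_t U` with fifth entry `0`. -/
theorem hi_dT_pp (e : ℝ) (hU : SmTri U) (c : Fin 5) (ht : t < 0) (y : ℝ) :
    dT (hpp e U c) (t, y) = hpp 0 (dT3 U) c (t, y) := by
  have h3 : dT (fun p => Xf p.2 * dY (U 2) p) (t, y) = Xf y * dY (dT (U 2)) (t, y) := by
    rw [dT_y_mul Xf (hU 2).dY ht y, (hU 2).dT_dY ht y]
  fin_cases c
  · exact (hU 0).dT_dY ht y
  · exact (hU 1).dT_dY ht y
  · rfl
  · exact h3
  · exact dT_const e (t, y)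

theorem hi_dT3_iter_apply (U : Tri) (J : ℕ) (j : Fin 3) : dT3^[J] U j = dT^[J] (U j) := by
  induction J with
  | zero => rfl
  | succ n ih =>
    rw [Function.iterate_succ_apply', Function.iterate_succ_apply']
    show dT (dT3^[n] U j) = _
    rw [ih]

/-- multiplication by a function of `y` commutes with `dT`. -/
theorem hi_dT_iter_X_mul (hf : Sm f) (j : ℕ) (ht : t < 0) (y : ℝ) :
    dT^[j] (fun p => Xf p.2 * f p) (t, y) = Xf y * dT^[j] f (t, y) := by
  induction j generalizing t with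
  | zero => rfl
  | succ n ih =>
    rw [Function.iterate_succ_apply', Function.iterate_succ_apply',
      dT_congr (g := fun p => Xf p.2 * dT^[n] f p) (fun s hs => ih hs) ht,
      dT_y_mul Xf (hf.dT_iter n) ht y]

/-! ### linearity -/

theorem hi_uT_tAdd (U V : Tri) (h : ℝ) (i : Fin 3) (p : ℝ × ℝ) : uT (tAdd U h V) i p = uT U i p + h * uT V i p := by
  unfold uT tAdd
  split_ifs
  · ring
  · rfl

theorem hi_dY_tAdd (hU : SmTri U) (hV : SmTri V) (h : ℝ) (j : Fin 3) (ht : t < 0) (y : ℝ) :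
    dY (tAdd U h V j) (t, y) = dY (U j) (t, y) + h * dY (V j) (t, y) := by
  have h0 : tAdd U h V j = fun p => U j p + h * V j p := rfl
  rw [h0, dY_add (hU j) ((hV j).const_mul h) ht y, dY_const_mul h (hV j) ht y]

theorem hi_dY_dY_tAdd (hU : SmTri U) (hV : SmTri V) (h : ℝ) (j : Fin 3) (ht : t < 0) (y : ℝ) :
    dY (dY (tAdd U h V j)) (t, y) = dY (dY (U j)) (t, y) + h * dY (dY (V j)) (t, y) := by
  rw [dY_congr (g := fun p => dY (U j) p + h * dY (V j) p) (fun z => hi_dY_tAdd hU hV h j ht z) y,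
    dY_add (hU j).dY ((hV j).dY.const_mul h) ht y, dY_const_mul h (hV j).dY ht y]

theorem hi_Lt_tAdd (hU : SmTri U) (hV : SmTri V) (h : ℝ) (j : Fin 3) (ht : t < 0) (y : ℝ) :
    Lt q g (tAdd U h V) j (t, y) = Lt q g U j (t, y) + h * Lt q g V j (t, y) := by
  unfold Lt Lop
  simp only [hi_dY_tAdd hU hV h j ht y, hi_dY_dY_tAdd hU hV h j ht y, Fin.sum_univ_three]
  simp only [tAdd]
  ring

theorem hi_hvT_tAdd (hU : SmTri U) (hV : SmTri V) (h : ℝ) (i : Fin 3) (ht : t < 0) (y : ℝ) :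
    hvT q g (tAdd U h V) i (t, y) = hvT q g U i (t, y) + h * hvT q g V i (t, y) := by
  unfold hvT uT
  split_ifs
  · rw [hi_Lt_tAdd hU hV h 2 ht y]
    ring
  · exact hi_Lt_tAdd hU hV h i ht y

/-- the jets of `U + h V`. -/
theorem hi_pp_tAdd (e : ℝ) (hU : SmTri U) (hV : SmTri V) (h : ℝ) (c : Fin 5) (ht : t < 0) (y : ℝ) :
    hpp e (tAdd U h V) c (t, y) = hpp e U c (t, y) + h * hpp 0 V c (t, y) := by
  have h3 : Xf y * dY (tAdd U h V 2) (t, y)
      = Xf y * dY (U 2) (t, y) + h * (Xf y * dY (V 2) (t, y)) := by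
    rw [hi_dY_tAdd hU hV h 2 ht y]; ring
  have h4 : e = e + h * 0 := by ring
  fin_cases c
  · exact hi_dY_tAdd hU hV h 0 ht y
  · exact hi_dY_tAdd hU hV h 1 ht y
  · rfl
  · exact h3
  · exact h4

/-! ### `X π` in terms of `u`, `tt u` -/

/-- `X σ' = - tt σ`, `X h₃' = - tt h₃`, `X b = u₂`, `X (X b') = 2 y u₂ - tt u₂`, `X e`. -/
theorem hi_X_pp (e : ℝ) (hU : SmTri U) (ht : t < 0) (y : ℝ) (c : Fin 5) :
    Xf y * hpp e U c (t, y) =
      (![-ttF (uT U 0) (t, y), -ttF (uT U 1) (t, y), uT U 2 (t, y),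
        2 * y * uT U 2 (t, y) - ttF (uT U 2) (t, y), Xf y * e] : Fin 5 → ℝ) c := by
  have h0 : Xf y * dY (U 0) (t, y) = -ttF (uT U 0) (t, y) := by
    have : ttF (uT U 0) (t, y) = -(Xf y) * dY (U 0) (t, y) := by rw [uT_zero]; rfl
    rw [this]; ring
  have h1 : Xf y * dY (U 1) (t, y) = -ttF (uT U 1) (t, y) := by
    have : ttF (uT U 1) (t, y) = -(Xf y) * dY (U 1) (t, y) := by rw [uT_one]; rfl
    rw [this]; ring
  have h2 : Xf y * U 2 (t, y) = uT U 2 (t, y) := by rw [uT_two]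
  have h3 : Xf y * (Xf y * dY (U 2) (t, y)) = 2 * y * uT U 2 (t, y) - ttF (uT U 2) (t, y) := by
    rw [uT_two, ttF_X_mul (hU 2) ht y]
    show _ = 2 * y * (Xf y * U 2 (t, y)) - _
    ring
  fin_cases c
  · exact h0
  · exact h1
  · exact h2
  · exact h3
  · rfl

/-- `∂_y u` in terms of the jets: `u₀' = π₀`, `u₁' = π₁`, `u₂' = π₃ - 2 y π₂`. -/
theorem hi_dY_uT (e : ℝ) (hU : SmTri U) (ht : t < 0) (y : ℝ) (b : Fin 3) :
    dY (uT U b) (t, y) =
      (![hpp e U 0 (t, y), hpp e U 1 (t, y), hpp e U 3 (t, y) - 2 * y * hpp e U 2 (t, y)] : Fin 3 → ℝ) b := by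
  have h0 : dY (uT U 0) (t, y) = dY (U 0) (t, y) := by rw [uT_zero]
  have h1 : dY (uT U 1) (t, y) = dY (U 1) (t, y) := by rw [uT_one]
  have h2 : dY (uT U 2) (t, y) = Xf y * dY (U 2) (t, y) - 2 * y * U 2 (t, y) := by
    rw [uT_two, dY_X_mul (hU 2) ht y]; ring
  fin_cases b
  · exact h0
  · exact h1
  · exact h2

end

end Claimed.Agent.R324.Core
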