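/-
Row 324, module HI, file Gen: calculus of the generic coefficient functions `G : HGf`, `G (t,y) ξ`, `ξ : Fin 3 → ℝ`, smooth on `Ω = ({t<0} × ℝ) × ℝ³` (`HGSm`).
`Ω` is open.  Write `F z = G z.1 z.2`.   On `Ω`: `ContDiffAt ℝ ∞ F z`; the partial derivatives are `fderiv ℝ F z` applied to the fixed vectors `((1,0),0)`, `((0,1),0)`, `(0, Pi.single b 1)`
(chain rule for the affine curves `s ↦ ((s,y),ξ)`, `z ↦ ((t,z),ξ)`, `r ↦ (p, Function.update ξ b r)`), and `z ↦ fderiv ℝ F z v` is smooth on `Ω` (`ContDiffOn.fderiv_of_isOpen`, `ContDiffOn.clm_apply`).  Model: `E2Sm.pdt_eq_fderiv`, `E2Sm.pdt` in R324/E2/PdA.lean.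
-/
import Claimed.Agent.R324.Core.HI.Ops

set_option autoImplicit false

namespace Claimed.Agent.R324.Core

open Set Filter Topology MeasureTheory
open scoped ContDiff

variable {G : HGf} {u u' : Tri} {t : ℝ}

theorem hg_dom_isOpen : IsOpen ((Iio (0 : ℝ) ×ˢ (univ : Set ℝ)) ×ˢ (univ : Set (Fin 3 → ℝ))) :=
  (isOpen_Iio.prod isOpen_univ).prod isOpen_univ

theorem HGSm.contDiffAt (hG : HGSm G) (ht : t < 0) (y : ℝ) (ξ : Fin 3 → ℝ) :
    ContDiffAt ℝ ∞ (fun z : (ℝ × ℝ) × (Fin 3 → ℝ) => G z.1 z.2) ((t, y), ξ) :=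
  ContDiffOn.contDiffAt hG (hg_dom_isOpen.mem_nhds ⟨⟨ht, mem_univ _⟩, mem_univ _⟩)

/-- `z ↦ fderiv F z v` is smooth on `Ω`. -/
theorem hg_fderiv_apply_sm (hG : HGSm G) (v : (ℝ × ℝ) × (Fin 3 → ℝ)) :
    ContDiffOn ℝ ∞ (fun z : (ℝ × ℝ) × (Fin 3 → ℝ) =>
      fderiv ℝ (fun z : (ℝ × ℝ) × (Fin 3 → ℝ) => G z.1 z.2) z v)
      ((Iio (0 : ℝ) ×ˢ (univ : Set ℝ)) ×ˢ (univ : Set (Fin 3 → ℝ))) := by
  have h1 : ContDiffOn ℝ ∞ (fderiv ℝ (fun z : (ℝ × ℝ) × (Fin 3 → ℝ) => G z.1 z.2))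
      ((Iio (0 : ℝ) ×ˢ (univ : Set ℝ)) ×ˢ (univ : Set (Fin 3 → ℝ))) :=
    ContDiffOn.fderiv_of_isOpen hG hg_dom_isOpen (by simp)
  exact h1.clm_apply contDiffOn_const

theorem hg_hasFDerivAt (hG : HGSm G) (ht : t < 0) (y : ℝ) (ξ : Fin 3 → ℝ) :
    HasFDerivAt (fun z : (ℝ × ℝ) × (Fin 3 → ℝ) => G z.1 z.2)
      (fderiv ℝ (fun z : (ℝ × ℝ) × (Fin 3 → ℝ) => G z.1 z.2) ((t, y), ξ)) ((t, y), ξ) :=
  ((hG.contDiffAt ht y ξ).differentiableAt (by simp)).hasFDerivAt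

theorem hg_dt_eq_fderiv (hG : HGSm G) (ht : t < 0) (y : ℝ) (ξ : Fin 3 → ℝ) :
    hgDt G (t, y) ξ = fderiv ℝ (fun z : (ℝ × ℝ) × (Fin 3 → ℝ) => G z.1 z.2) ((t, y), ξ) ((1, 0), 0) := by
  have hcur : HasDerivAt (fun s : ℝ => (((s, y), ξ) : (ℝ × ℝ) × (Fin 3 → ℝ))) ((1, 0), 0) t :=
    ((hasDerivAt_id t).prodMk (hasDerivAt_const t y)).prodMk (hasDerivAt_const t ξ)
  exact (HasFDerivAt.comp_hasDerivAt t (hg_hasFDerivAt hG ht y ξ) hcur).deriv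

theorem hg_dy_eq_fderiv (hG : HGSm G) (ht : t < 0) (y : ℝ) (ξ : Fin 3 → ℝ) :
    hgDy G (t, y) ξ = fderiv ℝ (fun z : (ℝ × ℝ) × (Fin 3 → ℝ) => G z.1 z.2) ((t, y), ξ) ((0, 1), 0) := by
  have hcur : HasDerivAt (fun z : ℝ => (((t, z), ξ) : (ℝ × ℝ) × (Fin 3 → ℝ))) ((0, 1), 0) y :=
    ((hasDerivAt_const y t).prodMk (hasDerivAt_id y)).prodMk (hasDerivAt_const y ξ)
  exact (HasFDerivAt.comp_hasDerivAt y (hg_hasFDerivAt hG ht y ξ) hcur).deriv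

theorem hg_dx_eq_fderiv (hG : HGSm G) (b : Fin 3) (ht : t < 0) (y : ℝ) (ξ : Fin 3 → ℝ) :
    hgDx b G (t, y) ξ
      = fderiv ℝ (fun z : (ℝ × ℝ) × (Fin 3 → ℝ) => G z.1 z.2) ((t, y), ξ) (0, Pi.single b 1) := by
  have hup : HasDerivAt (fun r : ℝ => Function.update ξ b r) (Pi.single b 1) (ξ b) :=
    hasDerivAt_update ξ b (ξ b)
  have hcur : HasDerivAt (fun r : ℝ => (((t, y), Function.update ξ b r) : (ℝ × ℝ) × (Fin 3 → ℝ)))
      (0, Pi.single b 1) (ξ b) := (hasDerivAt_const (ξ b) (t, y)).prodMk hup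
  have hF' : HasFDerivAt (fun z : (ℝ × ℝ) × (Fin 3 → ℝ) => G z.1 z.2)
      (fderiv ℝ (fun z : (ℝ × ℝ) × (Fin 3 → ℝ) => G z.1 z.2) ((t, y), ξ))
      ((fun r : ℝ => (((t, y), Function.update ξ b r) : (ℝ × ℝ) × (Fin 3 → ℝ))) (ξ b)) := by
    simpa using hg_hasFDerivAt hG ht y ξ
  exact (HasFDerivAt.comp_hasDerivAt (ξ b) hF' hcur).deriv

theorem HGSm.dt (hG : HGSm G) : HGSm (hgDt G) :=
  (hg_fderiv_apply_sm hG ((1, 0), 0)).congr fun z hz => hg_dt_eq_fderiv hG hz.1.1 z.1.2 z.2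

theorem HGSm.dy (hG : HGSm G) : HGSm (hgDy G) :=
  (hg_fderiv_apply_sm hG ((0, 1), 0)).congr fun z hz => hg_dy_eq_fderiv hG hz.1.1 z.1.2 z.2

theorem HGSm.dx (hG : HGSm G) (b : Fin 3) : HGSm (hgDx b G) :=
  (hg_fderiv_apply_sm hG (0, Pi.single b 1)).congr fun z hz => hg_dx_eq_fderiv hG b hz.1.1 z.1.2 z.2

/-- composition with `p ↦ (p, u p)`. -/
theorem sm_hcmp (hG : HGSm G) (hu : SmTri u) : Sm (hcmp G u) := by
  have h1 : ContDiffOn ℝ ∞ (fun p : ℝ × ℝ => ((p, fun b => u b p) : (ℝ × ℝ) × (Fin 3 → ℝ)))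
      (Iio (0 : ℝ) ×ˢ (univ : Set ℝ)) := contDiffOn_id.prodMk (contDiffOn_pi.2 fun b => hu b)
  exact ContDiffOn.comp hG h1 (fun p hp => ⟨hp, mem_univ _⟩)

theorem sm_hcmpL (hG : HGSm G) (hu : SmTri u) (hu' : SmTri u') : Sm (hcmpL G u u') :=
  sm_sum Finset.univ fun b _ => (sm_hcmp (hG.dx b) hu).mul (hu' b)

/-- the general chain rule along a curve in `Ω`. -/
theorem hi_G_chain (hG : HGSm G) (ht : t < 0) (y : ℝ) (ξ : Fin 3 → ℝ)
    {c : ℝ → (ℝ × ℝ) × (Fin 3 → ℝ)} {s0 a b : ℝ} {η : Fin 3 → ℝ}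
    (hc : HasDerivAt c ((a, b), η) s0) (h0 : c s0 = ((t, y), ξ)) :
    HasDerivAt (fun s => G (c s).1 (c s).2)
      (a * hgDt G (t, y) ξ + b * hgDy G (t, y) ξ + ∑ i, hgDx i G (t, y) ξ * η i) s0 := by
  set F : (ℝ × ℝ) × (Fin 3 → ℝ) → ℝ := fun z => G z.1 z.2 with hFdef
  have hF : HasFDerivAt F (fderiv ℝ F ((t, y), ξ)) ((t, y), ξ) :=
    ((hG.contDiffAt ht y ξ).differentiableAt (by simp)).hasFDerivAt
  set L := fderiv ℝ F ((t, y), ξ) with hL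
  have h1 : hgDt G (t, y) ξ = L ((1, 0), 0) := by
    have hcur : HasDerivAt (fun s : ℝ => (((s, y), ξ) : (ℝ × ℝ) × (Fin 3 → ℝ))) ((1, 0), 0) t :=
      ((hasDerivAt_id t).prodMk (hasDerivAt_const t y)).prodMk (hasDerivAt_const t ξ)
    exact (HasFDerivAt.comp_hasDerivAt t hF hcur).deriv
  have h2 : hgDy G (t, y) ξ = L ((0, 1), 0) := by
    have hcur : HasDerivAt (fun z : ℝ => (((t, z), ξ) : (ℝ × ℝ) × (Fin 3 → ℝ))) ((0, 1), 0) y :=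
      ((hasDerivAt_const y t).prodMk (hasDerivAt_id y)).prodMk (hasDerivAt_const y ξ)
    exact (HasFDerivAt.comp_hasDerivAt y hF hcur).deriv
  have h3 : ∀ i, hgDx i G (t, y) ξ = L (0, Pi.single i 1) := by
    intro i
    have hup : HasDerivAt (fun r : ℝ => Function.update ξ i r) (Pi.single i 1) (ξ i) :=
      hasDerivAt_update ξ i (ξ i)
    have hcur : HasDerivAt (fun r : ℝ => (((t, y), Function.update ξ i r) : (ℝ × ℝ) × (Fin 3 → ℝ)))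
        (0, Pi.single i 1) (ξ i) := (hasDerivAt_const (ξ i) (t, y)).prodMk hup
    have hF' : HasFDerivAt F L ((fun r : ℝ => (((t, y), Function.update ξ i r) : (ℝ × ℝ) × (Fin 3 → ℝ))) (ξ i)) := by
      simpa using hF
    exact (HasFDerivAt.comp_hasDerivAt (ξ i) hF' hcur).deriv
  have hdec : L ((a, b), η) = a * L ((1, 0), 0) + b * L ((0, 1), 0) + ∑ i, L (0, Pi.single i 1) * η i := by
    have hv : (((a, b), η) : (ℝ × ℝ) × (Fin 3 → ℝ)) = a • ((1, 0), 0) + b • ((0, 1), 0)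
        + ∑ i, η i • (0, Pi.single i 1) := by
      ext j
      · simp [Fin.sum_univ_three]
      · simp [Fin.sum_univ_three]
      · fin_cases j <;> simp [Fin.sum_univ_three]
    rw [hv]
    simp only [map_add, map_smul, map_sum, smul_eq_mul]
    congr 1
    exact Finset.sum_congr rfl (fun i _ => mul_comm _ _)
  have hF0 : HasFDerivAt F L (c s0) := by rw [h0]; exact hF
  have := HasFDerivAt.comp_hasDerivAt s0 hF0 hc
  rw [hdec, ← h1, ← h2] at this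
  simp only [← h3] at this
  exact this

/-- chain rule in `t`. -/
theorem hi_dT_hcmp (hG : HGSm G) (hu : SmTri u) (ht : t < 0) (y : ℝ) :
    dT (hcmp G u) (t, y) = hcmp (hgDt G) u (t, y) + hcmpL G u (dT3 u) (t, y) := by
  have hc : HasDerivAt (fun s : ℝ => (((s, y), fun b => u b (s, y)) : (ℝ × ℝ) × (Fin 3 → ℝ)))
      ((1, 0), fun b => dT (u b) (t, y)) t :=
    ((hasDerivAt_id t).prodMk (hasDerivAt_const t y)).prodMk
      (hasDerivAt_pi.2 (fun b => (hu b).hasDerivAt_t ht y))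
  have h := (hi_G_chain hG ht y (fun b => u b (t, y)) hc rfl).deriv
  have h' : dT (hcmp G u) (t, y) = 1 * hgDt G (t, y) (fun b => u b (t, y))
      + 0 * hgDy G (t, y) (fun b => u b (t, y))
      + ∑ i, hgDx i G (t, y) (fun b => u b (t, y)) * dT (u i) (t, y) := h
  rw [h']
  simp only [one_mul, zero_mul, add_zero]
  rfl

/-- chain rule in `y`. -/
theorem hi_dY_hcmp (hG : HGSm G) (hu : SmTri u) (ht : t < 0) (y : ℝ) :
    dY (hcmp G u) (t, y) = hcmp (hgDy G) u (t, y) + hcmpL G u (fun b => dY (u b)) (t, y) := by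
  have hc : HasDerivAt (fun z : ℝ => (((t, z), fun b => u b (t, z)) : (ℝ × ℝ) × (Fin 3 → ℝ)))
      ((0, 1), fun b => dY (u b) (t, y)) y :=
    ((hasDerivAt_const y t).prodMk (hasDerivAt_id y)).prodMk
      (hasDerivAt_pi.2 (fun b => (hu b).hasDerivAt_y ht y))
  have h := (hi_G_chain hG ht y (fun b => u b (t, y)) hc rfl).deriv
  have h' : dY (hcmp G u) (t, y) = 0 * hgDt G (t, y) (fun b => u b (t, y))
      + 1 * hgDy G (t, y) (fun b => u b (t, y))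
      + ∑ i, hgDx i G (t, y) (fun b => u b (t, y)) * dY (u i) (t, y) := h
  rw [h']
  simp only [one_mul, zero_mul, zero_add]
  rfl

theorem hi_ttF_hcmp (hG : HGSm G) (hu : SmTri u) (ht : t < 0) (y : ℝ) :
    ttF (hcmp G u) (t, y) = -(Xf y) * hcmp (hgDy G) u (t, y) + hcmpL G u (fun b => ttF (u b)) (t, y) := by
  have h : ttF (hcmp G u) (t, y) = -(Xf y) * dY (hcmp G u) (t, y) := rfl
  rw [h, hi_dY_hcmp hG hu ht y, mul_add]
  congr 1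
  simp only [hcmpL, Finset.mul_sum]
  refine Finset.sum_congr rfl (fun b _ => ?_)
  have h2 : ttF (u b) (t, y) = -(Xf y) * dY (u b) (t, y) := rfl
  rw [h2]; ring

/-- bounded on compact sets (`IsCompact.exists_bound_of_continuousOn` on `(Icc s₁ s₂ ×ˢ Icc (-1) 1) ×ˢ Icc (-R) R`, `Icc` in `Fin 3 → ℝ`). -/
theorem hi_G_bdd (hG : HGSm G) (s₁ : ℝ) {s₂ : ℝ} (h₂ : s₂ < 0) (R : ℝ) : ∃ C : ℝ, 0 ≤ C ∧
    ∀ t ∈ Icc s₁ s₂, ∀ y ∈ Icc (-1 : ℝ) 1, ∀ ξ : Fin 3 → ℝ, (∀ b, |ξ b| ≤ R) → |G (t, y) ξ| ≤ C := by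
  have hK : IsCompact ((Icc s₁ s₂ ×ˢ Icc (-1 : ℝ) 1) ×ˢ (Set.pi univ fun _ : Fin 3 => Icc (-R) R)) :=
    (isCompact_Icc.prod isCompact_Icc).prod (isCompact_univ_pi fun _ => isCompact_Icc)
  have hc : ContinuousOn (fun z : (ℝ × ℝ) × (Fin 3 → ℝ) => G z.1 z.2)
      ((Icc s₁ s₂ ×ˢ Icc (-1 : ℝ) 1) ×ˢ (Set.pi univ fun _ : Fin 3 => Icc (-R) R)) :=
    (ContDiffOn.continuousOn hG).mono fun z hz => ⟨⟨lt_of_le_of_lt hz.1.1.2 h₂, mem_univ _⟩, mem_univ _⟩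
  obtain ⟨C, hC⟩ := hK.exists_bound_of_continuousOn hc
  refine ⟨max C 0, le_max_right _ _, fun t ht y hy ξ hξ => ?_⟩
  have := hC ((t, y), ξ) ⟨⟨ht, hy⟩, fun b _ => abs_le.1 (hξ b)⟩
  rw [Real.norm_eq_abs] at this
  exact this.trans (le_max_left _ _)

theorem hi_G_cont (hG : HGSm G) (ht : t < 0) (y : ℝ) : Continuous (fun ξ : Fin 3 → ℝ => G (t, y) ξ) := by
  refine continuous_iff_continuousAt.2 fun ξ => ?_
  have h1 : ContinuousAt (fun ξ : Fin 3 → ℝ => (((t, y), ξ) : (ℝ × ℝ) × (Fin 3 → ℝ))) ξ :=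
    (continuous_const.prodMk continuous_id).continuousAt
  exact ContinuousAt.comp (g := fun z : (ℝ × ℝ) × (Fin 3 → ℝ) => G z.1 z.2) (hG.contDiffAt ht y ξ).continuousAt h1

/-- derivative along a line in `ξ`. -/
theorem hi_G_hasDerivAt (hG : HGSm G) (ht : t < 0) (y : ℝ) (ξ η : Fin 3 → ℝ) :
    HasDerivAt (fun h : ℝ => G (t, y) (fun b => ξ b + h * η b)) (∑ b, hgDx b G (t, y) ξ * η b) 0 := by
  have hc : HasDerivAt (fun h : ℝ => (((t, y), fun b => ξ b + h * η b) : (ℝ × ℝ) × (Fin 3 → ℝ)))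
      ((0, 0), η) 0 := by
    refine (hasDerivAt_const (0 : ℝ) (t, y)).prodMk (hasDerivAt_pi.2 (fun b => ?_))
    simpa using ((hasDerivAt_id (0 : ℝ)).mul_const (η b)).const_add (ξ b)
  have h := hi_G_chain hG ht y ξ hc (by simp)
  simpa using h

/-- a function of `(t,y)` only. -/
theorem hgSm_of_sm {f : Fn} (hf : Sm f) : HGSm (fun p _ => f p) :=
  ContDiffOn.comp hf contDiffOn_fst (fun _ hz => hz.1)

end Claimed.Agent.R324.Core
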