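/-
Row 324, module HI, part E, file ClsB: the class `HiB s₁ s₂ n` of multipliers (`μ_k` and `tt μ_k` with their time derivatives of order `≤ n` bounded on `[s₁,s₂] × [-1,1]`, uniformly in `k`).
`HiB n μ = HiB0 n μ ∧ HiB0 n (ttF μ)`, `HiB0 n = HiW hw0 · · n 0`: everything follows from HI/W.lean and the rules
   `ttF (f g) = ttF f · g + f · ttF g`,  `ttF (f + g) = ..`,  `dT (ttF f) = ttF (dT f)` (`hi_dT_ttF`),  `ttF f = - X dY f`,   valid for `t < 0` and all `y` (then `HiW.congr`).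
Model: R325/Core/HI/ClsM.lean (Claimed/Agent/R325/Pk5x, see origin/helper232:docs/R325_packmap.md).
-/
import Claimed.Agent.R324.Core.HI.W
import Claimed.Agent.R324.Core.HI.Gen

set_option autoImplicit false

namespace Claimed.Agent.R324.Core

open Set Filter Topology MeasureTheory
open scoped ContDiff

variable {s₁ s₂ : ℝ} {n n' : ℕ} {μ ν : ℕ → Fn} {g : Fn}

theorem HiB.mono (h : HiB s₁ s₂ n μ) (hn : n' ≤ n) : HiB s₁ s₂ n' μ :=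
  ⟨HiW.mono h.1 hn le_rfl, HiW.mono h.2 hn le_rfl⟩

theorem HiB.shift (h : HiB s₁ s₂ n μ) : HiB s₁ s₂ n (fun k => μ (k + 1)) :=
  ⟨HiW.shift h.1, HiW.shift h.2⟩

theorem HiB.dT (h₂ : s₂ < 0) (hμ : ∀ k, Sm (μ k)) (h : HiB s₁ s₂ (n + 1) μ) : HiB s₁ s₂ n (fun k => dT (μ k)) := by
  refine ⟨HiW.dT h.1, ?_⟩
  exact HiW.congr h₂ (fun k => (hμ k).ttF.dT) (fun k => (hμ k).dT.ttF) (HiW.dT h.2)
    (fun k => hi_eq_of_all fun t ht y => (hi_dT_ttF (hμ k) ht y).symm)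

theorem hiB_of_dT (h₂ : s₂ < 0) (hμ : ∀ k, Sm (μ k)) (h0 : HiB s₁ s₂ 0 μ) (h : HiB s₁ s₂ n (fun k => dT (μ k))) :
    HiB s₁ s₂ (n + 1) μ := by
  refine ⟨hiW_of_dT h0.1 h.1, hiW_of_dT h0.2 ?_⟩
  exact HiW.congr h₂ (fun k => (hμ k).dT.ttF) (fun k => (hμ k).ttF.dT) h.2
    (fun k => hi_eq_of_all fun t ht y => hi_dT_ttF (hμ k) ht y)

theorem HiB.congr (h₂ : s₂ < 0) (hμ : ∀ k, Sm (μ k)) (hν : ∀ k, Sm (ν k)) (h : HiB s₁ s₂ n μ)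
    (e : ∀ k, HiEq (ν k) (μ k)) : HiB s₁ s₂ n ν := by
  exact ⟨HiW.congr h₂ hμ hν h.1 e, HiW.congr h₂ (fun k => (hμ k).ttF) (fun k => (hν k).ttF) h.2
    (fun k => hi_ttF_congr (hν k) (hμ k) (e k))⟩

theorem hiB_const (h₂ : s₂ < 0) (hg : Sm g) (s₁ : ℝ) (n : ℕ) : HiB s₁ s₂ n (fun _ => g) :=
  ⟨hiW_const hwOK_0 h₂ hg s₁ n 0, hiW_const hwOK_0 h₂ hg.ttF s₁ n 0⟩

theorem HiB.add (h₂ : s₂ < 0) (hμ : ∀ k, Sm (μ k)) (hν : ∀ k, Sm (ν k)) (h : HiB s₁ s₂ n μ) (h' : HiB s₁ s₂ n ν) :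
    HiB s₁ s₂ n (fun k p => μ k p + ν k p) := by
  refine ⟨HiW.add hwOK_0 h₂ hμ hν h.1 h'.1, ?_⟩
  refine HiW.congr h₂ (fun k => (hμ k).ttF.add (hν k).ttF) (fun k => ((hμ k).add (hν k)).ttF)
    (HiW.add hwOK_0 h₂ (fun k => (hμ k).ttF) (fun k => (hν k).ttF) h.2 h'.2)
    (fun k => hi_eq_of_all fun t ht y => ?_)
  show -(Xf y) * dY (fun p => μ k p + ν k p) (t, y) = -(Xf y) * dY (μ k) (t, y) + -(Xf y) * dY (ν k) (t, y)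
  rw [dY_add (hμ k) (hν k) ht y]
  ring

theorem HiB.neg (h₂ : s₂ < 0) (hμ : ∀ k, Sm (μ k)) (h : HiB s₁ s₂ n μ) : HiB s₁ s₂ n (fun k p => -μ k p) := by
  refine ⟨HiW.neg h₂ hμ h.1, ?_⟩
  refine HiW.congr h₂ (fun k => (hμ k).ttF.neg) (fun k => (hμ k).neg.ttF)
    (HiW.neg h₂ (fun k => (hμ k).ttF) h.2)
    (fun k => hi_eq_of_all fun t ht y => ?_)
  show -(Xf y) * dY (fun p => -μ k p) (t, y) = -(-(Xf y) * dY (μ k) (t, y))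
  rw [dY_neg (hμ k) ht y]
  ring

theorem HiB.sub (h₂ : s₂ < 0) (hμ : ∀ k, Sm (μ k)) (hν : ∀ k, Sm (ν k)) (h : HiB s₁ s₂ n μ) (h' : HiB s₁ s₂ n ν) :
    HiB s₁ s₂ n (fun k p => μ k p - ν k p) := by
  refine ⟨HiW.sub hwOK_0 h₂ hμ hν h.1 h'.1, ?_⟩
  refine HiW.congr h₂ (fun k => (hμ k).ttF.sub (hν k).ttF) (fun k => ((hμ k).sub (hν k)).ttF)
    (HiW.sub hwOK_0 h₂ (fun k => (hμ k).ttF) (fun k => (hν k).ttF) h.2 h'.2)
    (fun k => hi_eq_of_all fun t ht y => ?_)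
  show -(Xf y) * dY (fun p => μ k p - ν k p) (t, y) = -(Xf y) * dY (μ k) (t, y) - -(Xf y) * dY (ν k) (t, y)
  rw [dY_sub (hμ k) (hν k) ht y]
  ring

theorem hiB_sum (h₂ : s₂ < 0) {ι : Type} (s : Finset ι) {𝓗 : ι → ℕ → Fn} (hf : ∀ a ∈ s, ∀ k, Sm (𝓗 a k))
    (h : ∀ a ∈ s, HiB s₁ s₂ n (𝓗 a)) : HiB s₁ s₂ n (fun k p => ∑ a ∈ s, 𝓗 a k p) := by
  classical
  induction s using Finset.induction_on with
  | empty =>
    simp only [Finset.sum_empty]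
    exact hiB_const h₂ (sm_const 0) s₁ n
  | insert a s ha ih =>
    have e : (fun (k : ℕ) (p : ℝ × ℝ) => ∑ b ∈ insert a s, 𝓗 b k p)
        = fun k p => 𝓗 a k p + ∑ b ∈ s, 𝓗 b k p := by
      funext k p
      rw [Finset.sum_insert ha]
    rw [e]
    exact HiB.add h₂ (hf a (Finset.mem_insert_self a s))
      (fun k => sm_sum s (fun b hb => hf b (Finset.mem_insert_of_mem hb) k))
      (h a (Finset.mem_insert_self a s))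
      (ih (fun b hb => hf b (Finset.mem_insert_of_mem hb)) (fun b hb => h b (Finset.mem_insert_of_mem hb)))

theorem HiB.mul (h₂ : s₂ < 0) (hμ : ∀ k, Sm (μ k)) (hν : ∀ k, Sm (ν k)) (h : HiB s₁ s₂ n μ) (h' : HiB s₁ s₂ n ν) :
    HiB s₁ s₂ n (fun k p => μ k p * ν k p) := by
  refine ⟨HiW.mul0 hwOK_0 h₂ hμ hν h.1 h'.1, ?_⟩
  refine HiW.congr h₂ (fun k => ((hμ k).ttF.mul (hν k)).add ((hμ k).mul (hν k).ttF))
    (fun k => ((hμ k).mul (hν k)).ttF)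
    (HiW.add hwOK_0 h₂ (fun k => (hμ k).ttF.mul (hν k)) (fun k => (hμ k).mul (hν k).ttF)
      (HiW.mul0 hwOK_0 h₂ (fun k => (hμ k).ttF) hν h.2 h'.1)
      (HiW.mul0 hwOK_0 h₂ hμ (fun k => (hν k).ttF) h.1 h'.2))
    (fun k => hi_eq_of_all fun t ht y => ?_)
  show -(Xf y) * dY (fun p => μ k p * ν k p) (t, y)
    = -(Xf y) * dY (μ k) (t, y) * ν k (t, y) + μ k (t, y) * (-(Xf y) * dY (ν k) (t, y))
  rw [dY_mul (hμ k) (hν k) ht y]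
  ring

/-- `ttF μ = - X dY μ`. -/
theorem hiB_of_W (h₂ : s₂ < 0) (hμ : ∀ k, Sm (μ k)) (h : HiW hw0 s₁ s₂ n 1 μ) : HiB s₁ s₂ n μ := by
  refine ⟨h.mono le_rfl (Nat.zero_le 1), ?_⟩
  exact HiW.mul0 hwOK_0 h₂ (fun _ => sm_Xf.neg) (fun k => (hμ k).dY)
    (hiW_const hwOK_0 h₂ sm_Xf.neg s₁ n 0) (HiW.dY h₂ hμ h)

/-- sup bound for a composition (`hi_G_bdd`). -/
theorem hiB_cmp_sup (h₂ : s₂ < 0) {u : ℕ → Tri} (h : ∀ b, HiB0 s₁ s₂ 0 (fun k => u k b)) {G : HGf} (hG : HGSm G) :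
    ∃ C : ℝ, 0 ≤ C ∧ ∀ k : ℕ, ∀ t ∈ Icc s₁ s₂, ∀ y ∈ Icc (-1 : ℝ) 1, |hcmp G (u k) (t, y)| ≤ C := by
  choose Cb hCb0 hCb using fun b => HiB0.bound (h b) (le_refl 0)
  obtain ⟨C, hC0, hC⟩ := hi_G_bdd hG s₁ h₂ (∑ b, Cb b)
  refine ⟨C, hC0, fun k t ht y hy => hC t ht y hy _ (fun b => ?_)⟩
  have h1 := hCb b k t ht y hy
  simp only [Function.iterate_zero, id] at h1
  exact h1.trans (Finset.single_le_sum (fun i _ => hCb0 i) (Finset.mem_univ b))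

/-- the case `n = 0` of `hiB_cmp`. -/
theorem hiB_cmp_zero (h₂ : s₂ < 0) {u : ℕ → Tri} (hu : ∀ k, SmTri (u k)) (h : ∀ b, HiB s₁ s₂ 0 (fun k => u k b))
    {G : HGf} (hG : HGSm G) : HiB s₁ s₂ 0 (fun k => hcmp G (u k)) := by
  have hb : ∀ b, HiB0 s₁ s₂ 0 (fun k => u k b) := fun b => (h b).1
  obtain ⟨C, _, hC⟩ := hiB_cmp_sup h₂ hb hG
  obtain ⟨Cy, hCy0, hCy⟩ := hiB_cmp_sup h₂ hb hG.dy
  choose Cx hCx0 hCx using fun b => hiB_cmp_sup h₂ hb (hG.dx b)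
  choose Dt hDt0 hDt using fun b => HiB0.bound (h b).2 (le_refl 0)
  refine ⟨hiB0_zero hC, hiB0_zero (C := Cy + ∑ b, Cx b * Dt b) (fun k t ht y hy => ?_)⟩
  show |ttF (hcmp G (u k)) (t, y)| ≤ _
  have ht0 : t < 0 := lt_of_le_of_lt ht.2 h₂
  rw [hi_ttF_hcmp hG (hu k) ht0 y]
  have hX : |-(Xf y)| ≤ 1 := by
    rw [abs_neg]
    unfold Xf
    rw [abs_le]
    constructor <;> nlinarith [hy.1, hy.2]
  have h1 : |-(Xf y) * hcmp (hgDy G) (u k) (t, y)| ≤ Cy := by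
    rw [abs_mul]
    calc |-(Xf y)| * |hcmp (hgDy G) (u k) (t, y)| ≤ 1 * Cy :=
          mul_le_mul hX (hCy k t ht y hy) (abs_nonneg _) zero_le_one
      _ = Cy := one_mul _
  have h2 : |hcmpL G (u k) (fun b => ttF (u k b)) (t, y)| ≤ ∑ b, Cx b * Dt b := by
    unfold hcmpL
    refine (Finset.abs_sum_le_sum_abs _ _).trans (Finset.sum_le_sum fun b _ => ?_)
    rw [abs_mul]
    have h3 := hDt b k t ht y hy
    simp only [Function.iterate_zero, id] at h3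
    exact mul_le_mul (hCx b k t ht y hy) h3 (abs_nonneg _) (hCx0 b)
  exact (abs_add_le _ _).trans (add_le_add h1 h2)

/-- `hcmpL` from the compositions with `hgDx b G`. -/
theorem hiB_cmpL_aux (h₂ : s₂ < 0) {u u' : ℕ → Tri} (hu : ∀ k, SmTri (u k)) (hu' : ∀ k, SmTri (u' k))
    {G : HGf} (hG : HGSm G) (hc : ∀ b, HiB s₁ s₂ n (fun k => hcmp (hgDx b G) (u k)))
    (h' : ∀ b, HiB s₁ s₂ n (fun k => u' k b)) : HiB s₁ s₂ n (fun k => hcmpL G (u k) (u' k)) :=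
  hiB_sum h₂ Finset.univ (𝓗 := fun b k p => hcmp (hgDx b G) (u k) p * u' k b p)
    (fun b _ k => (sm_hcmp (hG.dx b) (hu k)).mul (hu' k b))
    (fun b _ => HiB.mul h₂ (fun k => sm_hcmp (hG.dx b) (hu k)) (fun k => hu' k b) (hc b) (h' b))

/-- **Composition.**   Induction on `n` for ALL `G`.   `n = 0`: `|u_b| ≤ R` (`HiB0.bound`), `hi_G_bdd`;  `ttF (G(u)) = - X G_y(u) + Σ_b G_{ξ_b}(u) ttF u_b` (`hi_ttF_hcmp`).
`n + 1`: `hiB_of_dT`, `dT (G(u)) = G_t(u) + Σ_b G_{ξ_b}(u) dT u_b` (`hi_dT_hcmp`), induction hypothesis for `hgDt G`, `hgDx b G`, `HiB.mul`, `HiB.dT`, `hiB_sum`, `HiB.congr`. -/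
theorem hiB_cmp (h₂ : s₂ < 0) {u : ℕ → Tri} (hu : ∀ k, SmTri (u k)) (h : ∀ b, HiB s₁ s₂ n (fun k => u k b))
    {G : HGf} (hG : HGSm G) : HiB s₁ s₂ n (fun k => hcmp G (u k)) := by
  induction n generalizing G with
  | zero => exact hiB_cmp_zero h₂ hu h hG
  | succ n ih =>
    have hn : ∀ b, HiB s₁ s₂ n (fun k => u k b) := fun b => (h b).mono (Nat.le_succ n)
    refine hiB_of_dT h₂ (fun k => sm_hcmp hG (hu k))
      (hiB_cmp_zero h₂ hu (fun b => (h b).mono (Nat.zero_le _)) hG) ?_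
    have hd : ∀ b, HiB s₁ s₂ n (fun k => dT3 (u k) b) := fun b => HiB.dT h₂ (fun k => hu k b) (h b)
    have hR : HiB s₁ s₂ n (fun k p => hcmp (hgDt G) (u k) p + hcmpL G (u k) (dT3 (u k)) p) :=
      HiB.add h₂ (fun k => sm_hcmp hG.dt (hu k)) (fun k => sm_hcmpL hG (hu k) (hu k).dT3)
        (ih hn hG.dt) (hiB_cmpL_aux h₂ hu (fun k => (hu k).dT3) hG (fun b => ih hn (hG.dx b)) hd)
    exact HiB.congr h₂ (fun k => (sm_hcmp hG.dt (hu k)).add (sm_hcmpL hG (hu k) (hu k).dT3))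
      (fun k => (sm_hcmp hG (hu k)).dT) hR (fun k t ht y _ => hi_dT_hcmp hG (hu k) ht y)

theorem hiB_cmpL (h₂ : s₂ < 0) {u u' : ℕ → Tri} (hu : ∀ k, SmTri (u k)) (hu' : ∀ k, SmTri (u' k))
    (h : ∀ b, HiB s₁ s₂ n (fun k => u k b)) (h' : ∀ b, HiB s₁ s₂ n (fun k => u' k b)) {G : HGf} (hG : HGSm G) :
    HiB s₁ s₂ n (fun k => hcmpL G (u k) (u' k)) :=
  hiB_cmpL_aux h₂ hu hu' hG (fun b => hiB_cmp h₂ hu h (hG.dx b)) h'

end Claimed.Agent.R324.Core
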