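/-
Row 324, module HI, part E, file ClsA: the classes `HiA s₁ s₂ n` (atoms/forcings: `∫_{s₁}^{s₂} 𝕀[(∂_t^j f)² + (tt ∂_t^j f)²] ≤ C`, `j ≤ n`) and `HiP` (jets: `HiA` and `X f ∈ HiB0`).
Tools: Core/W/Ibp.lean (`ii_mono`, `ii_add`, `ii_const_mul`, `ii_congr`, `ii_nonneg`, `ii_const`; `CI f = ContinuousOn f (Icc (-1) 1)`), Core/W/TtCalc.lean, HI/ClsB.lean.
Model: R325/Core/HI/Cls.lean.      All rules for `n` by induction through `hiA_of_dT` and the product rule for `dT` (no binomial formulas).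
-/
import Claimed.Agent.R324.Core.HI.ClsB
import Claimed.Agent.R324.Core.W.Ibp

set_option autoImplicit false

namespace Claimed.Agent.R324.Core

open Set Filter Topology MeasureTheory
open scoped ContDiff

variable {s₁ s₂ t : ℝ} {n n' : ℕ} {μ F F' P P' : ℕ → Fn} {f g : Fn}

/-! ### the density -/

/-- continuity of parametric `𝕀`-integrals   (`II = ∫_0^π · (cos ϑ) dϑ`; on a compact neighbourhood `[a,b] ⊆ Iio 0` of `t` the integrand is uniformly continuous;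
e.g. `intervalIntegral.continuousWithinAt_of_dominated_interval` or `continuous_parametric_intervalIntegral_of_continuous` after restricting to the subtype). -/
theorem hi_II_cont {Φ : Fn} (hΦ : ContinuousOn Φ (Iio (0 : ℝ) ×ˢ Icc (-1 : ℝ) 1)) :
    ContinuousOn (fun t => II (fun y => Φ (t, y))) (Iio 0) := by
  intro t0 ht0
  have ht0' : t0 < 0 := ht0
  apply ContinuousAt.continuousWithinAt
  have hH : Continuous (Function.uncurry (fun (t ϑ : ℝ) => Φ (min t (t0 / 2), Real.cos ϑ))) := by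
    have hmap : Continuous (fun p : ℝ × ℝ => ((min p.1 (t0 / 2), Real.cos p.2) : ℝ × ℝ)) :=
      (continuous_fst.min continuous_const).prodMk (Real.continuous_cos.comp continuous_snd)
    have := hΦ.comp_continuous hmap (fun p => by
      refine ⟨?_, Real.cos_mem_Icc _⟩
      show min p.1 (t0 / 2) < 0
      exact lt_of_le_of_lt (min_le_right _ _) (by linarith))
    exact this
  have hc := intervalIntegral.continuous_parametric_intervalIntegral_of_continuous' (μ := volume) hH 0 Real.pi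
  refine hc.continuousAt.congr ?_
  have hnb : Iio (t0 / 2) ∈ 𝓝 t0 := Iio_mem_nhds (by linarith)
  filter_upwards [hnb] with t ht
  have ht' : t < t0 / 2 := ht
  show (∫ ϑ in (0 : ℝ)..Real.pi, Φ (min t (t0 / 2), Real.cos ϑ)) = II (fun y => Φ (t, y))
  rw [min_eq_left ht'.le]
  rfl

theorem hi_haDen_cont (hf : Sm f) : ContinuousOn (haDen f) (Iio 0) := by
  have h1 : ContinuousOn (fun p : ℝ × ℝ => (f p) ^ 2 + (ttF f p) ^ 2) (Iio (0 : ℝ) ×ˢ Icc (-1 : ℝ) 1) :=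
    (((hf.pow 2).add (hf.ttF.pow 2)).continuousOn).mono (Set.prod_mono subset_rfl (subset_univ _))
  exact hi_II_cont h1

theorem hi_haDen_nonneg (f : Fn) (t : ℝ) : 0 ≤ haDen f t :=
  ii_nonneg (fun _ _ => by positivity)

theorem hi_sl_CI (hf : Sm f) (ht : t < 0) : CI (fun y => f (t, y)) :=
  (hf.sl ht).continuous.continuousOn

theorem hi_den_CI (hf : Sm f) (ht : t < 0) : CI (fun y => (f (t, y)) ^ 2 + (ttF f (t, y)) ^ 2) :=
  ((hi_sl_CI hf ht).pow 2).add ((hi_sl_CI hf.ttF ht).pow 2)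

theorem hi_den_CI_mul (c : ℝ) (hf : Sm f) (ht : t < 0) :
    CI (fun y => c * ((f (t, y)) ^ 2 + (ttF f (t, y)) ^ 2)) :=
  continuousOn_const.mul (hi_den_CI hf ht)

theorem hi_haDen_congr (hf : Sm f) (hg : Sm g) (h : HiEq f g) (ht : t < 0) : haDen f t = haDen g t := by
  refine ii_congr fun y hy => ?_
  rw [h t ht y hy, hi_ttF_congr hf hg h t ht y hy]

theorem hi_haDen_add (hf : Sm f) (hg : Sm g) (ht : t < 0) :
    haDen (fun p => f p + g p) t ≤ 2 * haDen f t + 2 * haDen g t := by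
  have e : 2 * haDen f t + 2 * haDen g t
      = II (fun y => 2 * ((f (t, y)) ^ 2 + (ttF f (t, y)) ^ 2) + 2 * ((g (t, y)) ^ 2 + (ttF g (t, y)) ^ 2)) := by
    rw [ii_add (hi_den_CI_mul 2 hf ht) (hi_den_CI_mul 2 hg ht),
      ii_const_mul, ii_const_mul]
    rfl
  rw [e]
  refine ii_mono (hi_den_CI (hf.add hg) ht)
    ((hi_den_CI_mul 2 hf ht).add (hi_den_CI_mul 2 hg ht)) fun y _ => ?_
  have e2 : ttF (fun p => f p + g p) (t, y) = ttF f (t, y) + ttF g (t, y) := by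
    show -(Xf y) * dY (fun p => f p + g p) (t, y) = -(Xf y) * dY f (t, y) + -(Xf y) * dY g (t, y)
    rw [dY_add hf hg ht y]
    ring
  rw [e2]
  nlinarith [sq_nonneg (f (t, y) - g (t, y)), sq_nonneg (ttF f (t, y) - ttF g (t, y))]

theorem hi_haDen_neg (hf : Sm f) (ht : t < 0) : haDen (fun p => -f p) t = haDen f t := by
  refine ii_congr fun y _ => ?_
  have e2 : ttF (fun p => -f p) (t, y) = -ttF f (t, y) := by
    show -(Xf y) * dY (fun p => -f p) (t, y) = -(-(Xf y) * dY f (t, y))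
    rw [dY_neg hf ht y]
    ring
  rw [e2]
  ring

/-- `(μ f)² + (tt (μ f))² ≤ 2 (|μ| + |tt μ|)² (f² + (tt f)²)`. -/
theorem hi_haDen_mul (hg : Sm g) (hf : Sm f) (ht : t < 0) {M : ℝ}
    (hM : ∀ y ∈ Icc (-1 : ℝ) 1, |g (t, y)| + |ttF g (t, y)| ≤ M) :
    haDen (fun p => g p * f p) t ≤ 2 * M ^ 2 * haDen f t := by
  have e : 2 * M ^ 2 * haDen f t = II (fun y => 2 * M ^ 2 * ((f (t, y)) ^ 2 + (ttF f (t, y)) ^ 2)) := by
    rw [ii_const_mul]
    rfl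
  rw [e]
  refine ii_mono (hi_den_CI (hg.mul hf) ht) (hi_den_CI_mul (2 * M ^ 2) hf ht) fun y hy => ?_
  have e2 : ttF (fun p => g p * f p) (t, y) = ttF g (t, y) * f (t, y) + g (t, y) * ttF f (t, y) := by
    show -(Xf y) * dY (fun p => g p * f p) (t, y)
      = -(Xf y) * dY g (t, y) * f (t, y) + g (t, y) * (-(Xf y) * dY f (t, y))
    rw [dY_mul hg hf ht y]
    ring
  rw [e2]
  have hm := hM y hy
  set a := g (t, y)
  set b := ttF g (t, y)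
  set u := f (t, y)
  set v := ttF f (t, y)
  have h1 : 2 * a ^ 2 + b ^ 2 ≤ 2 * M ^ 2 := by
    have ha := abs_nonneg a
    have hb := abs_nonneg b
    have h2 : (|a| + |b|) ^ 2 ≤ M ^ 2 := pow_le_pow_left₀ (by positivity) hm 2
    have h3 : |a| ^ 2 = a ^ 2 := sq_abs a
    have h4 : |b| ^ 2 = b ^ 2 := sq_abs b
    nlinarith [mul_nonneg ha hb]
  have h5 : (a * u) ^ 2 + (b * u + a * v) ^ 2 ≤ (2 * a ^ 2 + b ^ 2) * (u ^ 2 + v ^ 2) := by
    nlinarith [sq_nonneg (b * v - a * u), sq_nonneg (a * v), sq_nonneg (a * u)]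
  calc (a * u) ^ 2 + (b * u + a * v) ^ 2 ≤ (2 * a ^ 2 + b ^ 2) * (u ^ 2 + v ^ 2) := h5
    _ ≤ 2 * M ^ 2 * (u ^ 2 + v ^ 2) := mul_le_mul_of_nonneg_right h1 (by positivity)

/-- `tt (X f g) = 2 y X f g + (X g) tt f + (X f) tt g`. -/
theorem hi_haDen_XPP (hf : Sm f) (hg : Sm g) (ht : t < 0) {A B : ℝ}
    (hA : ∀ y ∈ Icc (-1 : ℝ) 1, |Xf y * f (t, y)| ≤ A) (hB : ∀ y ∈ Icc (-1 : ℝ) 1, |Xf y * g (t, y)| ≤ B) :
    haDen (fun p => Xf p.2 * (f p * g p)) t ≤ 13 * (A ^ 2 * haDen g t + B ^ 2 * haDen f t) := by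
  have e : 13 * (A ^ 2 * haDen g t + B ^ 2 * haDen f t)
      = II (fun y => 13 * (A ^ 2 * ((g (t, y)) ^ 2 + (ttF g (t, y)) ^ 2)
          + B ^ 2 * ((f (t, y)) ^ 2 + (ttF f (t, y)) ^ 2))) := by
    rw [ii_const_mul, ii_add (hi_den_CI_mul (A ^ 2) hg ht) (hi_den_CI_mul (B ^ 2) hf ht),
      ii_const_mul, ii_const_mul]
    rfl
  rw [e]
  refine ii_mono (hi_den_CI (sm_Xf.mul (hf.mul hg)) ht)
    (((hi_den_CI_mul (A ^ 2) hg ht).add (hi_den_CI_mul (B ^ 2) hf ht)).const_smul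
      (13 : ℝ)) fun y hy => ?_
  have e2 : ttF (fun p => Xf p.2 * (f p * g p)) (t, y)
      = 2 * y * ((Xf y * f (t, y)) * g (t, y)) + (Xf y * g (t, y)) * ttF f (t, y)
        + (Xf y * f (t, y)) * ttF g (t, y) := by
    show -(Xf y) * dY (fun p => Xf p.2 * (f p * g p)) (t, y)
      = 2 * y * ((Xf y * f (t, y)) * g (t, y)) + (Xf y * g (t, y)) * (-(Xf y) * dY f (t, y))
        + (Xf y * f (t, y)) * (-(Xf y) * dY g (t, y))
    rw [dY_mul sm_Xf (hf.mul hg) ht y, dY_mul hf hg ht y, dY_Xf]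
    ring
  rw [e2]
  have ha := hA y hy
  have hb := hB y hy
  show (Xf y * (f (t, y) * g (t, y))) ^ 2 + _ ≤ _
  have e3 : Xf y * (f (t, y) * g (t, y)) = (Xf y * f (t, y)) * g (t, y) := by ring
  rw [e3]
  set a := Xf y * f (t, y)
  set b := Xf y * g (t, y)
  set u := f (t, y)
  set v := ttF f (t, y)
  set w := g (t, y)
  set z := ttF g (t, y)
  have ha2 : a ^ 2 ≤ A ^ 2 := by
    rw [← sq_abs a]
    exact pow_le_pow_left₀ (abs_nonneg a) ha 2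
  have hb2 : b ^ 2 ≤ B ^ 2 := by
    rw [← sq_abs b]
    exact pow_le_pow_left₀ (abs_nonneg b) hb 2
  have hy2 : y ^ 2 ≤ 1 := by
    nlinarith [hy.1, hy.2]
  have h1 : (2 * y * (a * w) + b * v + a * z) ^ 2 ≤ 3 * (4 * y ^ 2 * (a * w) ^ 2 + (b * v) ^ 2 + (a * z) ^ 2) := by
    nlinarith [sq_nonneg (2 * y * (a * w) - b * v), sq_nonneg (2 * y * (a * w) - a * z), sq_nonneg (b * v - a * z)]
  have h2 : y ^ 2 * (a * w) ^ 2 ≤ (a * w) ^ 2 := by
    nlinarith [sq_nonneg (a * w)]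
  have h3 : (a * w) ^ 2 ≤ A ^ 2 * w ^ 2 := by
    rw [mul_pow]
    exact mul_le_mul_of_nonneg_right ha2 (sq_nonneg w)
  have h4 : (a * z) ^ 2 ≤ A ^ 2 * z ^ 2 := by
    rw [mul_pow]
    exact mul_le_mul_of_nonneg_right ha2 (sq_nonneg z)
  have h5 : (b * v) ^ 2 ≤ B ^ 2 * v ^ 2 := by
    rw [mul_pow]
    exact mul_le_mul_of_nonneg_right hb2 (sq_nonneg v)
  have h6 : 0 ≤ B ^ 2 * u ^ 2 := by positivity
  have h7 : 0 ≤ A ^ 2 * z ^ 2 := by positivity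
  have h8 : 0 ≤ B ^ 2 * v ^ 2 := by positivity
  nlinarith

theorem hi_haDen_bdd (hf : Sm f) (ht : t < 0) {M : ℝ}
    (hM : ∀ y ∈ Icc (-1 : ℝ) 1, |f (t, y)| ≤ M ∧ |ttF f (t, y)| ≤ M) : haDen f t ≤ 2 * Real.pi * M ^ 2 := by
  have e : 2 * Real.pi * M ^ 2 = II (fun _ => 2 * M ^ 2) := by
    rw [ii_const]
    ring
  rw [e]
  refine ii_mono (hi_den_CI hf ht) continuousOn_const fun y hy => ?_
  obtain ⟨h1, h2⟩ := hM y hy
  have h3 : (f (t, y)) ^ 2 ≤ M ^ 2 := by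
    rw [← sq_abs]
    exact pow_le_pow_left₀ (abs_nonneg _) h1 2
  have h4 : (ttF f (t, y)) ^ 2 ≤ M ^ 2 := by
    rw [← sq_abs]
    exact pow_le_pow_left₀ (abs_nonneg _) h2 2
  linarith

/-- monotonicity of time integrals of functions which are continuous on `t < 0`. -/
theorem hi_int_mono {φ ψ : ℝ → ℝ} (hφ : ContinuousOn φ (Iio 0)) (hψ : ContinuousOn ψ (Iio 0)) (h₁₂ : s₁ ≤ s₂)
    (h₂ : s₂ < 0) (h : ∀ s ∈ Icc s₁ s₂, φ s ≤ ψ s) : ∫ s in s₁..s₂, φ s ≤ ∫ s in s₁..s₂, ψ s := by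
  have hsub : uIcc s₁ s₂ ⊆ Iio (0 : ℝ) := by
    rw [uIcc_of_le h₁₂]
    exact fun s hs => lt_of_le_of_lt hs.2 h₂
  exact intervalIntegral.integral_mono_on h₁₂ (hφ.mono hsub).intervalIntegrable
    (hψ.mono hsub).intervalIntegrable h

theorem hi_intble {φ : ℝ → ℝ} (hφ : ContinuousOn φ (Iio 0)) (h₁₂ : s₁ ≤ s₂) (h₂ : s₂ < 0) :
    IntervalIntegrable φ volume s₁ s₂ := by
  have hsub : uIcc s₁ s₂ ⊆ Iio (0 : ℝ) := by
    rw [uIcc_of_le h₁₂]
    exact fun s hs => lt_of_le_of_lt hs.2 h₂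
  exact (hφ.mono hsub).intervalIntegrable

/-! ### `HiA` -/

theorem HiA.mono (h : HiA s₁ s₂ n F) (hn : n' ≤ n) : HiA s₁ s₂ n' F := fun j hj => h j (hj.trans hn)

theorem HiA.shift (h : HiA s₁ s₂ n F) : HiA s₁ s₂ n (fun k => F (k + 1)) :=
  fun j hj => (h j hj).imp fun _ hC k => hC (k + 1)

theorem HiA.dT (h : HiA s₁ s₂ (n + 1) F) : HiA s₁ s₂ n (fun k => dT (F k)) := by
  intro j hj
  obtain ⟨C, hC⟩ := h (j + 1) (Nat.succ_le_succ hj)
  refine ⟨C, fun k => ?_⟩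
  have e : Core.dT^[j] (Core.dT (F k)) = Core.dT^[j + 1] (F k) := (Function.iterate_succ_apply _ _ _).symm
  show ∫ s in s₁..s₂, haDen (Core.dT^[j] (Core.dT (F k))) s ≤ C
  rw [e]
  exact hC k

theorem hiA_of_dT (h0 : HiA s₁ s₂ 0 F) (h : HiA s₁ s₂ n (fun k => dT (F k))) : HiA s₁ s₂ (n + 1) F := by
  intro j hj
  cases j with
  | zero => exact h0 0 le_rfl
  | succ j =>
    obtain ⟨C, hC⟩ := h j (Nat.le_of_succ_le_succ hj)
    refine ⟨C, fun k => ?_⟩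
    have e : Core.dT^[j + 1] (F k) = Core.dT^[j] (Core.dT (F k)) := Function.iterate_succ_apply _ _ _
    rw [e]
    exact hC k

/-- the time integral of the density only sees the function on the strip. -/
theorem hiA_int_congr (h₁₂ : s₁ ≤ s₂) (h₂ : s₂ < 0) (hf : Sm f) (hg : Sm g) (h : HiEq f g) :
    ∫ s in s₁..s₂, haDen f s = ∫ s in s₁..s₂, haDen g s := by
  apply intervalIntegral.integral_congr
  intro s hs
  rw [uIcc_of_le h₁₂] at hs
  exact hi_haDen_congr hf hg h (lt_of_le_of_lt hs.2 h₂)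

theorem HiA.congr (h₁₂ : s₁ ≤ s₂) (h₂ : s₂ < 0) (hF : ∀ k, Sm (F k)) (hF' : ∀ k, Sm (F' k)) (h : HiA s₁ s₂ n F)
    (e : ∀ k, HiEq (F' k) (F k)) : HiA s₁ s₂ n F' := by
  intro j hj
  obtain ⟨C, hC⟩ := h j hj
  refine ⟨C, fun k => ?_⟩
  rw [hiA_int_congr h₁₂ h₂ ((hF' k).dT_iter j) ((hF k).dT_iter j) (hi_dT_iter_congr (e k) j)]
  exact hC k

theorem HiA.add (h₁₂ : s₁ ≤ s₂) (h₂ : s₂ < 0) (hF : ∀ k, Sm (F k)) (hF' : ∀ k, Sm (F' k)) (h : HiA s₁ s₂ n F)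
    (h' : HiA s₁ s₂ n F') : HiA s₁ s₂ n (fun k p => F k p + F' k p) := by
  intro j hj
  obtain ⟨C, hC⟩ := h j hj
  obtain ⟨C', hC'⟩ := h' j hj
  refine ⟨2 * C + 2 * C', fun k => ?_⟩
  have hs1 : Sm (Core.dT^[j] (F k)) := (hF k).dT_iter j
  have hs2 : Sm (Core.dT^[j] (F' k)) := (hF' k).dT_iter j
  have e : HiEq (Core.dT^[j] (fun p => F k p + F' k p))
      (fun p => Core.dT^[j] (F k) p + Core.dT^[j] (F' k) p) :=
    fun t ht y _ => e2Pd_add (hF k) (hF' k) j 0 t ht y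
  show ∫ s in s₁..s₂, haDen (Core.dT^[j] (fun p => F k p + F' k p)) s ≤ 2 * C + 2 * C'
  rw [hiA_int_congr h₁₂ h₂ (((hF k).add (hF' k)).dT_iter j) (hs1.add hs2) e]
  have hc1 := hi_haDen_cont hs1
  have hc2 := hi_haDen_cont hs2
  have h1 : ∫ s in s₁..s₂, haDen (fun p => Core.dT^[j] (F k) p + Core.dT^[j] (F' k) p) s
      ≤ ∫ s in s₁..s₂, (2 * haDen (Core.dT^[j] (F k)) s + 2 * haDen (Core.dT^[j] (F' k)) s) :=
    hi_int_mono (hi_haDen_cont (hs1.add hs2)) ((continuousOn_const.mul hc1).add (continuousOn_const.mul hc2))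
      h₁₂ h₂ (fun s hs => hi_haDen_add hs1 hs2 (lt_of_le_of_lt hs.2 h₂))
  rw [intervalIntegral.integral_add ((hi_intble hc1 h₁₂ h₂).const_mul 2) ((hi_intble hc2 h₁₂ h₂).const_mul 2),
    intervalIntegral.integral_const_mul, intervalIntegral.integral_const_mul] at h1
  linarith [hC k, hC' k]

theorem HiA.neg (h₁₂ : s₁ ≤ s₂) (h₂ : s₂ < 0) (hF : ∀ k, Sm (F k)) (h : HiA s₁ s₂ n F) :
    HiA s₁ s₂ n (fun k p => -F k p) := by
  intro j hj
  obtain ⟨C, hC⟩ := h j hj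
  refine ⟨C, fun k => ?_⟩
  have hs1 : Sm (Core.dT^[j] (F k)) := (hF k).dT_iter j
  have e : HiEq (Core.dT^[j] (fun p => -F k p)) (fun p => -Core.dT^[j] (F k) p) :=
    fun t ht y _ => e2Pd_neg (hF k) j 0 t ht y
  show ∫ s in s₁..s₂, haDen (Core.dT^[j] (fun p => -F k p)) s ≤ C
  rw [hiA_int_congr h₁₂ h₂ ((hF k).neg.dT_iter j) hs1.neg e]
  have e2 : ∫ s in s₁..s₂, haDen (fun p => -Core.dT^[j] (F k) p) s = ∫ s in s₁..s₂, haDen (Core.dT^[j] (F k)) s := by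
    apply intervalIntegral.integral_congr
    intro s hs
    rw [uIcc_of_le h₁₂] at hs
    exact hi_haDen_neg hs1 (lt_of_le_of_lt hs.2 h₂)
  rw [e2]
  exact hC k

theorem HiA.sub (h₁₂ : s₁ ≤ s₂) (h₂ : s₂ < 0) (hF : ∀ k, Sm (F k)) (hF' : ∀ k, Sm (F' k)) (h : HiA s₁ s₂ n F)
    (h' : HiA s₁ s₂ n F') : HiA s₁ s₂ n (fun k p => F k p - F' k p) := by
  have e : (fun k p => F k p - F' k p) = fun k p => F k p + (fun k p => -F' k p) k p := by
    funext k p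
    exact sub_eq_add_neg _ _
  rw [e]
  exact HiA.add h₁₂ h₂ hF (fun k => (hF' k).neg) h (HiA.neg h₁₂ h₂ hF' h')

/-- `B ⊆ A`, the proof (stated here since `hiA_sum` needs the zero family). -/
theorem hiA_of_B_aux (h₁₂ : s₁ ≤ s₂) (h₂ : s₂ < 0) (hμ : ∀ k, Sm (μ k)) (h : HiB s₁ s₂ n μ) : HiA s₁ s₂ n μ := by
  intro j hj
  obtain ⟨C, _, hC⟩ := HiB0.bound h.1 hj
  obtain ⟨C', _, hC'⟩ := HiB0.bound h.2 hj
  refine ⟨(s₂ - s₁) * (2 * Real.pi * (max C C') ^ 2), fun k => ?_⟩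
  have hs : Sm (Core.dT^[j] (μ k)) := (hμ k).dT_iter j
  have h1 : ∫ s in s₁..s₂, haDen (Core.dT^[j] (μ k)) s ≤ ∫ _s in s₁..s₂, (2 * Real.pi * (max C C') ^ 2) := by
    refine hi_int_mono (hi_haDen_cont hs) continuousOn_const h₁₂ h₂ (fun s hs' => ?_)
    have hs0 : s < 0 := lt_of_le_of_lt hs'.2 h₂
    refine hi_haDen_bdd hs hs0 (fun y hy => ⟨(hC k s hs' y hy).trans (le_max_left _ _), ?_⟩)
    rw [← hi_dT_iter_ttF (hμ k) j hs0 y]
    exact (hC' k s hs' y hy).trans (le_max_right _ _)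
  rwa [intervalIntegral.integral_const, smul_eq_mul] at h1

theorem hiA_sum (h₁₂ : s₁ ≤ s₂) (h₂ : s₂ < 0) {ι : Type} (s : Finset ι) {𝓗 : ι → ℕ → Fn}
    (hf : ∀ a ∈ s, ∀ k, Sm (𝓗 a k)) (h : ∀ a ∈ s, HiA s₁ s₂ n (𝓗 a)) :
    HiA s₁ s₂ n (fun k p => ∑ a ∈ s, 𝓗 a k p) := by
  classical
  induction s using Finset.induction_on with
  | empty =>
    simp only [Finset.sum_empty]
    exact hiA_of_B_aux h₁₂ h₂ (fun _ => sm_const 0) (hiB_const h₂ (sm_const 0) s₁ n)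
  | insert a s ha ih =>
    have e : (fun k p => ∑ b ∈ insert a s, 𝓗 b k p) = fun k p => 𝓗 a k p + (fun k p => ∑ b ∈ s, 𝓗 b k p) k p := by
      funext k p
      exact Finset.sum_insert ha
    rw [e]
    refine HiA.add h₁₂ h₂ (hf a (Finset.mem_insert_self a s))
      (fun k => sm_sum s (fun b hb => hf b (Finset.mem_insert_of_mem hb) k))
      (h a (Finset.mem_insert_self a s))
      (ih (fun b hb => hf b (Finset.mem_insert_of_mem hb)) (fun b hb => h b (Finset.mem_insert_of_mem hb)))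

/-- **multiplier rule** `B · A ⊆ A`  (induction on `n` for all families; base: `hi_haDen_mul`, `hi_int_mono`). -/
theorem HiA.mulB (h₁₂ : s₁ ≤ s₂) (h₂ : s₂ < 0) (hμ : ∀ k, Sm (μ k)) (hF : ∀ k, Sm (F k)) (h : HiB s₁ s₂ n μ)
    (h' : HiA s₁ s₂ n F) : HiA s₁ s₂ n (fun k p => μ k p * F k p) := by
  have base : ∀ {μ F : ℕ → Fn}, (∀ k, Sm (μ k)) → (∀ k, Sm (F k)) → HiB s₁ s₂ 0 μ → HiA s₁ s₂ 0 F →
      HiA s₁ s₂ 0 (fun k p => μ k p * F k p) := by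
    intro μ F hμ hF h h' j hj
    obtain rfl : j = 0 := Nat.le_zero.mp hj
    obtain ⟨C1, hC10, hC1⟩ := HiB0.bound h.1 (le_refl 0)
    obtain ⟨C2, hC20, hC2⟩ := HiB0.bound h.2 (le_refl 0)
    obtain ⟨C, hC⟩ := h' 0 (le_refl 0)
    refine ⟨2 * (C1 + C2) ^ 2 * C, fun k => ?_⟩
    simp only [Function.iterate_zero, id] at hC1 hC2 hC ⊢
    have hmono : ∫ s in s₁..s₂, haDen (fun p => μ k p * F k p) s
        ≤ ∫ s in s₁..s₂, 2 * (C1 + C2) ^ 2 * haDen (F k) s := by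
      refine hi_int_mono (hi_haDen_cont ((hμ k).mul (hF k)))
        (continuousOn_const.mul (hi_haDen_cont (hF k))) h₁₂ h₂ (fun s hs => ?_)
      exact hi_haDen_mul (hμ k) (hF k) (lt_of_le_of_lt hs.2 h₂)
        (fun y hy => add_le_add (hC1 k s hs y hy) (hC2 k s hs y hy))
    refine hmono.trans ?_
    rw [intervalIntegral.integral_const_mul]
    exact mul_le_mul_of_nonneg_left (hC k) (by positivity)
  induction n generalizing μ F with
  | zero => exact base hμ hF h h'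
  | succ n ih =>
    refine hiA_of_dT (base hμ hF (h.mono (Nat.zero_le _)) (h'.mono (Nat.zero_le _))) ?_
    have hR : HiA s₁ s₂ n (fun k p => Core.dT (μ k) p * F k p + μ k p * Core.dT (F k) p) :=
      HiA.add h₁₂ h₂ (fun k => (hμ k).dT.mul (hF k)) (fun k => (hμ k).mul (hF k).dT)
        (ih (fun k => (hμ k).dT) hF (HiB.dT h₂ hμ h) (h'.mono (Nat.le_succ n)))
        (ih hμ (fun k => (hF k).dT) (h.mono (Nat.le_succ n)) h'.dT)
    exact HiA.congr h₁₂ h₂ (fun k => ((hμ k).dT.mul (hF k)).add ((hμ k).mul (hF k).dT))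
      (fun k => ((hμ k).mul (hF k)).dT) hR (fun k t ht y _ => dT_mul (hμ k) (hF k) ht y)

/-- `B ⊆ A`   (`hi_haDen_bdd`; `dT^[j] (ttF f) = ttF (dT^[j] f)`: `hi_dT_iter_ttF`). -/
theorem hiA_of_B (h₁₂ : s₁ ≤ s₂) (h₂ : s₂ < 0) (hμ : ∀ k, Sm (μ k)) (h : HiB s₁ s₂ n μ) : HiA s₁ s₂ n μ :=
  hiA_of_B_aux h₁₂ h₂ hμ h

theorem hiA_const (h₁₂ : s₁ ≤ s₂) (h₂ : s₂ < 0) (hg : Sm g) (n : ℕ) : HiA s₁ s₂ n (fun _ => g) :=
  hiA_of_B h₁₂ h₂ (fun _ => hg) (hiB_const h₂ hg s₁ n)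

/-! ### `HiP` -/

theorem HiP.mono (h : HiP s₁ s₂ n P) (hn : n' ≤ n) : HiP s₁ s₂ n' P := ⟨h.1.mono hn, HiW.mono h.2 hn le_rfl⟩

theorem HiP.shift (h : HiP s₁ s₂ n P) : HiP s₁ s₂ n (fun k => P (k + 1)) := ⟨h.1.shift, HiW.shift h.2⟩

/-- `dT (X f) = X dT f`. -/
theorem HiP.dT (h₂ : s₂ < 0) (hP : ∀ k, Sm (P k)) (h : HiP s₁ s₂ (n + 1) P) : HiP s₁ s₂ n (fun k => dT (P k)) := by
  refine ⟨h.1.dT, ?_⟩
  exact HiW.congr h₂ (fun k => (sm_Xf.mul (hP k)).dT) (fun k => sm_Xf.mul (hP k).dT) (HiW.dT h.2)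
    (fun k t ht y _ => (dT_y_mul Xf (hP k) ht y).symm)

theorem hiP_const (h₁₂ : s₁ ≤ s₂) (h₂ : s₂ < 0) (hg : Sm g) (n : ℕ) : HiP s₁ s₂ n (fun _ => g) :=
  ⟨hiA_const h₁₂ h₂ hg n, hiW_const hwOK_0 h₂ (sm_Xf.mul hg) s₁ n 0⟩

/-- **jets**: `P, P' ∈ HiP n  ⇒  X P P' ∈ HiA n`   (induction on `n` for all families: `dT (X P P') = X (dT P) P' + X P (dT P')`; base: `hi_haDen_XPP`). -/
theorem HiP.XPP (h₁₂ : s₁ ≤ s₂) (h₂ : s₂ < 0) (hP : ∀ k, Sm (P k)) (hP' : ∀ k, Sm (P' k)) (h : HiP s₁ s₂ n P)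
    (h' : HiP s₁ s₂ n P') : HiA s₁ s₂ n (fun k p => Xf p.2 * (P k p * P' k p)) := by
  have base : ∀ {P P' : ℕ → Fn}, (∀ k, Sm (P k)) → (∀ k, Sm (P' k)) → HiP s₁ s₂ 0 P → HiP s₁ s₂ 0 P' →
      HiA s₁ s₂ 0 (fun k p => Xf p.2 * (P k p * P' k p)) := by
    intro P P' hP hP' h h' j hj
    obtain rfl : j = 0 := Nat.le_zero.mp hj
    obtain ⟨A, hA0, hA⟩ := HiB0.bound h.2 (le_refl 0)
    obtain ⟨B, hB0, hB⟩ := HiB0.bound h'.2 (le_refl 0)
    obtain ⟨C, hC⟩ := h.1 0 (le_refl 0)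
    obtain ⟨C', hC'⟩ := h'.1 0 (le_refl 0)
    refine ⟨13 * (A ^ 2 * C' + B ^ 2 * C), fun k => ?_⟩
    simp only [Function.iterate_zero, id] at hA hB hC hC' ⊢
    have hmono : ∫ s in s₁..s₂, haDen (fun p => Xf p.2 * (P k p * P' k p)) s
        ≤ ∫ s in s₁..s₂, 13 * (A ^ 2 * haDen (P' k) s + B ^ 2 * haDen (P k) s) := by
      refine hi_int_mono (hi_haDen_cont (sm_Xf.mul ((hP k).mul (hP' k))))
        (continuousOn_const.mul ((continuousOn_const.mul (hi_haDen_cont (hP' k))).add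
          (continuousOn_const.mul (hi_haDen_cont (hP k))))) h₁₂ h₂ (fun s hs => ?_)
      exact hi_haDen_XPP (hP k) (hP' k) (lt_of_le_of_lt hs.2 h₂)
        (fun y hy => hA k s hs y hy) (fun y hy => hB k s hs y hy)
    refine hmono.trans ?_
    rw [intervalIntegral.integral_const_mul, intervalIntegral.integral_add
      ((hi_intble (hi_haDen_cont (hP' k)) h₁₂ h₂).const_mul _)
      ((hi_intble (hi_haDen_cont (hP k)) h₁₂ h₂).const_mul _),
      intervalIntegral.integral_const_mul, intervalIntegral.integral_const_mul]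
    have h1 := mul_le_mul_of_nonneg_left (hC' k) (sq_nonneg A)
    have h2 := mul_le_mul_of_nonneg_left (hC k) (sq_nonneg B)
    linarith
  induction n generalizing P P' with
  | zero => exact base hP hP' h h'
  | succ n ih =>
    refine hiA_of_dT (base hP hP' (h.mono (Nat.zero_le _)) (h'.mono (Nat.zero_le _))) ?_
    have hR : HiA s₁ s₂ n (fun k p => Xf p.2 * (Core.dT (P k) p * P' k p) + Xf p.2 * (P k p * Core.dT (P' k) p)) :=
      HiA.add h₁₂ h₂ (fun k => sm_Xf.mul ((hP k).dT.mul (hP' k))) (fun k => sm_Xf.mul ((hP k).mul (hP' k).dT))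
        (ih (fun k => (hP k).dT) hP' (HiP.dT h₂ hP h) (h'.mono (Nat.le_succ n)))
        (ih hP (fun k => (hP' k).dT) (h.mono (Nat.le_succ n)) (HiP.dT h₂ hP' h'))
    refine HiA.congr h₁₂ h₂ (fun k => (sm_Xf.mul ((hP k).dT.mul (hP' k))).add (sm_Xf.mul ((hP k).mul (hP' k).dT)))
      (fun k => (sm_Xf.mul ((hP k).mul (hP' k))).dT) hR (fun k t ht y _ => ?_)
    rw [dT_y_mul Xf ((hP k).mul (hP' k)) ht y, dT_mul (hP k) (hP' k) ht y]
    ring

end Claimed.Agent.R324.Core
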