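/-
Row 324, module HI, file LtT: the commutator `L̃_T = [∂_t, L̃]` and its u-form.
Tools: Core/PR/Sm.lean (`dT_add`, `dT_mul`, `Sm.dT_dY`), Core/PR/SmBg.lean (`BgSm.smZ`, `.smw1`, `.smcf`, `Z_pos`), Core/PR/SmR.lean (`bgR_sm`, `sm_Lt`), HI/Ops.lean.
-/
import Claimed.Agent.R324.Core.HI.Ops

set_option autoImplicit false

namespace Claimed.Agent.R324.Core

open Set Filter Topology MeasureTheory
open scoped ContDiff

noncomputable section

variable {q : ℝ} {g : Bg} {U V : Tri} {f : Fn} {t : ℝ}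

/-! ### the commutator of `∂_t` and `L̃` -/

/-- `L̃_T U = ∂_t (L̃ U) - L̃ (∂_t U)`. -/
def hLtT (q : ℝ) (g : Bg) (U : Tri) : Tri := fun j p => dT (Lt q g U j) p - Lt q g (dT3 U) j p

theorem SmTri.hLtT (hq : 1 < q) (hg : BgSm g) (hU : SmTri U) : SmTri (hLtT q g U) :=
  fun j => (sm_Lt hq hg hU j).dT.sub (sm_Lt hq hg hU.dT3 j)

/-- raw form of the commutator: only the coefficients are differentiated. -/
theorem hi_LtT_raw (hq : 1 < q) (hg : BgSm g) (hU : SmTri U) (j : Fin 3) (ht : t < 0) (y : ℝ) :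
    hLtT q g U j (t, y) = dT (bgR q g).Z (t, y) * Xf y * dY (dY (U j)) (t, y)
      + (-(dimJ q j) * y * dT (bgR q g).Z (t, y) + Xf y * dT (bgR q g).w1 (t, y)) * dY (U j) (t, y)
      + ∑ k, facJ j k y * dT ((bgR q g).cf q j k) (t, y) * U k (t, y) := by
  have hG := bgR_sm hq hg
  have hZ := hG.smZ.hasDerivAt_t ht y
  have hw := hG.smw1.hasDerivAt_t ht y
  have hc := fun k => (hG.smcf q j k).hasDerivAt_t ht y
  have h2 := (hU j).dY.dY.hasDerivAt_t ht y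
  have h1 := (hU j).dY.hasDerivAt_t ht y
  have h0 := fun k => (hU k).hasDerivAt_t ht y
  have e1 : dT (dY (U j)) (t, y) = dY (dT (U j)) (t, y) := (hU j).dT_dY ht y
  have e2 : dT (dY (dY (U j))) (t, y) = dY (dY (dT (U j))) (t, y) := by
    rw [(hU j).dY.dT_dY ht y]
    exact dY_congr (fun z => (hU j).dT_dY ht z) y
  have hD := (((hZ.mul_const (Xf y)).mul h2).add
    (((hZ.const_mul (-(dimJ q j) * y)).add (hw.const_mul (Xf y))).mul h1)).add
    ((((hc 0).const_mul (facJ j 0 y)).mul (h0 0)).add ((((hc 1).const_mul (facJ j 1 y)).mul (h0 1)).add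
      (((hc 2).const_mul (facJ j 2 y)).mul (h0 2))))
  have hD2 := hD.congr_of_eventuallyEq (f₁ := fun s => Lt q g U j (s, y))
    (Filter.Eventually.of_forall fun s => by
      simp only [Lt, Lop, Fin.sum_univ_three, Pi.add_apply, Pi.mul_apply]
      ring)
  have hD' := dT_of_hasDerivAt (f := Lt q g U j) hD2
  unfold hLtT
  rw [hD', e1, e2]
  simp only [Lt, Lop, dT3, Fin.sum_univ_three, Pi.add_apply]
  ring

/-- **u-form of the commutator.**   With `Z̃, w̃₁, c̃` the coefficients of `bgR q g`, `μ = ∂_t Z̃ / Z̃`: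
   `(L̃_T U)_j = μ (L̃ U)_j + X (∂_t w̃₁ - μ w̃₁) U_j' + Σ_k fac_jk (∂_t c̃_jk - μ c̃_jk) U_k`       (product rule in `Lop`, `Sm.dT_dY`; then eliminate `Z̃ (X U_j'' - d_j y U_j')`).
u-form: `i = 0,1`: `a i i = ∂_t w̃₁ - μ w̃₁` (other `a i c = 0`), `b i k = ∂_t c̃_ik - μ c̃_ik` (`fac_i2 U_2 = u_2`);
`i = 2`: multiply by `X`: `a 2 3 = ∂_t w̃₁ - μ w̃₁`, `b 2 0 = X (..)_20`, `b 2 1 = X (..)_21`, `b 2 2 = (..)_22`. -/
theorem hi_LtT_form (hq : 1 < q) (hg : BgSm g) : ∃ (μ : Fn) (a : Fin 3 → Fin 5 → Fn) (b : Fin 3 → Fin 3 → Fn),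
    Sm μ ∧ (∀ i c, Sm (a i c)) ∧ (∀ i k, Sm (b i k)) ∧ ∀ U : Tri, SmTri U → ∀ i, ∀ t < 0, ∀ y : ℝ,
      uT (hLtT q g U) i (t, y) = μ (t, y) * hvT q g U i (t, y)
        + ∑ c, a i c (t, y) * (Xf y * hpp 0 U c (t, y)) + ∑ k, b i k (t, y) * uT U k (t, y) := by
  have hG := bgR_sm hq hg
  have hμ : Sm (fun p => dT (bgR q g).Z p / (bgR q g).Z p) :=
    hG.smZ.dT.div hG.smZ (fun t ht y => (hG.Z_pos ht y).ne')
  have he : Sm (fun p => dT (bgR q g).w1 p - dT (bgR q g).Z p / (bgR q g).Z p * (bgR q g).w1 p) :=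
    hG.smw1.dT.sub (hμ.mul hG.smw1)
  have hb : ∀ i k, Sm (fun p => dT ((bgR q g).cf q i k) p
      - dT (bgR q g).Z p / (bgR q g).Z p * (bgR q g).cf q i k p) :=
    fun i k => (hG.smcf q i k).dT.sub (hμ.mul (hG.smcf q i k))
  refine ⟨fun p => dT (bgR q g).Z p / (bgR q g).Z p,
    fun i c p => if (i = 0 ∧ c = 0) ∨ (i = 1 ∧ c = 1) ∨ (i = 2 ∧ c = 3) then
      dT (bgR q g).w1 p - dT (bgR q g).Z p / (bgR q g).Z p * (bgR q g).w1 p else 0,
    fun i k p => (if i = 2 ∧ k ≠ 2 then Xf p.2 else 1) * (dT ((bgR q g).cf q i k) p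
      - dT (bgR q g).Z p / (bgR q g).Z p * (bgR q g).cf q i k p), hμ, ?_, ?_, ?_⟩
  · intro i c
    by_cases h : (i = 0 ∧ c = 0) ∨ (i = 1 ∧ c = 1) ∨ (i = 2 ∧ c = 3)
    · simp only [if_pos h]
      exact he
    · simp only [if_neg h]
      exact sm_const 0
  · intro i k
    by_cases h : i = 2 ∧ k ≠ 2
    · simp only [if_pos h]
      exact sm_Xf.mul (hb i k)
    · simp only [if_neg h]
      exact (sm_const 1).mul (hb i k)
  · intro U hU i t ht y
    have hZ : (bgR q g).Z (t, y) ≠ 0 := (hG.Z_pos ht y).ne'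
    have r0 := hi_LtT_raw hq hg hU 0 ht y
    have r1 := hi_LtT_raw hq hg hU 1 ht y
    have r2 := hi_LtT_raw hq hg hU 2 ht y
    fin_cases i
    · simp [uT, hvT, hpp, r0, Lt, Lop, facJ, Xf, Fin.sum_univ_three]
      field_simp
      ring
    · simp [uT, hvT, hpp, r1, Lt, Lop, facJ, Xf, Fin.sum_univ_three]
      field_simp
      ring
    · simp [uT, hvT, hpp, r2, Lt, Lop, facJ, Xf, Fin.sum_univ_three]
      field_simp
      ring

/-- `∂_t v(U) = v(∂_t U) + uT (L̃_T U)`. -/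
theorem hi_dT_hvT (hq : 1 < q) (hg : BgSm g) (hU : SmTri U) (i : Fin 3) (ht : t < 0) (y : ℝ) :
    dT (hvT q g U i) (t, y) = hvT q g (dT3 U) i (t, y) + uT (hLtT q g U) i (t, y) := by
  have h := hi_dT_uT (hU.Lt hq hg) i ht y
  unfold hvT
  rw [h]
  fin_cases i <;> simp [uT, hLtT, dT3]
  ring

end

theorem hi_ltT_hygiene : True := by
  have := @hLtT.eq_1
  trivial

end Claimed.Agent.R324.Core
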