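/-
Row 324, module HI, part E, file En: elementary facts on the energies `hiE`, `hiD`, `hDYu`, `DY` of smooth triples: continuity in `t`, sign, quadratic algebra, weights on compact time intervals, vanishing.
Tools: `hi_II_cont` (HI/ClsA.lean), Core/W/Ibp.lean (`ii_*`), Core/W/WtB.lean (`w0_wL_pos`), Core/W/WtS.lean (`w0_contDiffAt_wL`: joint smoothness of the weights), `V0 = wL 2 30`, `V1 = wL 4 30`, `tt_sl`, `uT_two`.
Unfold:  `E0 = En q (V0 ..) (slT U t) = 𝕀[X V0 n2]`,  `D0 = Di .. = 𝕀[V0 (n2t + q n2)]`,  `E1, D1`: the same with `V1` and `Lt q g U`;   `n2 q (slT U t) y = Σ_i kapJ q i (uT U i (t,y))²`,  `n2t q (slT U t) y = Σ_i kapJ q i (ttF (uT U i) (t,y))²`.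
-/
import Claimed.Agent.R324.Core.HI.ClsA
import Claimed.Agent.R324.Core.HI.LtT
import Claimed.Agent.R324.Core.W.WtS

set_option autoImplicit false

namespace Claimed.Agent.R324.Core

open Set Filter Topology MeasureTheory
open scoped ContDiff

variable {q Γ : ℝ} {g : Bg} {κ : HiC} {s₁ s₂ t ts : ℝ} {W W' s s' : Tri}

/-! ### `n2`, `n2t` in u-form -/

theorem hi_n2_eq (q : ℝ) (W : Tri) (t y : ℝ) : n2 q (slT W t) y = ∑ i, kapJ q i * (uT W i (t, y)) ^ 2 := by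
  rw [Fin.sum_univ_three]
  simp only [n2, slT, uT_zero, uT_one, uT_two, kapJ, Xf]
  simp

theorem hi_n2t_eq (q : ℝ) (W : Tri) (t y : ℝ) : n2t q (slT W t) y = ∑ i, kapJ q i * (ttF (uT W i) (t, y)) ^ 2 := by
  rw [Fin.sum_univ_three, uT_zero, uT_one, uT_two]
  simp only [n2t, kapJ]
  have h0 : tt (slT W t 0) y = ttF (W 0) (t, y) := rfl
  have h1 : tt (slT W t 1) y = ttF (W 1) (t, y) := rfl
  have h2 : tt (fun z => (1 - z ^ 2) * slT W t 2 z) y = ttF (fun p => Xf p.2 * W 2 p) (t, y) := rfl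
  rw [h0, h1, h2]
  simp

theorem hi_kapJ_pos (hq : 1 < q) (i : Fin 3) : 1 / 2 ≤ kapJ q i := by
  have hq1 : 0 < q + 1 := by linarith
  fin_cases i
  · simp only [kapJ]
    simp
    linarith
  · simp only [kapJ]
    simp
    norm_num
  · simp only [kapJ]
    simp
    rw [le_div_iff₀ hq1]
    linarith

/-- `DY` in u-form. -/
theorem hi_DY_eq (q Γ : ℝ) (S : Tri) (t : ℝ) : DY q Γ S t = hDYu q Γ (uT S) t := by
  unfold DY Di hDYu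
  congr 1
  funext y
  rw [hi_n2_eq, hi_n2t_eq, Finset.mul_sum, ← Finset.sum_add_distrib]
  congr 1
  refine Finset.sum_congr rfl (fun i _ => ?_)
  ring

theorem hi_D1_eq (q : ℝ) (g : Bg) (Γ : ℝ) (W : Tri) (t : ℝ) : D1 q g Γ W t = hDYu q Γ (hvT q g W) t := by
  exact hi_DY_eq q Γ (Lt q g W) t

/-! ### weights -/

theorem hi_V0_cont (q Γ : ℝ) : ContinuousOn (fun p : ℝ × ℝ => V0 q Γ p.1 p.2) (Iio (0 : ℝ) ×ˢ Icc (-1 : ℝ) 1) := by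
  intro p hp
  exact (w0_contDiffAt_wL 2 30 q Γ (t := p.1) (y := p.2) hp.1 hp.2).continuousAt.continuousWithinAt

theorem hi_V1_cont (q Γ : ℝ) : ContinuousOn (fun p : ℝ × ℝ => V1 q Γ p.1 p.2) (Iio (0 : ℝ) ×ˢ Icc (-1 : ℝ) 1) := by
  intro p hp
  exact (w0_contDiffAt_wL 4 30 q Γ (t := p.1) (y := p.2) hp.1 hp.2).continuousAt.continuousWithinAt

/-- positive continuous function on the compact set `[s₁,s₂] × [-1,1]`. -/
theorem hi_V1_lower (hq : 1 < q) (hΓ : 0 ≤ Γ) (s₁ : ℝ) (h₂ : s₂ < 0) : ∃ c : ℝ, 0 < c ∧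
    ∀ t ∈ Icc s₁ s₂, ∀ y ∈ Icc (-1 : ℝ) 1, c ≤ V1 q Γ t y := by
  by_cases h12 : s₁ ≤ s₂
  · have hK : IsCompact (Icc s₁ s₂ ×ˢ Icc (-1 : ℝ) 1) := isCompact_Icc.prod isCompact_Icc
    have hne : (Icc s₁ s₂ ×ˢ Icc (-1 : ℝ) 1).Nonempty :=
      ⟨(s₁, 0), ⟨left_mem_Icc.2 h12, by constructor <;> norm_num⟩⟩
    have hsub : Icc s₁ s₂ ×ˢ Icc (-1 : ℝ) 1 ⊆ Iio (0 : ℝ) ×ˢ Icc (-1 : ℝ) 1 :=
      Set.prod_mono (fun t ht => lt_of_le_of_lt ht.2 h₂) subset_rfl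
    obtain ⟨p, hp, hmin⟩ := hK.exists_isMinOn hne ((hi_V1_cont q Γ).mono hsub)
    have hpos : 0 < V1 q Γ p.1 p.2 := w0_wL_pos hq hΓ (hsub hp).1 hp.2
    refine ⟨V1 q Γ p.1 p.2, hpos, fun t ht y hy => ?_⟩
    have hmem : (t, y) ∈ Icc s₁ s₂ ×ˢ Icc (-1 : ℝ) 1 := ⟨ht, hy⟩
    have := isMinOn_iff.1 hmin (t, y) hmem
    exact this
  · exact ⟨1, one_pos, fun t ht => absurd (ht.1.trans ht.2) h12⟩

theorem hi_V1_upper (q Γ s₁ : ℝ) (h₂ : s₂ < 0) : ∃ C : ℝ, 0 ≤ C ∧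
    ∀ t ∈ Icc s₁ s₂, ∀ y ∈ Icc (-1 : ℝ) 1, V1 q Γ t y ≤ C := by
  have hK : IsCompact (Icc s₁ s₂ ×ˢ Icc (-1 : ℝ) 1) := isCompact_Icc.prod isCompact_Icc
  have hsub : Icc s₁ s₂ ×ˢ Icc (-1 : ℝ) 1 ⊆ Iio (0 : ℝ) ×ˢ Icc (-1 : ℝ) 1 :=
    Set.prod_mono (fun t ht => lt_of_le_of_lt ht.2 h₂) subset_rfl
  obtain ⟨C, hC⟩ := hK.exists_bound_of_continuousOn ((hi_V1_cont q Γ).mono hsub)
  refine ⟨max C 0, le_max_right _ _, fun t ht y hy => ?_⟩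
  have := hC (t, y) ⟨ht, hy⟩
  exact ((le_abs_self _).trans this).trans (le_max_left _ _)

/-! ### continuity in `t` -/

theorem hi_sm_contI {f : Fn} (hf : Sm f) : ContinuousOn f (Iio (0 : ℝ) ×ˢ Icc (-1 : ℝ) 1) :=
  hf.continuousOn.mono (prod_mono subset_rfl (subset_univ _))

theorem hi_sumsq_contI (q : ℝ) (hs : SmTri s) :
    ContinuousOn (fun p : ℝ × ℝ => ∑ i, kapJ q i * (s i p) ^ 2) (Iio (0 : ℝ) ×ˢ Icc (-1 : ℝ) 1) :=
  continuousOn_finsetSum _ (fun i _ => continuousOn_const.mul ((hi_sm_contI (hs i)).pow 2))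

theorem hi_En_contI (q : ℝ) {V : ℝ → ℝ → ℝ}
    (hV : ContinuousOn (fun p : ℝ × ℝ => V p.1 p.2) (Iio (0 : ℝ) ×ˢ Icc (-1 : ℝ) 1)) (hW : SmTri W) :
    ContinuousOn (fun t => En q (V t) (slT W t)) (Iio 0) := by
  have h : ContinuousOn (fun p : ℝ × ℝ => (1 - p.2 ^ 2) * V p.1 p.2 * ∑ i, kapJ q i * (uT W i p) ^ 2)
      (Iio (0 : ℝ) ×ˢ Icc (-1 : ℝ) 1) :=
    (((continuous_const.sub (continuous_snd.pow 2)).continuousOn).mul hV).mul (hi_sumsq_contI q hW.uT)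
  have h2 := hi_II_cont h
  refine h2.congr (fun t _ => ?_)
  unfold En
  simp only [hi_n2_eq]

theorem hi_Di_contI (q : ℝ) {V : ℝ → ℝ → ℝ}
    (hV : ContinuousOn (fun p : ℝ × ℝ => V p.1 p.2) (Iio (0 : ℝ) ×ˢ Icc (-1 : ℝ) 1)) (hW : SmTri W) :
    ContinuousOn (fun t => Di q (V t) (slT W t)) (Iio 0) := by
  have h : ContinuousOn (fun p : ℝ × ℝ => V p.1 p.2 * ((∑ i, kapJ q i * (ttF (uT W i) p) ^ 2)
      + q * ∑ i, kapJ q i * (uT W i p) ^ 2)) (Iio (0 : ℝ) ×ˢ Icc (-1 : ℝ) 1) :=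
    hV.mul ((hi_sumsq_contI q (s := fun i => ttF (uT W i)) (fun i => (hW.uT i).ttF)).add
      (continuousOn_const.mul (hi_sumsq_contI q hW.uT)))
  have h2 := hi_II_cont h
  refine h2.congr (fun t _ => ?_)
  unfold Di
  simp only [hi_n2_eq, hi_n2t_eq]

theorem hi_E0_cont (q Γ : ℝ) (hW : SmTri W) : ContinuousOn (E0 q Γ W) (Iio 0) :=
  hi_En_contI q (hi_V0_cont q Γ) hW

theorem hi_E1_cont (hq : 1 < q) (hg : BgSm g) (Γ : ℝ) (hW : SmTri W) : ContinuousOn (E1 q g Γ W) (Iio 0) :=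
  hi_En_contI q (hi_V1_cont q Γ) (hW.Lt hq hg)

theorem hi_hiE_cont (hq : 1 < q) (hg : BgSm g) (Γ : ℝ) (hW : SmTri W) : ContinuousOn (hiE q g Γ W) (Iio 0) :=
  (hi_E0_cont q Γ hW).add (hi_E1_cont hq hg Γ hW)

theorem hi_hiD_cont (hq : 1 < q) (hg : BgSm g) (Γ : ℝ) (hW : SmTri W) : ContinuousOn (hiD q g Γ W) (Iio 0) :=
  (hi_Di_contI q (hi_V0_cont q Γ) hW).add (hi_Di_contI q (hi_V1_cont q Γ) (hW.Lt hq hg))

theorem hi_hDYu_cont (q Γ : ℝ) (hs : SmTri s) : ContinuousOn (hDYu q Γ s) (Iio 0) := by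
  have h : ContinuousOn (fun p : ℝ × ℝ => V1 q Γ p.1 p.2 *
      ∑ i, kapJ q i * ((ttF (s i) p) ^ 2 + q * (s i p) ^ 2)) (Iio (0 : ℝ) ×ˢ Icc (-1 : ℝ) 1) :=
    (hi_V1_cont q Γ).mul (continuousOn_finsetSum _ (fun i _ => continuousOn_const.mul
      (((hi_sm_contI (hs i).ttF).pow 2).add (continuousOn_const.mul ((hi_sm_contI (hs i)).pow 2)))))
  exact hi_II_cont h

/-! ### signs -/

theorem hi_n2_nonneg (hq : 1 < q) (u : Fin 3 → ℝ → ℝ) (y : ℝ) : 0 ≤ n2 q u y := by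
  unfold n2
  have h1 : 0 < q + 1 := by linarith
  have h2 : 0 < q := by linarith
  positivity

theorem hi_n2t_nonneg (hq : 1 < q) (u : Fin 3 → ℝ → ℝ) (y : ℝ) : 0 ≤ n2t q u y := by
  unfold n2t
  have h1 : 0 < q + 1 := by linarith
  have h2 : 0 < q := by linarith
  positivity

theorem hi_En_nonneg (hq : 1 < q) {V : ℝ → ℝ} (hV : ∀ y ∈ Icc (-1 : ℝ) 1, 0 ≤ V y) (u : Fin 3 → ℝ → ℝ) :
    0 ≤ En q V u :=
  ii_nonneg (fun y hy => mul_nonneg (mul_nonneg (by nlinarith [hy.1, hy.2]) (hV y hy)) (hi_n2_nonneg hq u y))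

theorem hi_Di_nonneg (hq : 1 < q) {V : ℝ → ℝ} (hV : ∀ y ∈ Icc (-1 : ℝ) 1, 0 ≤ V y) (u : Fin 3 → ℝ → ℝ) :
    0 ≤ Di q V u :=
  ii_nonneg (fun y hy => mul_nonneg (hV y hy)
    (add_nonneg (hi_n2t_nonneg hq u y) (mul_nonneg (by linarith) (hi_n2_nonneg hq u y))))

theorem hi_E0_nonneg (hq : 1 < q) (hΓ : 0 ≤ Γ) (W : Tri) (ht : t < 0) : 0 ≤ E0 q Γ W t :=
  hi_En_nonneg hq (fun _ hy => (w0_wL_pos hq hΓ ht hy).le) _

theorem hi_E1_nonneg (hq : 1 < q) (hΓ : 0 ≤ Γ) (g : Bg) (W : Tri) (ht : t < 0) : 0 ≤ E1 q g Γ W t :=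
  hi_En_nonneg hq (fun _ hy => (w0_wL_pos hq hΓ ht hy).le) _

theorem hi_hiD_nonneg (hq : 1 < q) (hΓ : 0 ≤ Γ) (g : Bg) (W : Tri) (ht : t < 0) : 0 ≤ hiD q g Γ W t :=
  add_nonneg (hi_Di_nonneg hq (fun _ hy => (w0_wL_pos hq hΓ ht hy).le) _)
    (hi_Di_nonneg hq (fun _ hy => (w0_wL_pos hq hΓ ht hy).le) _)

theorem hi_hDYu_nonneg (hq : 1 < q) (hΓ : 0 ≤ Γ) (s : Tri) (ht : t < 0) : 0 ≤ hDYu q Γ s t :=
  ii_nonneg (fun y hy => mul_nonneg (w0_wL_pos hq hΓ ht hy).le (Finset.sum_nonneg (fun i _ =>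
    mul_nonneg (by linarith [hi_kapJ_pos hq i]) (add_nonneg (sq_nonneg _) (mul_nonneg (by linarith) (sq_nonneg _))))))

/-! ### quadratic algebra of `hDYu` -/

theorem hiEn3_sm_ci {f : Fn} (hf : Sm f) (ht : t < 0) : CI (fun y => f (t, y)) :=
  (hf.sl ht).continuous.continuousOn

theorem hiEn3_V1_ci (q Γ : ℝ) (ht : t < 0) : CI (fun y => V1 q Γ t y) := by
  intro y hy
  have h := hi_V1_cont q Γ (t, y) ⟨ht, hy⟩
  have h2 : ContinuousWithinAt (fun y : ℝ => ((t, y) : ℝ × ℝ)) (Icc (-1 : ℝ) 1) y :=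
    (Continuous.prodMk continuous_const continuous_id).continuousWithinAt
  have h3 : MapsTo (fun y : ℝ => ((t, y) : ℝ × ℝ)) (Icc (-1 : ℝ) 1) (Iio (0 : ℝ) ×ˢ Icc (-1 : ℝ) 1) :=
    fun y hy => ⟨ht, hy⟩
  exact ContinuousWithinAt.comp (g := fun p : ℝ × ℝ => V1 q Γ p.1 p.2) (f := fun y : ℝ => ((t, y) : ℝ × ℝ)) h h2 h3

theorem hiEn3_ci_cmul {f : ℝ → ℝ} (c : ℝ) (hf : CI f) : CI (fun y => c * f y) := continuousOn_const.mul hf

theorem hiEn3_hDYu_ci (q Γ : ℝ) (hs : SmTri s) (ht : t < 0) :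
    CI (fun y => V1 q Γ t y * ∑ i, kapJ q i * ((ttF (s i) (t, y)) ^ 2 + q * (s i (t, y)) ^ 2)) := by
  refine (hiEn3_V1_ci q Γ ht).mul ?_
  refine continuousOn_finsetSum _ (fun i _ => ?_)
  refine continuousOn_const.mul ?_
  exact ((hiEn3_sm_ci (hs i).ttF ht).pow 2).add (continuousOn_const.mul ((hiEn3_sm_ci (hs i) ht).pow 2))

theorem hiEn3_haDen_ci {f : Fn} (hf : Sm f) (ht : t < 0) :
    CI (fun y => (f (t, y)) ^ 2 + (ttF f (t, y)) ^ 2) :=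
  ((hiEn3_sm_ci hf ht).pow 2).add ((hiEn3_sm_ci hf.ttF ht).pow 2)

theorem hiEn3_ttF_add {f g : Fn} (hf : Sm f) (hg : Sm g) (ht : t < 0) (y : ℝ) :
    ttF (fun p => f p + g p) (t, y) = ttF f (t, y) + ttF g (t, y) := by
  show -(Xf y) * dY (fun p => f p + g p) (t, y) = -(Xf y) * dY f (t, y) + -(Xf y) * dY g (t, y)
  rw [dY_add hf hg ht y]
  ring

theorem hiEn3_kapJ_le (hq : 1 < q) (i : Fin 3) : kapJ q i ≤ q + 1 := by
  have h1 : q / (q + 1) ≤ q + 1 := by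
    rw [div_le_iff₀ (by linarith)]
    nlinarith
  fin_cases i <;> simp [kapJ] <;> linarith

theorem hi_hDYu_congr (hs : SmTri s) (hs' : SmTri s') (h : ∀ i, HiEq (s i) (s' i)) (ht : t < 0) :
    hDYu q Γ s t = hDYu q Γ s' t := by
  unfold hDYu
  refine ii_congr (fun y hy => ?_)
  have e1 : ∀ i, s i (t, y) = s' i (t, y) := fun i => h i t ht y hy
  have e2 : ∀ i, ttF (s i) (t, y) = ttF (s' i) (t, y) := fun i => hi_ttF_congr (hs i) (hs' i) (h i) t ht y hy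
  simp only [e1, e2]

theorem hi_hDYu_add (hq : 1 < q) (hΓ : 0 ≤ Γ) (hs : SmTri s) (hs' : SmTri s') (ht : t < 0) :
    hDYu q Γ (fun i p => s i p + s' i p) t ≤ 2 * hDYu q Γ s t + 2 * hDYu q Γ s' t := by
  have hss : SmTri (fun i p => s i p + s' i p) := fun i => (hs i).add (hs' i)
  have c1 := hiEn3_ci_cmul 2 (hiEn3_hDYu_ci q Γ hs ht)
  have c2 := hiEn3_ci_cmul 2 (hiEn3_hDYu_ci q Γ hs' ht)
  unfold hDYu
  rw [← ii_const_mul, ← ii_const_mul, ← ii_add c1 c2]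
  refine ii_mono (hiEn3_hDYu_ci q Γ hss ht) (c1.add c2) (fun y hy => ?_)
  have hV : 0 < V1 q Γ t y := w0_wL_pos hq hΓ ht hy
  have key : ∑ i, kapJ q i * ((ttF (fun p => s i p + s' i p) (t, y)) ^ 2 + q * (s i (t, y) + s' i (t, y)) ^ 2)
      ≤ 2 * ∑ i, kapJ q i * ((ttF (s i) (t, y)) ^ 2 + q * (s i (t, y)) ^ 2)
        + 2 * ∑ i, kapJ q i * ((ttF (s' i) (t, y)) ^ 2 + q * (s' i (t, y)) ^ 2) := by
    rw [Finset.mul_sum, Finset.mul_sum, ← Finset.sum_add_distrib]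
    refine Finset.sum_le_sum (fun i _ => ?_)
    have hk : 0 ≤ kapJ q i := le_trans (by norm_num) (hi_kapJ_pos hq i)
    rw [hiEn3_ttF_add (hs i) (hs' i) ht y]
    have h1 : (ttF (s i) (t, y) + ttF (s' i) (t, y)) ^ 2 ≤ 2 * (ttF (s i) (t, y)) ^ 2 + 2 * (ttF (s' i) (t, y)) ^ 2 := by
      nlinarith [sq_nonneg (ttF (s i) (t, y) - ttF (s' i) (t, y))]
    have h2 : (s i (t, y) + s' i (t, y)) ^ 2 ≤ 2 * (s i (t, y)) ^ 2 + 2 * (s' i (t, y)) ^ 2 := by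
      nlinarith [sq_nonneg (s i (t, y) - s' i (t, y))]
    have h3 : q * (s i (t, y) + s' i (t, y)) ^ 2 ≤ q * (2 * (s i (t, y)) ^ 2 + 2 * (s' i (t, y)) ^ 2) :=
      mul_le_mul_of_nonneg_left h2 (by linarith)
    have h4 := mul_le_mul_of_nonneg_left (add_le_add h1 h3) hk
    calc _ ≤ _ := h4
      _ = _ := by ring
  calc _ ≤ V1 q Γ t y * _ := mul_le_mul_of_nonneg_left key hV.le
    _ = _ := by ring

/-- a factor which depends on `t` only. -/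
theorem hi_hDYu_th (q Γ : ℝ) (θ : ℝ → ℝ) (s : Tri) (t : ℝ) :
    hDYu q Γ (fun i p => θ p.1 * s i p) t = (θ t) ^ 2 * hDYu q Γ s t := by
  unfold hDYu
  rw [← ii_const_mul]
  refine ii_congr (fun y _ => ?_)
  have e : ∀ i, ttF (fun p => θ p.1 * s i p) (t, y) = θ t * ttF (s i) (t, y) := by
    intro i
    show -(Xf y) * deriv (fun z => θ t * s i (t, z)) y = θ t * (-(Xf y) * deriv (fun z => s i (t, z)) y)
    rw [deriv_const_mul_field]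
    ring
  have e2 : ∑ i, kapJ q i * ((ttF (fun p => θ p.1 * s i p) (t, y)) ^ 2 + q * (θ t * s i (t, y)) ^ 2)
      = (θ t) ^ 2 * ∑ i, kapJ q i * ((ttF (s i) (t, y)) ^ 2 + q * (s i (t, y)) ^ 2) := by
    rw [Finset.mul_sum]
    refine Finset.sum_congr rfl (fun i _ => ?_)
    rw [e i]
    ring
  calc _ = V1 q Γ t y * _ := congrArg (fun r => V1 q Γ t y * r) e2
    _ = _ := by ring

/-- `hDYu ≤ C Σ haDen` on `[s₁,s₂]`  (`hi_V1_upper`, `kapJ q i ≤ q + 1`). -/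
theorem hi_hDYu_le (hq : 1 < q) (hΓ : 0 ≤ Γ) (s₁ : ℝ) (h₂ : s₂ < 0) : ∃ C : ℝ, 0 ≤ C ∧
    ∀ s : Tri, SmTri s → ∀ t ∈ Icc s₁ s₂, hDYu q Γ s t ≤ C * ∑ i, haDen (s i) t := by
  obtain ⟨C, hC, hV⟩ := hi_V1_upper q Γ s₁ h₂
  refine ⟨C * ((q + 1) * q), by positivity, fun s hs t ht => ?_⟩
  have ht0 : t < 0 := lt_of_le_of_lt ht.2 h₂
  unfold haDen hDYu
  rw [← ii_sum Finset.univ (fun i _ => hiEn3_haDen_ci (hs i) ht0), ← ii_const_mul]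
  refine ii_mono (hiEn3_hDYu_ci q Γ hs ht0)
    (hiEn3_ci_cmul _ (continuousOn_finsetSum _ (fun i _ => hiEn3_haDen_ci (hs i) ht0))) (fun y hy => ?_)
  have key : ∑ i, kapJ q i * ((ttF (s i) (t, y)) ^ 2 + q * (s i (t, y)) ^ 2)
      ≤ ((q + 1) * q) * ∑ i, ((s i (t, y)) ^ 2 + (ttF (s i) (t, y)) ^ 2) := by
    rw [Finset.mul_sum]
    refine Finset.sum_le_sum (fun i _ => ?_)
    have hk := hiEn3_kapJ_le hq i
    have a1 : 0 ≤ (ttF (s i) (t, y)) ^ 2 := sq_nonneg _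
    have a2 : 0 ≤ (s i (t, y)) ^ 2 := sq_nonneg _
    have h1 : (ttF (s i) (t, y)) ^ 2 + q * (s i (t, y)) ^ 2 ≤ q * ((s i (t, y)) ^ 2 + (ttF (s i) (t, y)) ^ 2) := by
      nlinarith
    calc _ ≤ (q + 1) * ((ttF (s i) (t, y)) ^ 2 + q * (s i (t, y)) ^ 2) :=
          mul_le_mul_of_nonneg_right hk (by positivity)
      _ ≤ (q + 1) * (q * ((s i (t, y)) ^ 2 + (ttF (s i) (t, y)) ^ 2)) :=
          mul_le_mul_of_nonneg_left h1 (by linarith)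
      _ = _ := by ring
  have hpos : 0 ≤ ∑ i, kapJ q i * ((ttF (s i) (t, y)) ^ 2 + q * (s i (t, y)) ^ 2) :=
    Finset.sum_nonneg (fun i _ => mul_nonneg (le_trans (by norm_num) (hi_kapJ_pos hq i)) (by positivity))
  calc _ ≤ C * ∑ i, kapJ q i * ((ttF (s i) (t, y)) ^ 2 + q * (s i (t, y)) ^ 2) :=
        mul_le_mul_of_nonneg_right (hV t ht y hy) hpos
    _ ≤ C * (((q + 1) * q) * ∑ i, ((s i (t, y)) ^ 2 + (ttF (s i) (t, y)) ^ 2)) :=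
        mul_le_mul_of_nonneg_left key hC
    _ = _ := by ring

/-- `haDen ≤ C hDYu` on `[s₁,s₂]`  (`hi_V1_lower`, `kapJ q i ≥ 1/2`, `q ≥ 1`). -/
theorem hi_haDen_le (hq : 1 < q) (hΓ : 0 ≤ Γ) (s₁ : ℝ) (h₂ : s₂ < 0) : ∃ C : ℝ, 0 ≤ C ∧
    ∀ s : Tri, SmTri s → ∀ t ∈ Icc s₁ s₂, ∀ i, haDen (s i) t ≤ C * hDYu q Γ s t := by
  obtain ⟨c, hc, hV⟩ := hi_V1_lower hq hΓ s₁ h₂
  refine ⟨2 / c, by positivity, fun s hs t ht i => ?_⟩
  have ht0 : t < 0 := lt_of_le_of_lt ht.2 h₂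
  unfold haDen hDYu
  rw [← ii_const_mul]
  refine ii_mono (hiEn3_haDen_ci (hs i) ht0) (hiEn3_ci_cmul _ (hiEn3_hDYu_ci q Γ hs ht0)) (fun y hy => ?_)
  have hterm : ∀ j, 0 ≤ kapJ q j * ((ttF (s j) (t, y)) ^ 2 + q * (s j (t, y)) ^ 2) :=
    fun j => mul_nonneg (le_trans (by norm_num) (hi_kapJ_pos hq j)) (by positivity)
  have h1 : kapJ q i * ((ttF (s i) (t, y)) ^ 2 + q * (s i (t, y)) ^ 2)
      ≤ ∑ j, kapJ q j * ((ttF (s j) (t, y)) ^ 2 + q * (s j (t, y)) ^ 2) :=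
    Finset.single_le_sum (f := fun j => kapJ q j * ((ttF (s j) (t, y)) ^ 2 + q * (s j (t, y)) ^ 2))
      (fun j _ => hterm j) (Finset.mem_univ i)
  have a1 : 0 ≤ (ttF (s i) (t, y)) ^ 2 := sq_nonneg _
  have a2 : 0 ≤ (s i (t, y)) ^ 2 := sq_nonneg _
  have h2 : (s i (t, y)) ^ 2 + (ttF (s i) (t, y)) ^ 2
      ≤ 2 * (kapJ q i * ((ttF (s i) (t, y)) ^ 2 + q * (s i (t, y)) ^ 2)) := by
    have hk := hi_kapJ_pos hq i
    have h3 : (s i (t, y)) ^ 2 + (ttF (s i) (t, y)) ^ 2 ≤ (ttF (s i) (t, y)) ^ 2 + q * (s i (t, y)) ^ 2 := by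
      nlinarith
    have h4 : 1 / 2 * ((ttF (s i) (t, y)) ^ 2 + q * (s i (t, y)) ^ 2)
        ≤ kapJ q i * ((ttF (s i) (t, y)) ^ 2 + q * (s i (t, y)) ^ 2) :=
      mul_le_mul_of_nonneg_right hk (by positivity)
    linarith
  have hS : 0 ≤ ∑ j, kapJ q j * ((ttF (s j) (t, y)) ^ 2 + q * (s j (t, y)) ^ 2) :=
    Finset.sum_nonneg (fun j _ => hterm j)
  have h5 : c * ∑ j, kapJ q j * ((ttF (s j) (t, y)) ^ 2 + q * (s j (t, y)) ^ 2)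
      ≤ V1 q Γ t y * ∑ j, kapJ q j * ((ttF (s j) (t, y)) ^ 2 + q * (s j (t, y)) ^ 2) :=
    mul_le_mul_of_nonneg_right (hV t ht y hy) hS
  calc _ ≤ 2 * ∑ j, kapJ q j * ((ttF (s j) (t, y)) ^ 2 + q * (s j (t, y)) ^ 2) := by linarith
    _ = 2 / c * (c * ∑ j, kapJ q j * ((ttF (s j) (t, y)) ^ 2 + q * (s j (t, y)) ^ 2)) := by
        field_simp
    _ ≤ _ := mul_le_mul_of_nonneg_left h5 (by positivity)

/-! ### vanishing -/

/-- the energies of a triple which vanishes on `[-1,1]` at the time `t`  (for `E1`: `hi_Lt_van`). -/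
theorem hi_E_van (hW : SmTri W) (hts : ts < 0) (h : ∀ j, HiVan ts (W j)) (A : ℝ) :
    A * E0 q Γ W ts + E1 q g Γ W ts = 0 := by
  have e0 : E0 q Γ W ts = 0 := by
    unfold E0 En
    rw [ii_congr (g := fun _ => (0 : ℝ)) (fun y hy => ?_), ii_const, mul_zero]
    have e3 : ∀ k, W k (ts, y) = 0 := fun k => h k ts le_rfl y hy
    simp [n2, slT, e3]
  have e1 : E1 q g Γ W ts = 0 := by
    unfold E1 En
    rw [ii_congr (g := fun _ => (0 : ℝ)) (fun y hy => ?_), ii_const, mul_zero]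
    have e3 : ∀ k, Lt q g W k (ts, y) = 0 := fun k => hi_Lt_van hW hts h k ts le_rfl y hy
    simp [n2, slT, e3]
  rw [e0, e1]
  ring

end Claimed.Agent.R324.Core
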