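/-
Row 324, module HI, part E, file ClsX: from the energy class `HiX n` of a family of smooth triples `U_k` to the classes of its constituents:
   `u = uT U ∈ HiB n` (SUP),   jets `π = hpp e U ∈ HiP n` (JETS),   `v = hvT U ∈ HiA n`,   `uT (L̃_T U) ∈ HiA n`,   `G(p;u) ∈ HiB n`.
`K : HiK q g Γ κ s₁ s₂` = the standing assumptions (`[s₁,s₂] ⊆ [-Λ₀,0)`, `HiU`).     Model: R325/Core/HI/ClsX.lean.
-/
import Claimed.Agent.R324.Core.HI.En

set_option autoImplicit false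

namespace Claimed.Agent.R324.Core

open Set Filter Topology MeasureTheory
open scoped ContDiff

variable {q Γ : ℝ} {g : Bg} {κ : HiC} {s₁ s₂ t : ℝ} {n n' : ℕ} {U : ℕ → Tri} {W : Tri}

theorem HiK.mem (K : HiK q g Γ κ s₁ s₂) (ht : t ∈ Icc s₁ s₂) : t ∈ Ico (-κ.Λ₀) 0 :=
  ⟨K.h₁.trans ht.1, lt_of_le_of_lt ht.2 K.h₂⟩

theorem HiX.mono (h : HiX q g Γ s₁ s₂ n U) (hn : n' ≤ n) : HiX q g Γ s₁ s₂ n' U := fun j hj => h j (hj.trans hn)

theorem HiX.shift (h : HiX q g Γ s₁ s₂ n U) : HiX q g Γ s₁ s₂ n (fun k => U (k + 1)) :=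
  fun j hj => (h j hj).imp fun _ hC k => hC (k + 1)

theorem HiX.dT3 (h : HiX q g Γ s₁ s₂ (n + 1) U) : HiX q g Γ s₁ s₂ n (fun k => dT3 (U k)) :=
  fun j hj => h (j + 1) (Nat.succ_le_succ hj)

theorem HiX.dT3_iter (J : ℕ) (h : HiX q g Γ s₁ s₂ (n + J) U) : HiX q g Γ s₁ s₂ n (fun k => Core.dT3^[J] (U k)) := by
  induction J generalizing U with
  | zero => exact h
  | succ J ih => exact ih (U := fun k => Core.dT3 (U k)) (HiX.dT3 h)

theorem hiX_succ (h : HiX q g Γ s₁ s₂ n U) (h' : HiX q g Γ s₁ s₂ 0 (fun k => dT3^[n + 1] (U k))) :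
    HiX q g Γ s₁ s₂ (n + 1) U := by
  intro j hj
  rcases Nat.lt_or_ge j (n + 1) with hlt | hge
  · exact h j (Nat.lt_succ_iff.mp hlt)
  · have hj' : j = n + 1 := le_antisymm hj hge
    subst hj'
    exact h' 0 le_rfl

/-- SUP, componentwise  (`HiU.sup`, `hi_n2_eq`, `hi_n2t_eq`, `kapJ ≥ 1/2`). -/
theorem hi_u_le (K : HiK q g Γ κ s₁ s₂) (hW : SmTri W) (ht : t ∈ Icc s₁ s₂) {y : ℝ} (hy : y ∈ Icc (-1 : ℝ) 1)
    (b : Fin 3) : (uT W b (t, y)) ^ 2 + (ttF (uT W b) (t, y)) ^ 2 ≤ 2 * κ.Cs * hiE q g Γ W t := by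
  have hsup := K.hU.sup t (K.mem ht) W hW y hy
  rw [hi_n2_eq, hi_n2t_eq] at hsup
  have hk : ∀ i, 0 ≤ kapJ q i := fun i => le_trans (by norm_num) (hi_kapJ_pos K.hq i)
  have h1 : kapJ q b * (uT W b (t, y)) ^ 2 ≤ ∑ i, kapJ q i * (uT W i (t, y)) ^ 2 :=
    Finset.single_le_sum (f := fun i => kapJ q i * (uT W i (t, y)) ^ 2)
      (fun i _ => mul_nonneg (hk i) (sq_nonneg _)) (Finset.mem_univ b)
  have h2 : kapJ q b * (ttF (uT W b) (t, y)) ^ 2 ≤ ∑ i, kapJ q i * (ttF (uT W i) (t, y)) ^ 2 :=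
    Finset.single_le_sum (f := fun i => kapJ q i * (ttF (uT W i) (t, y)) ^ 2)
      (fun i _ => mul_nonneg (hk i) (sq_nonneg _)) (Finset.mem_univ b)
  have hb := hi_kapJ_pos K.hq b
  have h3 : 1 / 2 * (uT W b (t, y)) ^ 2 ≤ kapJ q b * (uT W b (t, y)) ^ 2 :=
    mul_le_mul_of_nonneg_right hb (sq_nonneg _)
  have h4 : 1 / 2 * (ttF (uT W b) (t, y)) ^ 2 ≤ kapJ q b * (ttF (uT W b) (t, y)) ^ 2 :=
    mul_le_mul_of_nonneg_right hb (sq_nonneg _)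
  linarith

/-- `dT^[j] (uT U b) = uT (dT3^[j] U) b` (`hi_dT_iter_uT`), `dT^[j] (ttF f) = ttF (dT^[j] f)`, `hi_u_le`. -/
theorem HiX.u_B (K : HiK q g Γ κ s₁ s₂) (hU : ∀ k, SmTri (U k)) (h : HiX q g Γ s₁ s₂ n U) (b : Fin 3) :
    HiB s₁ s₂ n (fun k => uT (U k) b) := by
  have hCs := K.hU.hCs
  have key : ∀ i ≤ n, ∃ C : ℝ, ∀ k : ℕ, ∀ t ∈ Icc s₁ s₂, ∀ y ∈ Icc (-1 : ℝ) 1,
      |uT (Core.dT3^[i] (U k)) b (t, y)| ≤ C ∧ |ttF (uT (Core.dT3^[i] (U k)) b) (t, y)| ≤ C := by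
    intro i hi
    obtain ⟨C, hC⟩ := h i hi
    refine ⟨Real.sqrt (2 * κ.Cs * C), fun k t ht y hy => ?_⟩
    have h1 := hi_u_le K ((hU k).dT3_iter i) ht hy b
    have h2 : 2 * κ.Cs * hiE q g Γ (Core.dT3^[i] (U k)) t ≤ 2 * κ.Cs * C :=
      mul_le_mul_of_nonneg_left ((hC k).1 t ht) (by positivity)
    constructor
    · exact Real.abs_le_sqrt (by nlinarith [sq_nonneg (ttF (uT (Core.dT3^[i] (U k)) b) (t, y))])
    · exact Real.abs_le_sqrt (by nlinarith [sq_nonneg (uT (Core.dT3^[i] (U k)) b (t, y))])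
  constructor
  · intro i hi j hj
    obtain ⟨C, hC⟩ := key i hi
    have hj0 : j = 0 := Nat.le_zero.mp hj
    subst hj0
    refine ⟨C, fun k t ht y hy => ?_⟩
    have ht0 : t < 0 := lt_of_le_of_lt ht.2 K.h₂
    show hw0 y * |dT^[i] (uT (U k) b) (t, y)| ≤ C
    rw [hi_dT_iter_uT (hU k) b i ht0 y]
    simpa [hw0] using (hC k t ht y hy).1
  · intro i hi j hj
    obtain ⟨C, hC⟩ := key i hi
    have hj0 : j = 0 := Nat.le_zero.mp hj
    subst hj0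
    refine ⟨C, fun k t ht y hy => ?_⟩
    have ht0 : t < 0 := lt_of_le_of_lt ht.2 K.h₂
    show hw0 y * |dT^[i] (ttF (uT (U k) b)) (t, y)| ≤ C
    rw [hi_dT_iter_ttF ((hU k).uT b) i ht0 y]
    have e : ttF (dT^[i] (uT (U k) b)) (t, y) = ttF (uT (Core.dT3^[i] (U k)) b) (t, y) := by
      rw [ttF_apply, ttF_apply]
      congr 1
      exact dY_congr (fun z => hi_dT_iter_uT (hU k) b i ht0 z) y
    rw [e]
    simpa [hw0] using (hC k t ht y hy).2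

theorem HiX.cmp_B (K : HiK q g Γ κ s₁ s₂) (hU : ∀ k, SmTri (U k)) (h : HiX q g Γ s₁ s₂ n U) {G : HGf}
    (hG : HGSm G) : HiB s₁ s₂ n (fun k => hcmp G (uT (U k))) :=
  hiB_cmp K.h₂ (fun k => (hU k).uT) (fun b => h.u_B K hU b) hG

/-- JETS without weight  (`HiU.jets`, `hi_V1_lower`). -/
theorem hi_pp_den (K : HiK q g Γ κ s₁ s₂) : ∃ C : ℝ, 0 ≤ C ∧ ∀ W : Tri, SmTri W → ∀ t ∈ Icc s₁ s₂, ∀ c : Fin 5,
    haDen (hpp 0 W c) t ≤ C * hiD q g Γ W t := by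
  obtain ⟨c₀, hc₀, hV⟩ := hi_V1_lower (q := q) (Γ := Γ) K.hq K.hΓ s₁ K.h₂
  refine ⟨κ.Cj / c₀, div_nonneg K.hU.hCj hc₀.le, fun W hW t ht c => ?_⟩
  have ht0 : t < 0 := lt_of_le_of_lt ht.2 K.h₂
  have hj := K.hU.jets t (K.mem ht) W hW
  have hcont : ∀ c : Fin 5,
      Continuous (fun y => (hpp 0 W c (t, y)) ^ 2 + (ttF (hpp 0 W c) (t, y)) ^ 2) := by
    intro c
    have a1 : Continuous (fun y => hpp 0 W c (t, y)) := ((sm_hpp 0 hW c).sl ht0).continuous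
    have a2 : Continuous (fun y => ttF (hpp 0 W c) (t, y)) := ((sm_hpp 0 hW c).ttF.sl ht0).continuous
    exact (a1.pow 2).add (a2.pow 2)
  have hVc : CI (fun y => V1 q Γ t y) := by
    have a1 : ContinuousOn (fun y : ℝ => ((t, y) : ℝ × ℝ)) (Icc (-1 : ℝ) 1) :=
      (Continuous.prodMk continuous_const continuous_id).continuousOn
    have a3 : MapsTo (fun y : ℝ => ((t, y) : ℝ × ℝ)) (Icc (-1 : ℝ) 1) (Iio (0 : ℝ) ×ˢ Icc (-1 : ℝ) 1) :=
      fun y hy => Set.mk_mem_prod ht0 hy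
    have a2 : ContinuousOn ((fun p : ℝ × ℝ => V1 q Γ p.1 p.2) ∘ (fun y : ℝ => ((t, y) : ℝ × ℝ)))
        (Icc (-1 : ℝ) 1) := (hi_V1_cont q Γ).comp a1 a3
    exact a2
  have h1 : c₀ * haDen (hpp 0 W c) t
      ≤ II (fun y => V1 q Γ t y * ∑ c, ((hpp 0 W c (t, y)) ^ 2 + (ttF (hpp 0 W c) (t, y)) ^ 2)) := by
    unfold haDen
    rw [← ii_const_mul]
    refine ii_mono (continuous_const.mul (hcont c)).continuousOn
      (hVc.mul (continuous_finsetSum _ fun c _ => hcont c).continuousOn) fun y hy => ?_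
    have h2 : (hpp 0 W c (t, y)) ^ 2 + (ttF (hpp 0 W c) (t, y)) ^ 2
        ≤ ∑ c, ((hpp 0 W c (t, y)) ^ 2 + (ttF (hpp 0 W c) (t, y)) ^ 2) :=
      Finset.single_le_sum (f := fun c => (hpp 0 W c (t, y)) ^ 2 + (ttF (hpp 0 W c) (t, y)) ^ 2)
        (fun i _ => by positivity) (Finset.mem_univ c)
    exact mul_le_mul (hV t ht y hy) h2 (by positivity) (hc₀.le.trans (hV t ht y hy))
  rw [div_mul_eq_mul_div, le_div_iff₀ hc₀]
  linarith [h1.trans hj]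

/-- (aux) iterate `hi_dT_pp`. -/
theorem hi_dT_iter_pp {V : Tri} (hV : SmTri V) (c : Fin 5) (j : ℕ) :
    HiEq (dT^[j] (hpp 0 V c)) (hpp 0 (dT3^[j] V) c) := by
  induction j generalizing V with
  | zero => exact HiEq.refl _
  | succ j ih =>
    rw [Function.iterate_succ_apply, Function.iterate_succ_apply]
    exact (hi_dT_iter_congr (hi_eq_of_all fun t ht y => hi_dT_pp 0 hV c ht y) j).trans (ih hV.dT3)

/-- `dT^[j] (hpp 0 U c) = hpp 0 (dT3^[j] U) c` (iterate `hi_dT_pp`), `hi_pp_den`, `hi_int_mono`, `hi_hiD_cont`. -/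
theorem HiX.pp_A (K : HiK q g Γ κ s₁ s₂) (hU : ∀ k, SmTri (U k)) (h : HiX q g Γ s₁ s₂ n U) (c : Fin 5) :
    HiA s₁ s₂ n (fun k => hpp 0 (U k) c) := by
  obtain ⟨C₀, hC₀, hden⟩ := hi_pp_den K
  intro j hj
  obtain ⟨C, hC⟩ := h j hj
  refine ⟨C₀ * C, fun k => ?_⟩
  have hW : SmTri (Core.dT3^[j] (U k)) := (hU k).dT3_iter j
  have h1 : ∫ s in s₁..s₂, haDen (Core.dT^[j] (hpp 0 (U k) c)) s
      ≤ ∫ s in s₁..s₂, C₀ * hiD q g Γ (Core.dT3^[j] (U k)) s := by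
    refine hi_int_mono (hi_haDen_cont ((sm_hpp 0 (hU k) c).dT_iter j))
      (continuousOn_const.mul (hi_hiD_cont K.hq K.hg Γ hW)) K.h₁₂ K.h₂ fun s hs => ?_
    rw [hi_haDen_congr ((sm_hpp 0 (hU k) c).dT_iter j) (sm_hpp 0 hW c) (hi_dT_iter_pp (hU k) c j)
      (lt_of_le_of_lt hs.2 K.h₂)]
    exact hden _ hW s hs c
  refine h1.trans ?_
  rw [intervalIntegral.integral_const_mul]
  exact mul_le_mul_of_nonneg_left (hC k).2 hC₀

/-- the jets are in `HiP`:   `hpp e U c = hpp 0 U c` for `c < 4`, the fifth jet is the constant `e`;   `X π` by `hi_X_pp` and `HiX.u_B`. -/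
theorem HiX.pp_P (K : HiK q g Γ κ s₁ s₂) (hU : ∀ k, SmTri (U k)) (h : HiX q g Γ s₁ s₂ n U) (e : ℝ) (c : Fin 5) :
    HiP s₁ s₂ n (fun k => hpp e (U k) c) := by
  have hu : ∀ b : Fin 3, ∀ k, Sm (uT (U k) b) := fun b k => (hU k).uT b
  have hX : ∀ k, Sm (fun p : ℝ × ℝ => Xf p.2 * hpp e (U k) c p) := fun k => sm_Xf.mul (sm_hpp e (hU k) c)
  refine ⟨?_, ?_⟩
  · by_cases hc : c = 4
    · subst hc
      exact hiA_const K.h₁₂ K.h₂ (sm_const e) n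
    · have he : (fun k => hpp e (U k) c) = fun k => hpp 0 (U k) c := by
        funext k
        fin_cases c
        · rfl
        · rfl
        · rfl
        · rfl
        · exact absurd rfl hc
      rw [he]
      exact h.pp_A K hU c
  · show HiW hw0 s₁ s₂ n 0 (fun k p => Xf p.2 * hpp e (U k) c p)
    have key : ∀ k, ∀ t < 0, ∀ y : ℝ, Xf y * hpp e (U k) c (t, y) =
      (![-ttF (uT (U k) 0) (t, y), -ttF (uT (U k) 1) (t, y), uT (U k) 2 (t, y),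
        2 * y * uT (U k) 2 (t, y) - ttF (uT (U k) 2) (t, y), Xf y * e] : Fin 5 → ℝ) c :=
      fun k t ht y => hi_X_pp e (hU k) ht y c
    fin_cases c
    · exact HiW.congr K.h₂ (fun k => (hu 0 k).ttF.neg) hX (HiW.neg K.h₂ (fun k => (hu 0 k).ttF) (h.u_B K hU 0).2)
        (fun k => hi_eq_of_all (key k))
    · exact HiW.congr K.h₂ (fun k => (hu 1 k).ttF.neg) hX (HiW.neg K.h₂ (fun k => (hu 1 k).ttF) (h.u_B K hU 1).2)
        (fun k => hi_eq_of_all (key k))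
    · exact HiW.congr K.h₂ (hu 2) hX (h.u_B K hU 2).1 (fun k => hi_eq_of_all (key k))
    · have hy : Sm (fun p : ℝ × ℝ => 2 * p.2) := sm_snd.const_mul 2
      exact HiW.congr K.h₂ (fun k => (hy.mul (hu 2 k)).sub (hu 2 k).ttF) hX
        (HiW.sub hwOK_0 K.h₂ (fun k => hy.mul (hu 2 k)) (fun k => (hu 2 k).ttF)
          (HiW.mul0 hwOK_0 K.h₂ (fun _ => hy) (hu 2) (hiW_const hwOK_0 K.h₂ hy s₁ n 0) (h.u_B K hU 2).1)
          (h.u_B K hU 2).2)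
        (fun k => hi_eq_of_all (key k))
    · exact hiW_const hwOK_0 K.h₂ (sm_Xf.mul (sm_const e)) s₁ n 0

/-- `haDen (v_i) ≤ C D1 ≤ C hiD`   (`hi_D1_eq`, `hi_haDen_le`). -/
theorem hi_v_den (K : HiK q g Γ κ s₁ s₂) : ∃ C : ℝ, 0 ≤ C ∧ ∀ W : Tri, SmTri W → ∀ t ∈ Icc s₁ s₂, ∀ i : Fin 3,
    haDen (hvT q g W i) t ≤ C * hiD q g Γ W t := by
  obtain ⟨C, hC, h⟩ := hi_haDen_le K.hq K.hΓ s₁ K.h₂
  refine ⟨C, hC, fun W hW t ht i => ?_⟩
  have ht0 : t < 0 := (K.mem ht).2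
  have hq0 : 0 < q := by linarith [K.hq]
  have hD0 : 0 ≤ D0 q Γ W t := by
    unfold D0 Di
    refine ii_nonneg (fun y hy => mul_nonneg (w0_wL_pos K.hq K.hΓ ht0 hy).le ?_)
    have h1 : 0 ≤ n2 q (slT W t) y := by unfold n2; positivity
    have h2 : 0 ≤ n2t q (slT W t) y := by unfold n2t; positivity
    positivity
  refine (h _ (hW.hvT K.hq K.hg) t ht i).trans (mul_le_mul_of_nonneg_left ?_ hC)
  rw [← hi_D1_eq]
  unfold hiD
  linarith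

/-- level `0` of `v ∈ HiA`. -/
theorem hi375_v_A0 (K : HiK q g Γ κ s₁ s₂) (hU : ∀ k, SmTri (U k)) (h : HiX q g Γ s₁ s₂ 0 U) (i : Fin 3) :
    HiA s₁ s₂ 0 (fun k => hvT q g (U k) i) := by
  obtain ⟨C, hC, hden⟩ := hi_v_den K
  obtain ⟨C', hC'⟩ := h 0 le_rfl
  intro j hj
  obtain rfl : j = 0 := by omega
  refine ⟨C * C', fun k => ?_⟩
  have hk : ∫ s in s₁..s₂, hiD q g Γ (U k) s ≤ C' := (hC' k).2
  calc ∫ s in s₁..s₂, haDen (hvT q g (U k) i) s ≤ ∫ s in s₁..s₂, C * hiD q g Γ (U k) s :=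
        hi_int_mono (hi_haDen_cont ((hU k).hvT K.hq K.hg i))
          (continuousOn_const.mul (hi_hiD_cont K.hq K.hg Γ (hU k))) K.h₁₂ K.h₂
          (fun s hs => hden (U k) (hU k) s hs i)
    _ = C * ∫ s in s₁..s₂, hiD q g Γ (U k) s := intervalIntegral.integral_const_mul _ _
    _ ≤ C * C' := mul_le_mul_of_nonneg_left hk hC

/-- `uT (L̃_T U) ∈ HiA n` once `v ∈ HiA n`. -/
theorem hi375_LtT_of_v (K : HiK q g Γ κ s₁ s₂) (hU : ∀ k, SmTri (U k)) (h : HiX q g Γ s₁ s₂ n U)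
    (hv : ∀ i, HiA s₁ s₂ n (fun k => hvT q g (U k) i)) (i : Fin 3) :
    HiA s₁ s₂ n (fun k => uT (hLtT q g (U k)) i) := by
  obtain ⟨μ, a, b, hμ, ha, hb, hform⟩ := hi_LtT_form K.hq K.hg
  have h12 := K.h₁₂
  have h2 := K.h₂
  have hvS : ∀ k, Sm (hvT q g (U k) i) := fun k => (hU k).hvT K.hq K.hg i
  have t1 : HiA s₁ s₂ n (fun k p => μ p * hvT q g (U k) i p) :=
    HiA.mulB (μ := fun _ => μ) h12 h2 (fun _ => hμ) hvS (hiB_const h2 hμ s₁ n) (hv i)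
  have t1S : ∀ k, Sm (fun p => μ p * hvT q g (U k) i p) := fun k => hμ.mul (hvS k)
  have xS : ∀ (c : Fin 5) (k : ℕ), Sm (fun p => Xf p.2 * hpp 0 (U k) c p) :=
    fun c k => sm_Xf.mul (sm_hpp 0 (hU k) c)
  have x2 : ∀ c : Fin 5, HiA s₁ s₂ n (fun k p => Xf p.2 * hpp 0 (U k) c p) := fun c =>
    HiA.mulB (μ := fun _ p => Xf p.2) h12 h2 (fun _ => sm_Xf) (fun k => sm_hpp 0 (hU k) c)
      (hiB_const h2 sm_Xf s₁ n) (h.pp_A K hU c)
  have t2c : ∀ c : Fin 5, HiA s₁ s₂ n (fun k p => a i c p * (Xf p.2 * hpp 0 (U k) c p)) := fun c =>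
    HiA.mulB (μ := fun _ => a i c) (F := fun k p => Xf p.2 * hpp 0 (U k) c p) h12 h2 (fun _ => ha i c) (xS c)
      (hiB_const h2 (ha i c) s₁ n) (x2 c)
  have t2cS : ∀ (c : Fin 5) (k : ℕ), Sm (fun p => a i c p * (Xf p.2 * hpp 0 (U k) c p)) :=
    fun c k => (ha i c).mul (xS c k)
  have t2 : HiA s₁ s₂ n (fun k p => ∑ c, a i c p * (Xf p.2 * hpp 0 (U k) c p)) :=
    hiA_sum h12 h2 Finset.univ (𝓗 := fun c k p => a i c p * (Xf p.2 * hpp 0 (U k) c p))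
      (fun c _ k => t2cS c k) (fun c _ => t2c c)
  have t2S : ∀ k, Sm (fun p => ∑ c, a i c p * (Xf p.2 * hpp 0 (U k) c p)) := fun k =>
    sm_sum Finset.univ (F := fun c p => a i c p * (Xf p.2 * hpp 0 (U k) c p)) (fun c _ => t2cS c k)
  have t3c : ∀ m : Fin 3, HiA s₁ s₂ n (fun k p => b i m p * uT (U k) m p) := fun m =>
    HiA.mulB (μ := fun _ => b i m) (F := fun k => uT (U k) m) h12 h2 (fun _ => hb i m) (fun k => (hU k).uT m)
      (hiB_const h2 (hb i m) s₁ n) (hiA_of_B h12 h2 (fun k => (hU k).uT m) (h.u_B K hU m))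
  have t3cS : ∀ (m : Fin 3) (k : ℕ), Sm (fun p => b i m p * uT (U k) m p) :=
    fun m k => (hb i m).mul ((hU k).uT m)
  have t3 : HiA s₁ s₂ n (fun k p => ∑ m, b i m p * uT (U k) m p) :=
    hiA_sum h12 h2 Finset.univ (𝓗 := fun m k p => b i m p * uT (U k) m p)
      (fun m _ k => t3cS m k) (fun m _ => t3c m)
  have t3S : ∀ k, Sm (fun p => ∑ m, b i m p * uT (U k) m p) := fun k =>
    sm_sum Finset.univ (F := fun m p => b i m p * uT (U k) m p) (fun m _ => t3cS m k)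
  have t12 := HiA.add h12 h2 t1S t2S t1 t2
  have t12S : ∀ k, Sm (fun p => μ p * hvT q g (U k) i p + ∑ c, a i c p * (Xf p.2 * hpp 0 (U k) c p)) :=
    fun k => (t1S k).add (t2S k)
  have t123 := HiA.add h12 h2 t12S t3S t12 t3
  refine HiA.congr h12 h2 (fun k => (t12S k).add (t3S k)) (fun k => ((hU k).hLtT K.hq K.hg).uT i) t123 ?_
  intro k t ht y _
  exact hform (U k) (hU k) i t ht y

/-- `v ∈ HiA n`, induction on `n` for all families. -/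
theorem hi375_v_A (K : HiK q g Γ κ s₁ s₂) : ∀ (n : ℕ) (U : ℕ → Tri), (∀ k, SmTri (U k)) → HiX q g Γ s₁ s₂ n U →
    ∀ i : Fin 3, HiA s₁ s₂ n (fun k => hvT q g (U k) i) := by
  intro n
  induction n with
  | zero => intro U hU h i; exact hi375_v_A0 K hU h i
  | succ n ih =>
    intro U hU h i
    have h0 := hi375_v_A0 K hU (h.mono (Nat.zero_le _)) i
    refine hiA_of_dT h0 ?_
    have hn : HiX q g Γ s₁ s₂ n U := h.mono (Nat.le_succ n)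
    have hL := hi375_LtT_of_v K hU hn (ih U hU hn) i
    have hd := ih (fun k => dT3 (U k)) (fun k => (hU k).dT3) h.dT3 i
    have s1 : ∀ k, Sm (hvT q g (dT3 (U k)) i) := fun k => (hU k).dT3.hvT K.hq K.hg i
    have s2 : ∀ k, Sm (uT (hLtT q g (U k)) i) := fun k => ((hU k).hLtT K.hq K.hg).uT i
    refine HiA.congr K.h₁₂ K.h₂ (fun k => (s1 k).add (s2 k)) (fun k => ((hU k).hvT K.hq K.hg i).dT)
      (HiA.add K.h₁₂ K.h₂ s1 s2 hd hL) ?_
    intro k t ht y _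
    exact hi_dT_hvT K.hq K.hg (hU k) i ht y

/-- **`v` and `uT (L̃_T U)` are atoms.**   Induction on `n` for ALL families `U`, both statements together.
`n = 0`: `hi_v_den`;   `uT (L̃_T U) = μ v + Σ a (X π) + Σ b u` (`hi_LtT_form`): `HiA.mulB` with `hiB_const`, `X π_c = hXF · π_c`, `u ∈ HiB ⊆ HiA`.
`n + 1`: `hiA_of_dT`, `dT (v(U)) = v(dT3 U) + uT (L̃_T U)` (`hi_dT_hvT`), induction hypothesis for `dT3 U` (`HiX.dT3`) and for `U` (`HiX.mono`); then `L̃_T` as before at the level `n + 1`. -/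
theorem HiX.v_LtT_A (K : HiK q g Γ κ s₁ s₂) (hU : ∀ k, SmTri (U k)) (h : HiX q g Γ s₁ s₂ n U) (i : Fin 3) :
    HiA s₁ s₂ n (fun k => hvT q g (U k) i) ∧ HiA s₁ s₂ n (fun k => uT (hLtT q g (U k)) i) :=
  ⟨hi375_v_A K n U hU h i, hi375_LtT_of_v K hU h (hi375_v_A K n U hU h) i⟩

theorem HiX.v_A (K : HiK q g Γ κ s₁ s₂) (hU : ∀ k, SmTri (U k)) (h : HiX q g Γ s₁ s₂ n U) (i : Fin 3) :
    HiA s₁ s₂ n (fun k => hvT q g (U k) i) := (h.v_LtT_A K hU i).1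

theorem HiX.LtT_A (K : HiK q g Γ κ s₁ s₂) (hU : ∀ k, SmTri (U k)) (h : HiX q g Γ s₁ s₂ n U) (i : Fin 3) :
    HiA s₁ s₂ n (fun k => uT (hLtT q g (U k)) i) := (h.v_LtT_A K hU i).2

end Claimed.Agent.R324.Core
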