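/-
Row 324, module HI, part E, file Met: the main energy theorem (H4, abstract form).     Model: R325/Core/HI/H2.lean (`hi_h2_int`), Met.lean (`hi_Met_step`, `hi_met`)  = Claimed/Agent/R325/Pk59.lean.
 `e = A E0 + E1`  (`hiE ≤ e` because `A ≥ 1`, `E0 ≥ 0`),  `d = hiD`,  `φ(t) = exp (-C' (t - s₁)) ∈ (0,1]`.
 HiU.h2:   `e' + c d ≤ C' e + Cu DY(hdef W)`   ⇒ (`hi_h2_int`)   `φ e (t) + c ∫_{s₁}^t φ d ≤ Cu ∫_{s₁}^t φ DY(hdef W)`   for `W` vanishing for `t ≤ s₁`.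
 Absorption: if  `DY(hdef V_{k+1}) ≤ 2K(η² d_k + hiE(V_k) b_k) + 2 r_k`,  `∫ b_k ≤ η²`, `∫ r_k ≤ ρ`,  `4 Cu K (1/c + 1) η² ≤ 1`,  then with `A* = 4 Cu ρ`:
     (*)_k :  `φ e_k ≤ A*`  and  `c ∫_{s₁}^t φ d_k ≤ A*`  on `[s₁,s₂]`       implies (*)_{k+1}:    `Cu (2 K η² (1/c + 1) A* + 2 ρ) ≤ A*/2 + A*/2`.
 (*)_0: `V_0 = 0`.     Finally `φ ≥ exp (-C' (s₂ - s₁))`.
-/
import Claimed.Agent.R324.Core.HI.ClsX

set_option autoImplicit false

namespace Claimed.Agent.R324.Core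

open Set Filter Topology MeasureTheory
open scoped ContDiff

variable {q Γ : ℝ} {g : Bg} {κ : HiC} {s₁ s₂ : ℝ}

/-- H2, integrated with the weight `φ`.     `f = φ e`, `f' = φ (e' - C' e) ≤ φ (Cu DY - c d)`;  `intervalIntegral.sub_le_integral_of_hasDeriv_right_of_le`;  `f s₁ = 0` by `hi_E_van`;
continuity: `hi_hiD_cont`, `hi_hDYu_cont` with `hi_DY_eq`, `SmTri.hdef`. -/
theorem hi_h2_int (K : HiK q g Γ κ s₁ s₂) : ∃ C' : ℝ, 0 ≤ C' ∧ ∀ W : Tri, SmTri W → (∀ j, HiVan s₁ (W j)) →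
    ∀ t ∈ Icc s₁ s₂,
      Real.exp (-C' * (t - s₁)) * (κ.A * E0 q Γ W t + E1 q g Γ W t)
          + κ.c * ∫ s in s₁..t, Real.exp (-C' * (s - s₁)) * hiD q g Γ W s
        ≤ κ.Cu * ∫ s in s₁..t, Real.exp (-C' * (s - s₁)) * DY q Γ (hdef q g W) s := by
  have integ : ∀ {f g h : ℝ → ℝ} {a t : ℝ}, a ≤ t →
      (∀ s ∈ Icc a t, ∃ e, HasDerivAt f e s ∧ e + g s ≤ h s) →
      ContinuousOn g (Icc a t) → ContinuousOn h (Icc a t) →
      f t + ∫ s in a..t, g s ≤ f a + ∫ s in a..t, h s := by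
    intro f g h a t hat hf hg hh
    have hcont : ContinuousOn f (Icc a t) := fun s hs => by
      obtain ⟨e, he, _⟩ := hf s hs
      exact he.continuousAt.continuousWithinAt
    have hmain : f t - f a ≤ ∫ s in a..t, (h s - g s) := by
      refine intervalIntegral.sub_le_integral_of_hasDeriv_right_of_le hat hcont
        (g' := _root_.deriv f) (fun x hx => ?_) (hh.sub hg).integrableOn_Icc (fun x hx => ?_)
      · obtain ⟨e, he, _⟩ := hf x (Ioo_subset_Icc_self hx)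
        exact he.differentiableAt.hasDerivAt.hasDerivWithinAt
      · obtain ⟨e, he, hle⟩ := hf x (Ioo_subset_Icc_self hx)
        rw [he.deriv]
        linarith
    rw [intervalIntegral.integral_sub (hh.intervalIntegrable_of_Icc hat)
      (hg.intervalIntegrable_of_Icc hat)] at hmain
    linarith
  obtain ⟨C', hC', H⟩ := K.hU.h2 s₂ K.h₂
  refine ⟨C', hC', fun W hW hvan t ht => ?_⟩
  have hsub : Icc s₁ t ⊆ Iio (0 : ℝ) := fun s hs => lt_of_le_of_lt (le_trans hs.2 ht.2) K.h₂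
  have hφc : Continuous (fun s : ℝ => Real.exp (-C' * (s - s₁))) := by fun_prop
  have hφd : ∀ s : ℝ, HasDerivAt (fun s : ℝ => Real.exp (-C' * (s - s₁)))
      (Real.exp (-C' * (s - s₁)) * (-C')) s := by
    intro s
    have h1 : HasDerivAt (fun s : ℝ => -C' * (s - s₁)) (-C') s := by
      simpa using ((hasDerivAt_id s).sub_const s₁).const_mul (-C')
    exact h1.exp
  have cDY : ContinuousOn (DY q Γ (hdef q g W)) (Iio 0) := by
    have e : DY q Γ (hdef q g W) = hDYu q Γ (uT (hdef q g W)) := funext (hi_DY_eq q Γ _)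
    rw [e]
    exact hi_hDYu_cont q Γ (hW.hdef K.hq K.hg).uT
  have key := integ
    (f := fun s => Real.exp (-C' * (s - s₁)) * (κ.A * E0 q Γ W s + E1 q g Γ W s))
    (g := fun s => κ.c * (Real.exp (-C' * (s - s₁)) * hiD q g Γ W s))
    (h := fun s => κ.Cu * (Real.exp (-C' * (s - s₁)) * DY q Γ (hdef q g W) s))
    (a := s₁) (t := t) ht.1
    (fun s hs => by
      obtain ⟨e, he, hie⟩ := H W hW s ⟨le_trans K.h₁ hs.1, le_trans hs.2 ht.2⟩
      refine ⟨_, (hφd s).mul he, ?_⟩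
      have hpos : 0 < Real.exp (-C' * (s - s₁)) := Real.exp_pos _
      have := mul_le_mul_of_nonneg_left hie hpos.le
      nlinarith [this])
    (continuousOn_const.mul (hφc.continuousOn.mul ((hi_hiD_cont K.hq K.hg Γ hW).mono hsub)))
    (continuousOn_const.mul (hφc.continuousOn.mul (cDY.mono hsub)))
  have hts0 : s₁ < 0 := lt_of_le_of_lt K.h₁₂ K.h₂
  have hE : κ.A * E0 q Γ W s₁ + E1 q g Γ W s₁ = 0 := hi_E_van hW hts0 hvan κ.A
  simp only [hE, mul_zero, zero_add, intervalIntegral.integral_const_mul] at key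
  exact key

/-- the real-variable step of the absorption argument  (model: `hi_Met_step` of R325). -/
theorem hi_met_step {K η2 A ρ c : ℝ} (hK : 0 ≤ K) (hA : 0 ≤ A) (hc : 0 < c) (hη : 0 ≤ η2) {φ e d y b r : ℝ → ℝ}
    (cφ : ContinuousOn φ (Icc s₁ s₂)) (cd : ContinuousOn d (Icc s₁ s₂)) (cy : ContinuousOn y (Icc s₁ s₂))
    (cb : ContinuousOn b (Icc s₁ s₂)) (cr : ContinuousOn r (Icc s₁ s₂))
    (hφ0 : ∀ s ∈ Icc s₁ s₂, 0 ≤ φ s) (hφ1 : ∀ s ∈ Icc s₁ s₂, φ s ≤ 1)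
    (hb : ∀ s ∈ Icc s₁ s₂, 0 ≤ b s) (hr : ∀ s ∈ Icc s₁ s₂, 0 ≤ r s)
    (hy : ∀ s ∈ Icc s₁ s₂, y s ≤ 2 * K * (η2 * d s + e s * b s) + 2 * r s)
    (hE : ∀ s ∈ Icc s₁ s₂, φ s * e s ≤ A)
    (hD : ∀ t ∈ Icc s₁ s₂, c * ∫ s in s₁..t, φ s * d s ≤ A)
    (hbi : ∫ s in s₁..s₂, b s ≤ η2) (hri : ∫ s in s₁..s₂, r s ≤ ρ) :
    ∀ t ∈ Icc s₁ s₂, ∫ s in s₁..t, φ s * y s ≤ 2 * K * η2 * (1 / c + 1) * A + 2 * ρ := by
  intro t ht
  have cφd : ContinuousOn (fun s => φ s * d s) (Icc s₁ s₂) := cφ.mul cd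
  have cφy : ContinuousOn (fun s => φ s * y s) (Icc s₁ s₂) := cφ.mul cy
  have hsub : Icc s₁ t ⊆ Icc s₁ s₂ := Icc_subset_Icc le_rfl ht.2
  have hsub' : Icc t s₂ ⊆ Icc s₁ s₂ := Icc_subset_Icc ht.1 le_rfl
  have ii : ∀ {f : ℝ → ℝ}, ContinuousOn f (Icc s₁ s₂) → IntervalIntegrable f volume s₁ t := by
    intro f hf
    apply ContinuousOn.intervalIntegrable
    rw [uIcc_of_le ht.1]
    exact hf.mono hsub
  have ii' : ∀ {f : ℝ → ℝ}, ContinuousOn f (Icc s₁ s₂) → IntervalIntegrable f volume t s₂ := by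
    intro f hf
    apply ContinuousOn.intervalIntegrable
    rw [uIcc_of_le ht.2]
    exact hf.mono hsub'
  have mono : ∀ {f : ℝ → ℝ}, ContinuousOn f (Icc s₁ s₂) → (∀ s ∈ Icc s₁ s₂, 0 ≤ f s) →
      ∫ s in s₁..t, f s ≤ ∫ s in s₁..s₂, f s := by
    intro f hf hf0
    rw [← intervalIntegral.integral_add_adjacent_intervals (ii hf) (ii' hf)]
    have : 0 ≤ ∫ s in t..s₂, f s :=
      intervalIntegral.integral_nonneg ht.2 (fun s hs => hf0 s (hsub' hs))
    linarith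
  have h1 : ∫ s in s₁..t, φ s * y s
      ≤ ∫ s in s₁..t, (2 * K * η2 * (φ s * d s) + 2 * K * A * b s + 2 * r s) := by
    apply intervalIntegral.integral_mono_on ht.1 (ii cφy)
      (((ii cφd).const_mul _).add ((ii cb).const_mul _) |>.add ((ii cr).const_mul _))
    intro s hs
    have hs' := hsub hs
    have a1 : φ s * y s ≤ φ s * (2 * K * (η2 * d s + e s * b s) + 2 * r s) :=
      mul_le_mul_of_nonneg_left (hy s hs') (hφ0 s hs')
    have a2 : K * (φ s * e s) * b s ≤ K * A * b s :=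
      mul_le_mul_of_nonneg_right (mul_le_mul_of_nonneg_left (hE s hs') hK) (hb s hs')
    have a3 : φ s * r s ≤ r s := by
      have := mul_le_mul_of_nonneg_right (hφ1 s hs') (hr s hs')
      linarith
    nlinarith [a1, a2, a3]
  have h2 : ∫ s in s₁..t, (2 * K * η2 * (φ s * d s) + 2 * K * A * b s + 2 * r s)
      = 2 * K * η2 * (∫ s in s₁..t, φ s * d s) + 2 * K * A * (∫ s in s₁..t, b s)
        + 2 * ∫ s in s₁..t, r s := by
    rw [intervalIntegral.integral_add (((ii cφd).const_mul _).add ((ii cb).const_mul _))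
      ((ii cr).const_mul _), intervalIntegral.integral_add ((ii cφd).const_mul _)
      ((ii cb).const_mul _), intervalIntegral.integral_const_mul,
      intervalIntegral.integral_const_mul, intervalIntegral.integral_const_mul]
  have b1 : ∫ s in s₁..t, φ s * d s ≤ 1 / c * A := by
    have := hD t ht
    rw [one_div, inv_mul_eq_div, le_div_iff₀ hc]
    linarith
  have b2 : ∫ s in s₁..t, b s ≤ η2 := (mono cb hb).trans hbi
  have b3 : ∫ s in s₁..t, r s ≤ ρ := (mono cr hr).trans hri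
  have c1 : 2 * K * η2 * (∫ s in s₁..t, φ s * d s) ≤ 2 * K * η2 * (1 / c * A) :=
    mul_le_mul_of_nonneg_left b1 (by positivity)
  have c2 : 2 * K * A * (∫ s in s₁..t, b s) ≤ 2 * K * A * η2 :=
    mul_le_mul_of_nonneg_left b2 (by positivity)
  rw [h2] at h1
  nlinarith [h1, c1, c2, b3]

/-- **Main energy theorem.** -/
theorem hi_met (K : HiK q g Γ κ s₁ s₂) {η2 ρ : ℝ} (hη0 : 0 ≤ η2)
    (hη : 4 * κ.Cu * κ.K * (1 / κ.c + 1) * η2 ≤ 1) (hρ : 0 ≤ ρ) {V : ℕ → Tri} (hV : ∀ k, SmTri (V k))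
    (hvan : ∀ k j, HiVan s₁ (V k j)) (h0 : ∀ j p, V 0 j p = 0) {b r : ℕ → ℝ → ℝ}
    (cb : ∀ k, ContinuousOn (b k) (Iio 0)) (cr : ∀ k, ContinuousOn (r k) (Iio 0))
    (hb0 : ∀ k, ∀ s ∈ Icc s₁ s₂, 0 ≤ b k s) (hr0 : ∀ k, ∀ s ∈ Icc s₁ s₂, 0 ≤ r k s)
    (hb : ∀ k, ∫ s in s₁..s₂, b k s ≤ η2) (hr : ∀ k, ∫ s in s₁..s₂, r k s ≤ ρ)
    (hF : ∀ k, ∀ t ∈ Icc s₁ s₂, DY q Γ (hdef q g (V (k + 1))) t
        ≤ 2 * κ.K * (η2 * hiD q g Γ (V k) t + hiE q g Γ (V k) t * b k t) + 2 * r k t) :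
    HiX q g Γ s₁ s₂ 0 V := by
  obtain ⟨C', hC', h2⟩ := hi_h2_int K
  have hq := K.hq
  have hΓ := K.hΓ
  have hgs := K.hg
  have hAA := K.hU.hA
  have hc := K.hU.hc
  have hCu := K.hU.hCu
  have hKK := K.hU.hK
  have h₁₂ := K.h₁₂
  have hneg : ∀ s ∈ Icc s₁ s₂, s < 0 := fun s hs => lt_of_le_of_lt hs.2 K.h₂
  have hsub : Icc s₁ s₂ ⊆ Iio (0 : ℝ) := fun s hs => hneg s hs
  set φ : ℝ → ℝ := fun s => Real.exp (-C' * (s - s₁)) with hφ
  have cφ : ContinuousOn φ (Icc s₁ s₂) := by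
    rw [hφ]
    fun_prop
  have hφ0 : ∀ s, 0 < φ s := fun s => Real.exp_pos _
  have hφ1 : ∀ s ∈ Icc s₁ s₂, φ s ≤ 1 := by
    intro s hs
    rw [hφ]
    apply Real.exp_le_one_iff.2
    have : 0 ≤ s - s₁ := by linarith [hs.1]
    nlinarith
  have hφlow : ∀ s ∈ Icc s₁ s₂, Real.exp (-C' * (s₂ - s₁)) ≤ φ s := by
    intro s hs
    rw [hφ]
    apply Real.exp_le_exp.2
    have : s - s₁ ≤ s₂ - s₁ := by linarith [hs.2]
    nlinarith
  -- signs, continuity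
  have hE0nn : ∀ k, ∀ s ∈ Icc s₁ s₂, 0 ≤ E0 q Γ (V k) s := fun k s hs => hi_E0_nonneg hq hΓ (V k) (hneg s hs)
  have hE1nn : ∀ k, ∀ s ∈ Icc s₁ s₂, 0 ≤ E1 q g Γ (V k) s := fun k s hs => hi_E1_nonneg hq hΓ g (V k) (hneg s hs)
  have hDnn : ∀ k, ∀ s ∈ Icc s₁ s₂, 0 ≤ hiD q g Γ (V k) s := fun k s hs => hi_hiD_nonneg hq hΓ g (V k) (hneg s hs)
  have cD : ∀ k, ContinuousOn (hiD q g Γ (V k)) (Icc s₁ s₂) := fun k => (hi_hiD_cont hq hgs Γ (hV k)).mono hsub
  have cY : ∀ k, ContinuousOn (DY q Γ (hdef q g (V k))) (Icc s₁ s₂) := fun k =>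
    (hi_Di_contI q (hi_V1_cont q Γ) ((hV k).hdef hq hgs)).mono hsub
  have hEle : ∀ k, ∀ s ∈ Icc s₁ s₂, hiE q g Γ (V k) s ≤ κ.A * E0 q Γ (V k) s + E1 q g Γ (V k) s := by
    intro k s hs
    unfold hiE
    nlinarith [hE0nn k s hs]
  set A : ℝ := 4 * κ.Cu * ρ with hA
  have hA0 : 0 ≤ A := by positivity
  -- splitting
  have split : ∀ k, (∀ t ∈ Icc s₁ s₂, φ t * (κ.A * E0 q Γ (V k) t + E1 q g Γ (V k) t)
        + κ.c * ∫ s in s₁..t, φ s * hiD q g Γ (V k) s ≤ A) →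
      (∀ t ∈ Icc s₁ s₂, φ t * hiE q g Γ (V k) t ≤ A) ∧
      (∀ t ∈ Icc s₁ s₂, κ.c * ∫ s in s₁..t, φ s * hiD q g Γ (V k) s ≤ A) := by
    intro k hmain
    constructor
    · intro t ht
      have n : 0 ≤ κ.c * ∫ s in s₁..t, φ s * hiD q g Γ (V k) s := by
        apply mul_nonneg hc.le
        apply intervalIntegral.integral_nonneg ht.1
        intro s hs
        exact mul_nonneg (hφ0 s).le (hDnn k s ⟨hs.1, hs.2.trans ht.2⟩)
      have := mul_le_mul_of_nonneg_left (hEle k t ht) (hφ0 t).le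
      linarith [hmain t ht]
    · intro t ht
      have n : 0 ≤ φ t * (κ.A * E0 q Γ (V k) t + E1 q g Γ (V k) t) :=
        mul_nonneg (hφ0 t).le (add_nonneg (mul_nonneg (by linarith) (hE0nn k t ht)) (hE1nn k t ht))
      linarith [hmain t ht]
  have key : ∀ k, (∀ t ∈ Icc s₁ s₂, φ t * hiE q g Γ (V k) t ≤ A) ∧
      (∀ t ∈ Icc s₁ s₂, κ.c * ∫ s in s₁..t, φ s * hiD q g Γ (V k) s ≤ A) := by
    intro k
    induction k with
    | zero =>
      refine split 0 fun t ht => ?_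
      have h3 := h2 (V 0) (hV 0) (hvan 0) t ht
      have hz : ∫ s in s₁..t, Real.exp (-C' * (s - s₁)) * DY q Γ (hdef q g (V 0)) s = ∫ _s in s₁..t, (0 : ℝ) := by
        refine intervalIntegral.integral_congr fun s hs => ?_
        rw [uIcc_of_le ht.1] at hs
        have hs0 : s < 0 := lt_of_le_of_lt (hs.2.trans ht.2) K.h₂
        have hv0 : ∀ j, HiVan s (V 0 j) := fun j t' _ y _ => h0 j (t', y)
        have hvd : ∀ j, HiVan s (hdef q g (V 0) j) := by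
          intro j t' ht' y hy
          show dT (V 0 j) (t', y) - Lt q g (V 0) j (t', y) = 0
          rw [hi_dT_van (hV 0 j) hs0 (hv0 j) t' ht' y hy, hi_Lt_van (hV 0) hs0 hv0 j t' ht' y hy, sub_zero]
        have hd0 : DY q Γ (hdef q g (V 0)) s = 0 := by
          unfold DY Di
          refine (ii_congr (g := fun _ => (0 : ℝ)) fun y hy => ?_).trans (by simp [II])
          rw [hi_n2_eq, hi_n2t_eq]
          have e1 : ∀ i, uT (hdef q g (V 0)) i (s, y) = 0 := fun i => hi_uT_van hvd i s le_rfl y hy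
          have e2 : ∀ i, ttF (uT (hdef q g (V 0)) i) (s, y) = 0 := fun i =>
            hi_ttF_van (((hV 0).hdef hq hgs).uT i) hs0 (hi_uT_van hvd i) s le_rfl y hy
          simp [e1, e2]
        show Real.exp (-C' * (s - s₁)) * DY q Γ (hdef q g (V 0)) s = 0
        rw [hd0, mul_zero]
      rw [hz] at h3
      simp only [intervalIntegral.integral_zero, mul_zero] at h3
      exact h3.trans hA0
    | succ k ih =>
      have hstep := hi_met_step (s₁ := s₁) (s₂ := s₂) (K := κ.K) (η2 := η2) (A := A) (ρ := ρ) (c := κ.c)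
        hKK hA0 hc hη0 (φ := φ) (e := hiE q g Γ (V k)) (d := hiD q g Γ (V k))
        (y := DY q Γ (hdef q g (V (k + 1)))) (b := b k) (r := r k) cφ (cD k) (cY (k + 1))
        ((cb k).mono hsub) ((cr k).mono hsub) (fun s _ => (hφ0 s).le) hφ1 (hb0 k) (hr0 k) (hF k)
        ih.1 ih.2 (hb k) (hr k)
      refine split (k + 1) fun t ht => ?_
      have h3 := h2 (V (k + 1)) (hV (k + 1)) (hvan (k + 1)) t ht
      have h4 : κ.Cu * ∫ s in s₁..t, φ s * DY q Γ (hdef q g (V (k + 1))) s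
          ≤ κ.Cu * (2 * κ.K * η2 * (1 / κ.c + 1) * A + 2 * ρ) :=
        mul_le_mul_of_nonneg_left (hstep t ht) hCu
      have h5 : κ.Cu * (2 * κ.K * η2 * (1 / κ.c + 1) * A + 2 * ρ) ≤ A := by
        have e : κ.Cu * (2 * κ.K * η2 * (1 / κ.c + 1) * A + 2 * ρ)
            = (4 * κ.Cu * κ.K * (1 / κ.c + 1) * η2) * (A / 2) + A / 2 := by
          rw [hA]
          ring
        rw [e]
        have : (4 * κ.Cu * κ.K * (1 / κ.c + 1) * η2) * (A / 2) ≤ 1 * (A / 2) :=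
          mul_le_mul_of_nonneg_right hη (by positivity)
        linarith
      exact h3.trans (h4.trans h5)
  -- remove the weight
  set m : ℝ := Real.exp (-C' * (s₂ - s₁)) with hm
  have hm0 : 0 < m := Real.exp_pos _
  intro j hj
  obtain rfl : j = 0 := by omega
  refine ⟨(1 + 1 / κ.c) * A / m, fun k => ⟨?_, ?_⟩⟩
  · intro t ht
    show hiE q g Γ (V k) t ≤ _
    rw [le_div_iff₀ hm0]
    have h1 := (key k).1 t ht
    have hEnn : 0 ≤ hiE q g Γ (V k) t := add_nonneg (hE0nn k t ht) (hE1nn k t ht)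
    have h2 : hiE q g Γ (V k) t * m ≤ hiE q g Γ (V k) t * φ t :=
      mul_le_mul_of_nonneg_left (hφlow t ht) hEnn
    have h3 : 0 ≤ 1 / κ.c * A := by positivity
    linarith
  · show ∫ s in s₁..s₂, hiD q g Γ (V k) s ≤ _
    rw [le_div_iff₀ hm0]
    have h1 := (key k).2 s₂ ⟨h₁₂, le_rfl⟩
    have ii : IntervalIntegrable (hiD q g Γ (V k)) volume s₁ s₂ := by
      apply ContinuousOn.intervalIntegrable
      rw [uIcc_of_le h₁₂]
      exact cD k
    have ii2 : IntervalIntegrable (fun s => φ s * hiD q g Γ (V k) s) volume s₁ s₂ := by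
      apply ContinuousOn.intervalIntegrable
      rw [uIcc_of_le h₁₂]
      exact cφ.mul (cD k)
    have h2 : (∫ s in s₁..s₂, hiD q g Γ (V k) s) * m ≤ ∫ s in s₁..s₂, φ s * hiD q g Γ (V k) s := by
      rw [← intervalIntegral.integral_mul_const]
      apply intervalIntegral.integral_mono_on h₁₂ (ii.mul_const m) ii2
      intro s hs
      rw [mul_comm]
      exact mul_le_mul_of_nonneg_right (hφlow s hs) (hDnn k s hs)
    have h3 : ∫ s in s₁..s₂, φ s * hiD q g Γ (V k) s ≤ 1 / κ.c * A := by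
      rw [one_div, inv_mul_eq_div, le_div_iff₀ hc]
      linarith
    linarith

end Claimed.Agent.R324.Core
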