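/-
Row 324, module HI, part E, file RemA: the remainders are forcings:      `HiX (J' + s) U  ⇒  hiR (J' + 1) ∈ HiA s`.
Induction on `J'` for all `s`.     `K = C.K h₁₂ h₂`,  `θ, ∂_t θ`: `hiB_const K.h₂ (sm_hiTh _) ..`, `(sm_hiTh _).dT`.
 `J' = 0` (`hi_R_one`):  `S.ut U_k ∈ HiA s` (`hi_ut_A`),  `S.uf U_k ∈ HiA s` (`hi_uf_A`),  `uT Res`, `∂_t uT Res`: fixed smooth functions (`BgSm.smRes`, `hiA_const`),
     `∂_t uT S_β`: `hi_Sb_W` ⇒ `uT (hiSb ..) i ∈ HiW hw0 (s+1) 1` (product with `X` for `i = 2`) ⇒ `hiB_of_W`, `HiB.dT`, `hiA_of_B`;      `uT (L̃_T U_{k+1})`: `HiX.LtT_A` of the shifted family.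
 `J' + 1` (`hi_R_succ` with `J = J' + 1`), given `HiX (J' + 1 + s) U`:   `∂_t hiR (J'+1) ∈ HiA s` by the induction hypothesis with `s + 1` and `HiA.dT`;
     `uT (L̃_T U^{J'+1}_{k+1})`: `HiX.dT3_iter`, `HiX.shift`, `HiX.LtT_A`;     `S.lin U_k [U^{J'+1}_k] ∈ HiA s`: `hi_lin_A` (`HiX.mono`, `HiX.dT3_iter`);     commutator: `hi_lin_comm_A` (needs `HiX (s+1) U`: `s + 1 ≤ J' + 1 + s`).
Model: R325/Core/HI/RemY.lean.
-/
import Claimed.Agent.R324.Core.HI.Rem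

set_option autoImplicit false

namespace Claimed.Agent.R324.Core

open Set Filter Topology MeasureTheory
open scoped ContDiff

variable {q : ℝ} {g : Bg} {Γ : ℝ} {κ : HiC} {S : HNSt} {ε τs Δ : ℝ} {N : ℕ} {Ac : Fin N → Tri}
  {U : ℕ → Tri} {β : ℕ → ℝ → EuclideanSpace ℝ (Fin N)} {s₂ : ℝ}

theorem hi_R_base_A (C : HiCtx q g Γ κ S ε τs Δ N Ac U β) (h₁₂ : tOf τs ≤ s₂) (h₂ : s₂ < 0) (s : ℕ)
    (h : HiX q g Γ (tOf τs) s₂ s U) (i : Fin 3) :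
    HiA (tOf τs) s₂ s (fun k => hiR q g S (τs + Δ) U 1 k i) := by
  have K := C.K h₁₂ h₂
  have hq := C.hq
  have hg : BgSm g := C.hg.sm
  have hS := C.hS.sm
  have hU := C.smU
  -- smoothness
  have sθ : Sm (hiTh (τs + Δ)) := sm_hiTh _
  have sθ' : Sm (dT (hiTh (τs + Δ))) := (sm_hiTh _).dT
  have sRes : Sm (uT (Res q g) i) := sm_uT (fun j => hg.smRes q j) i
  have sut : ∀ k, Sm (S.ut q g (U k) i) := fun k => sm_ut hq hg hS (hU k) i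
  have suf : ∀ k, Sm (S.uf q g (U k) i) := fun k => sm_uf hq hg hS (hU k) i
  have sSb : ∀ k, Sm (uT (hiSb Ac (β k)) i) := fun k => (sm_hiSb C k).uT i
  have sLt : ∀ k, Sm (uT (hLtT q g (U (k + 1))) i) := fun k => ((hU (k + 1)).hLtT hq hg).uT i
  -- classes
  have bθ : HiB (tOf τs) s₂ s (fun _ : ℕ => hiTh (τs + Δ)) := hiB_const h₂ sθ _ s
  have bθ' : HiB (tOf τs) s₂ s (fun _ : ℕ => dT (hiTh (τs + Δ))) := hiB_const h₂ sθ' _ s
  have aut := hi_ut_A K hS hU h i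
  have auf := hi_uf_A K hS hU h i
  have aRes : HiA (tOf τs) s₂ s (fun _ : ℕ => uT (Res q g) i) := hiA_const h₁₂ h₂ sRes s
  have aRes' : HiA (tOf τs) s₂ s (fun _ : ℕ => dT (uT (Res q g) i)) := hiA_const h₁₂ h₂ sRes.dT s
  have aLt : HiA (tOf τs) s₂ s (fun k => uT (hLtT q g (U (k + 1))) i) :=
    HiX.LtT_A K (fun k => hU (k + 1)) h.shift i
  have wSb : HiW hw0 (tOf τs) s₂ (s + 1) 1 (fun k => uT (hiSb Ac (β k)) i) := by
    by_cases hi : i = 2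
    · have e : (fun k => uT (hiSb Ac (β k)) i)
          = fun (k : ℕ) p => (fun (_ : ℕ) (p : ℝ × ℝ) => Xf p.2) k p * (fun k => hiSb Ac (β k) 2) k p := by
        funext k p
        simp [uT, hi]
      rw [e]
      exact HiW.mul0 hwOK_0 h₂ (fun _ => sm_Xf) (fun k => sm_hiSb C k 2)
        (hiW_const hwOK_0 h₂ sm_Xf _ _ _) (hi_Sb_W C h₂ _ _ 2)
    · have e : (fun k => uT (hiSb Ac (β k)) i) = fun k => hiSb Ac (β k) i := by
        funext k p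
        simp [uT, hi]
      rw [e]
      exact hi_Sb_W C h₂ _ _ i
  have aSb : HiA (tOf τs) s₂ s (fun k => dT (uT (hiSb Ac (β k)) i)) :=
    hiA_of_B h₁₂ h₂ (fun k => (sSb k).dT) (HiB.dT h₂ sSb (hiB_of_W h₂ sSb wSb))
  -- the terms
  have T1 := HiA.mulB h₁₂ h₂ (fun _ => sθ) sut bθ aut
  have s1 : ∀ k : ℕ, Sm (fun p => hiTh (τs + Δ) p * S.ut q g (U k) i p) := fun k => sθ.mul (sut k)
  have D2 := HiA.sub h₁₂ h₂ suf (fun _ => sRes) auf aRes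
  have sD2 : ∀ k : ℕ, Sm (fun p => S.uf q g (U k) i p - uT (Res q g) i p) := fun k => (suf k).sub sRes
  have T2 := HiA.mulB h₁₂ h₂ (fun _ => sθ') sD2 bθ' D2
  have s2 : ∀ k : ℕ, Sm (fun p => dT (hiTh (τs + Δ)) p * (S.uf q g (U k) i p - uT (Res q g) i p)) :=
    fun k => sθ'.mul (sD2 k)
  have T3 := HiA.mulB h₁₂ h₂ (fun _ => sθ) (fun _ => sRes.dT) bθ aRes'
  have s3 : ∀ _k : ℕ, Sm (fun p => hiTh (τs + Δ) p * dT (uT (Res q g) i) p) := fun _ => sθ.mul sRes.dT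
  have A12 := HiA.add h₁₂ h₂ s1 s2 T1 T2
  have s12 := fun k => (s1 k).add (s2 k)
  have A123 := HiA.sub h₁₂ h₂ s12 s3 A12 T3
  have s123 := fun k => (s12 k).sub (s3 k)
  have A1234 := HiA.add h₁₂ h₂ s123 (fun k => (sSb k).dT) A123 aSb
  have s1234 := fun k => (s123 k).add (sSb k).dT
  have tot := HiA.add h₁₂ h₂ s1234 sLt A1234 aLt
  have stot := fun k => (s1234 k).add (sLt k)
  exact HiA.congr h₁₂ h₂ stot (fun k => sm_hiR C 1 k i) tot (fun k => hi_R_one C k i)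

theorem hi_R_step_A (C : HiCtx q g Γ κ S ε τs Δ N Ac U β) (h₁₂ : tOf τs ≤ s₂) (h₂ : s₂ < 0) (J' s : ℕ)
    (i : Fin 3) (ih : HiA (tOf τs) s₂ (s + 1) (fun k => hiR q g S (τs + Δ) U (J' + 1) k i))
    (h : HiX q g Γ (tOf τs) s₂ (J' + 1 + s) U) :
    HiA (tOf τs) s₂ s (fun k => hiR q g S (τs + Δ) U (J' + 2) k i) := by
  have K := C.K h₁₂ h₂
  have hq := C.hq
  have hg : BgSm g := C.hg.sm
  have hS := C.hS.sm
  have hU := C.smU
  have hV : ∀ k, SmTri (dT3^[J' + 1] (U k)) := fun k => (hU k).dT3_iter (J' + 1)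
  have hXV : HiX q g Γ (tOf τs) s₂ s (fun k => dT3^[J' + 1] (U k)) :=
    HiX.dT3_iter (J' + 1) (by rw [Nat.add_comm]; exact h)
  have hXs : HiX q g Γ (tOf τs) s₂ s U := h.mono (by omega)
  have hXs1 : HiX q g Γ (tOf τs) s₂ (s + 1) U := h.mono (by omega)
  -- smoothness
  have sθ : Sm (hiTh (τs + Δ)) := sm_hiTh _
  have sθ' : Sm (dT (hiTh (τs + Δ))) := (sm_hiTh _).dT
  have sR : ∀ k, Sm (hiR q g S (τs + Δ) U (J' + 1) k i) := fun k => sm_hiR C (J' + 1) k i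
  have sLt : ∀ k, Sm (uT (hLtT q g (dT3^[J' + 1] (U (k + 1)))) i) :=
    fun k => ((hV (k + 1)).hLtT hq hg).uT i
  have slin : ∀ k, Sm (S.lin q g (U k) (dT3^[J' + 1] (U k)) i) :=
    fun k => sm_lin hq hg hS (hU k) (hV k) i
  have slin' : ∀ k, Sm (S.lin q g (U k) (dT3 (dT3^[J' + 1] (U k))) i) :=
    fun k => sm_lin hq hg hS (hU k) (hV k).dT3 i
  have scom : ∀ k, Sm (fun p => dT (S.lin q g (U k) (dT3^[J' + 1] (U k)) i) p
      - S.lin q g (U k) (dT3 (dT3^[J' + 1] (U k))) i p) := fun k => (slin k).dT.sub (slin' k)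
  -- classes
  have bθ : HiB (tOf τs) s₂ s (fun _ : ℕ => hiTh (τs + Δ)) := hiB_const h₂ sθ _ s
  have bθ' : HiB (tOf τs) s₂ s (fun _ : ℕ => dT (hiTh (τs + Δ))) := hiB_const h₂ sθ' _ s
  have aR : HiA (tOf τs) s₂ s (fun k => dT (hiR q g S (τs + Δ) U (J' + 1) k i)) := ih.dT
  have aLt : HiA (tOf τs) s₂ s (fun k => uT (hLtT q g (dT3^[J' + 1] (U (k + 1)))) i) :=
    HiX.LtT_A K (fun k => hV (k + 1)) hXV.shift i
  have alin := hi_lin_A K hS hU hV hXs hXV i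
  have acom := hi_lin_comm_A K hS hU hV hXs1 hXV i
  have T3 := HiA.mulB h₁₂ h₂ (fun _ => sθ') slin bθ' alin
  have s3 : ∀ k : ℕ, Sm (fun p => dT (hiTh (τs + Δ)) p * S.lin q g (U k) (dT3^[J' + 1] (U k)) i p) :=
    fun k => sθ'.mul (slin k)
  have T4 := HiA.mulB h₁₂ h₂ (fun _ => sθ) scom bθ acom
  have s4 := fun k : ℕ => sθ.mul (scom k)
  have A12 := HiA.add h₁₂ h₂ (fun k => (sR k).dT) sLt aR aLt
  have s12 := fun k => (sR k).dT.add (sLt k)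
  have A123 := HiA.add h₁₂ h₂ s12 s3 A12 T3
  have s123 := fun k => (s12 k).add (s3 k)
  have tot := HiA.add h₁₂ h₂ s123 s4 A123 T4
  have stot := fun k => (s123 k).add (s4 k)
  exact HiA.congr h₁₂ h₂ stot (fun k => sm_hiR C (J' + 2) k i) tot (fun k => hi_R_succ C (J' + 1) k i)

theorem hi_R_A (C : HiCtx q g Γ κ S ε τs Δ N Ac U β) (h₁₂ : tOf τs ≤ s₂) (h₂ : s₂ < 0) (J' : ℕ) :
    ∀ s : ℕ, HiX q g Γ (tOf τs) s₂ (J' + s) U → ∀ i : Fin 3,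
      HiA (tOf τs) s₂ s (fun k => hiR q g S (τs + Δ) U (J' + 1) k i) := by
  induction J' with
  | zero =>
    intro s h i
    exact hi_R_base_A C h₁₂ h₂ s (by simpa using h) i
  | succ J' ih =>
    intro s h i
    have e : J' + (s + 1) = J' + 1 + s := by ring
    exact hi_R_step_A C h₁₂ h₂ J' s i (ih (s + 1) (e ▸ h) i) h

end Claimed.Agent.R324.Core
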