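/-
Row 324, module HI, PART E (final statement): all time derivatives of the iterates are bounded in the energy norm, uniformly in `k`, on `[ts,s₂]`, `s₂ < 0`.
Design: origin/helper402:docs/R324_HI.md, part E.      Induction on `n`:  `HiX n U` ⇒ `hiR (n+1) ∈ HiA 0` (`hi_R_A`) ⇒ `hi_met` for `V_k = dT3^[n+1] (U k)` ⇒ `HiX (n+1) U` (`hiX_succ`).
-/
import Claimed.Agent.R324.Core.HI.RemA
import Claimed.Agent.R324.Core.HI.Met

set_option autoImplicit false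

namespace Claimed.Agent.R324.Core

open Set Filter Topology MeasureTheory
open scoped ContDiff

variable {q : ℝ} {g : Bg} {Γ : ℝ} {κ : HiC} {S : HNSt} {ε τs Δ : ℝ} {N : ℕ} {Ac : Fin N → Tri}
  {U : ℕ → Tri} {β : ℕ → ℝ → EuclideanSpace ℝ (Fin N)} {s₂ : ℝ}

/-- `Iter.xb` (`XB.e0`, `XB.e1` on `(ts,0)`); at `t = ts` the energies vanish (`hi_E_van` with `A = 1`). -/
theorem hi_E_small (C : HiCtx q g Γ κ S ε τs Δ N Ac U β) (k : ℕ) {t : ℝ} (ht : t ∈ Ico (tOf τs) 0) :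
    hiE q g Γ (U k) t ≤ 2 * ε ^ 2 := by
  rcases eq_or_lt_of_le ht.1 with h | h
  · have h0 := hi_E_van (q := q) (Γ := Γ) (g := g) (C.smU k) (hi_tOf_neg τs) (fun j => C.it.zero k j) 1
    rw [one_mul, h] at h0
    unfold hiE
    rw [h0]
    positivity
  · have h0 := (C.it.xb k).e0 t ⟨h, ht.2⟩
    have h1 := (C.it.xb k).e1 t ⟨h, ht.2⟩
    unfold hiE
    linarith

/-- `Iter.xb` (`XB.d0`, `XB.d1`); `intervalIntegral.integral_add` (`hi_intble`, continuity of `D0`, `D1`: as in `hi_hiD_cont`); `s₂ = ts`: the integral is `0`. -/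
theorem hi_D_small (C : HiCtx q g Γ κ S ε τs Δ N Ac U β) (k : ℕ) (h₁₂ : tOf τs ≤ s₂) (h₂ : s₂ < 0) :
    ∫ s in (tOf τs)..s₂, hiD q g Γ (U k) s ≤ 2 * ε ^ 2 := by
  rcases eq_or_lt_of_le h₁₂ with h | h
  · rw [← h, intervalIntegral.integral_same]
    positivity
  · have h0 := (C.it.xb k).d0 s₂ ⟨h, h₂⟩
    have h1 := (C.it.xb k).d1 s₂ ⟨h, h₂⟩
    have c0 : ContinuousOn (D0 q Γ (U k)) (Iio 0) := hi_Di_contI q (hi_V0_cont q Γ) (C.smU k)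
    have c1 : ContinuousOn (D1 q g Γ (U k)) (Iio 0) :=
      hi_Di_contI q (hi_V1_cont q Γ) ((C.smU k).Lt C.hq C.hg.sm)
    have e : ∫ s in (tOf τs)..s₂, hiD q g Γ (U k) s
        = (∫ s in (tOf τs)..s₂, D0 q Γ (U k) s) + ∫ s in (tOf τs)..s₂, D1 q g Γ (U k) s :=
      intervalIntegral.integral_add (hi_intble c0 h₁₂ h₂) (hi_intble c1 h₁₂ h₂)
    rw [e]
    linarith

theorem hi_X_zero (C : HiCtx q g Γ κ S ε τs Δ N Ac U β) (h₁₂ : tOf τs ≤ s₂) (h₂ : s₂ < 0) :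
    HiX q g Γ (tOf τs) s₂ 0 U := by
  intro j hj
  obtain rfl : j = 0 := by omega
  exact ⟨2 * ε ^ 2, fun k => ⟨fun t ht => hi_E_small C k ⟨ht.1, lt_of_le_of_lt ht.2 h₂⟩, hi_D_small C k h₁₂ h₂⟩⟩

/-- **the forcing of the equation of `U^J_{k+1}`.**     `DY (hdef W) = hDYu (uT (hdef W))` (`hi_DY_eq`),  `uT (hdef U^J_{k+1}) = θ S.lin(U_k)[U^J_k] + hiR J k` (definition of `hiR`),
`hi_hDYu_add`, `hi_hDYu_th` with `θ² ≤ 1`, `S.lin = hlinN` (`hi_lin_eq`, `hi_hDYu_congr`), `HiU.lin` with `hiE (U k) t ≤ 2 ε² ≤ ε₁²` (`hi_E_small`, `HiCtx.hε1`), `(-t)⁶ ≤ (-ts)⁶`. -/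
theorem hi_forcing (C : HiCtx q g Γ κ S ε τs Δ N Ac U β) (J k : ℕ) {t : ℝ} (ht : t ∈ Ico (tOf τs) 0) :
    DY q Γ (hdef q g (dT3^[J] (U (k + 1)))) t
      ≤ 2 * κ.K * ((2 * ε ^ 2 + (-(tOf τs)) ^ 6) * hiD q g Γ (dT3^[J] (U k)) t
          + hiE q g Γ (dT3^[J] (U k)) t * hiD q g Γ (U k) t)
        + 2 * hDYu q Γ (hiR q g S (τs + Δ) U J k) t := by
  have hq := C.hq
  have hΓ := C.hΓ
  have hgs := C.hg.sm
  have ht0 : t < 0 := ht.2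
  have hVJ : SmTri (dT3^[J] (U k)) := (C.smU k).dT3_iter J
  have hlin : SmTri (S.lin q g (U k) (dT3^[J] (U k))) := fun i => sm_lin hq hgs C.hS.sm (C.smU k) hVJ i
  have hlinN' : SmTri (hlinN q g (U k) (dT3^[J] (U k))) := fun i =>
    (hlin i).congr fun t' ht' y => hi_lin_eq C.hS (C.smU k) hVJ i ht' y
  have hs : SmTri (fun i p => thetaC (τs + Δ) p.1 * S.lin q g (U k) (dT3^[J] (U k)) i p) := fun i =>
    (sm_hiTh (τs + Δ)).mul (hlin i)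
  have e1 : uT (hdef q g (dT3^[J] (U (k + 1))))
      = fun i p => (fun i p => thetaC (τs + Δ) p.1 * S.lin q g (U k) (dT3^[J] (U k)) i p) i p
          + hiR q g S (τs + Δ) U J k i p := by
    funext i p
    simp only [hiR, hiTh]
    ring
  rw [hi_DY_eq, e1]
  have h1 := hi_hDYu_add (q := q) (Γ := Γ) hq hΓ hs (sm_hiR C J k) ht0
  have h2 := hi_hDYu_th q Γ (thetaC (τs + Δ)) (S.lin q g (U k) (dT3^[J] (U k))) t
  have h3 : hDYu q Γ (S.lin q g (U k) (dT3^[J] (U k))) t = hDYu q Γ (hlinN q g (U k) (dT3^[J] (U k))) t :=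
    hi_hDYu_congr hlin hlinN' (fun i t' ht' y _ => (hi_lin_eq C.hS (C.smU k) hVJ i ht' y).symm) ht0
  have hE := hi_E_small C k ht
  have h4 := C.hU.lin t ⟨C.hts.trans ht.1, ht0⟩ (U k) (dT3^[J] (U k)) (C.smU k) hVJ (hE.trans C.hε1)
  have hD0 : 0 ≤ hiD q g Γ (dT3^[J] (U k)) t := hi_hiD_nonneg hq hΓ g _ ht0
  have hN0 : 0 ≤ hDYu q Γ (hlinN q g (U k) (dT3^[J] (U k))) t := hi_hDYu_nonneg hq hΓ _ ht0
  have hθ : (thetaC (τs + Δ) t) ^ 2 ≤ 1 := by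
    have a0 : 0 ≤ thetaC (τs + Δ) t := Real.smoothTransition.nonneg _
    have a1 : thetaC (τs + Δ) t ≤ 1 := Real.smoothTransition.le_one _
    nlinarith
  have h6 : (-t) ^ 6 ≤ (-(tOf τs)) ^ 6 := pow_le_pow_left₀ (by linarith) (by linarith [ht.1]) 6
  have h5 : κ.K * ((hiE q g Γ (U k) t + (-t) ^ 6) * hiD q g Γ (dT3^[J] (U k)) t
        + hiE q g Γ (dT3^[J] (U k)) t * hiD q g Γ (U k) t)
      ≤ κ.K * ((2 * ε ^ 2 + (-(tOf τs)) ^ 6) * hiD q g Γ (dT3^[J] (U k)) t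
        + hiE q g Γ (dT3^[J] (U k)) t * hiD q g Γ (U k) t) := by
    apply mul_le_mul_of_nonneg_left _ C.hU.hK
    have := mul_le_mul_of_nonneg_right (add_le_add hE h6) hD0
    linarith
  have h7 : (thetaC (τs + Δ) t) ^ 2 * hDYu q Γ (hlinN q g (U k) (dT3^[J] (U k))) t
      ≤ 1 * hDYu q Γ (hlinN q g (U k) (dT3^[J] (U k))) t := mul_le_mul_of_nonneg_right hθ hN0
  rw [h2, h3] at h1
  linarith

/-- `hi_hDYu_le`, `HiA 0` of the three components, `hi_int_mono`, `intervalIntegral.integral_finset_sum`. -/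
theorem hi_R_int (C : HiCtx q g Γ κ S ε τs Δ N Ac U β) (h₁₂ : tOf τs ≤ s₂) (h₂ : s₂ < 0) (J : ℕ)
    (h : ∀ i : Fin 3, HiA (tOf τs) s₂ 0 (fun k => hiR q g S (τs + Δ) U J k i)) :
    ∃ ρ : ℝ, 0 ≤ ρ ∧ ∀ k, ∫ s in (tOf τs)..s₂, hDYu q Γ (hiR q g S (τs + Δ) U J k) s ≤ ρ := by
  obtain ⟨C₀, hC₀, hle⟩ := hi_hDYu_le (q := q) (Γ := Γ) C.hq C.hΓ (tOf τs) h₂
  choose Ci hCi using fun i => h i 0 le_rfl
  refine ⟨|C₀ * ∑ i, Ci i|, abs_nonneg _, fun k => le_trans ?_ (le_abs_self _)⟩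
  have cden : ∀ i, ContinuousOn (haDen (hiR q g S (τs + Δ) U J k i)) (Iio 0) := fun i =>
    hi_haDen_cont (sm_hiR C J k i)
  have h1 : ∫ s in (tOf τs)..s₂, hDYu q Γ (hiR q g S (τs + Δ) U J k) s
      ≤ ∫ s in (tOf τs)..s₂, C₀ * ∑ i, haDen (hiR q g S (τs + Δ) U J k i) s :=
    hi_int_mono (hi_hDYu_cont q Γ (sm_hiR C J k))
      (continuousOn_const.mul (continuousOn_finsetSum _ fun i _ => cden i)) h₁₂ h₂
      (fun s hs => hle _ (sm_hiR C J k) s hs)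
  have h2 : ∫ s in (tOf τs)..s₂, C₀ * ∑ i, haDen (hiR q g S (τs + Δ) U J k i) s
      = C₀ * ∑ i, ∫ s in (tOf τs)..s₂, haDen (hiR q g S (τs + Δ) U J k i) s := by
    rw [intervalIntegral.integral_const_mul,
      intervalIntegral.integral_finsetSum (fun i _ => hi_intble (cden i) h₁₂ h₂)]
  rw [h2] at h1
  exact h1.trans (mul_le_mul_of_nonneg_left (Finset.sum_le_sum fun i _ => hCi i k) hC₀)

/-- **Part E.** -/
theorem hi_energy (C : HiCtx q g Γ κ S ε τs Δ N Ac U β) {s₂ : ℝ} (h₁₂ : tOf τs ≤ s₂) (h₂ : s₂ < 0) (n : ℕ) :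
    HiX q g Γ (tOf τs) s₂ n U := by
  have K := C.K h₁₂ h₂
  induction n with
  | zero => exact hi_X_zero C h₁₂ h₂
  | succ n ih =>
    refine hiX_succ ih ?_
    obtain ⟨ρ, hρ, hR⟩ := hi_R_int C h₁₂ h₂ (n + 1) (fun i => hi_R_A C h₁₂ h₂ n 0 ih i)
    have hmem : ∀ t ∈ Icc (tOf τs) s₂, t ∈ Ico (tOf τs) 0 := fun t ht => ⟨ht.1, lt_of_le_of_lt ht.2 h₂⟩
    refine hi_met K (η2 := 2 * ε ^ 2 + (-(tOf τs)) ^ 6) (ρ := ρ) (by positivity) C.hη hρ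
      (V := fun k => dT3^[n + 1] (U k)) (fun k => (C.smU k).dT3_iter (n + 1))
      (fun k j => hi_UJ_van C (n + 1) k j) (fun j p => hi_UJ_zero C (n + 1) j p)
      (b := fun k => hiD q g Γ (U k)) (r := fun k => hDYu q Γ (hiR q g S (τs + Δ) U (n + 1) k))
      (fun k => hi_hiD_cont C.hq C.hg.sm Γ (C.smU k)) (fun k => hi_hDYu_cont q Γ (sm_hiR C (n + 1) k))
      (fun k s hs => hi_hiD_nonneg C.hq C.hΓ g (U k) (hmem s hs).2)
      (fun k s hs => hi_hDYu_nonneg C.hq C.hΓ _ (hmem s hs).2)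
      (fun k => (hi_D_small C k h₁₂ h₂).trans (by nlinarith [pow_nonneg (neg_nonneg.2 (hi_tOf_neg τs).le) 6]))
      hR (fun k t ht => hi_forcing C (n + 1) k (hmem t ht))

end Claimed.Agent.R324.Core
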