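/-
Row 324, module HI, PART L, file LEq (L3): the limit solves the nonlinear system for `t > tOf (τs+Δ+1)`.
Fix `(t,y)`.   `Iter.eq` with `θ = 1`, `β = 0`:   `∂_t U_{k+1} = L̃ U_{k+1} + NN(U_k) - Res`.     `L̃ U` and `NN U = S.raw U` (`HNStOK.eq`) at the point `(t,y)` are continuous functions of the 2-jet of `U` at `(t,y)`
(`hi_G_cont`: continuity of `ξ ↦ G (t,y) ξ`).      Model: `hi_NLw` in R325/Core/HI/Final.lean (pack R325/Pk61.lean).
-/
import Claimed.Agent.R324.Core.HI.LO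
import Claimed.Agent.R324.Core.HI.Gen

set_option autoImplicit false

namespace Claimed.Agent.R324.Core

open Set Filter Topology MeasureTheory
open scoped ContDiff

variable {q : ℝ} {g : Bg} {Γ : ℝ} {κ : HiC} {S : HNSt} {ε τs Δ : ℝ} {N : ℕ} {Ac : Fin N → Tri}
  {U : ℕ → Tri} {β : ℕ → ℝ → EuclideanSpace ℝ (Fin N)} {W : Tri}

/-- **L3.** -/
theorem hi_L_NLU (C : HiCtx q g Γ κ S ε τs Δ N Ac U β) (hW : SmTri W)
    (hO : ∀ j, ∀ s₁ s₂ : ℝ, tOf τs < s₁ → s₂ < 0 → HiLO s₁ s₂ (fun k p => U k j p - W j p)) :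
    NLU q g (tOf (τs + Δ + 1)) W := by
  intro j t ht y hy
  have h0 : tOf τs < tOf (τs + Δ + 1) := hi_L_tOf_lt (by linarith [C.hΔ])
  have hts : tOf τs < t := h0.trans ht.1
  have hsm : ∀ k, SmTri (U k) := fun k => C.it.sm k
  have htt : t ∈ Icc t t := ⟨le_rfl, le_rfl⟩
  -- pointwise convergence of the derivatives
  have cv : ∀ (c : Fin 3) (i r : ℕ), Tendsto (fun k => dY^[r] (dT^[i] (U k c)) (t, y)) atTop
      (𝓝 (dY^[r] (dT^[i] (W c)) (t, y))) := fun c i r =>
    ((hO c t t hts ht.2).tendsU ht.2 (fun k => hsm k c) (hW c) i r).tendsto htt hy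
  have c0 : ∀ c, Tendsto (fun k => U k c (t, y)) atTop (𝓝 (W c (t, y))) := fun c => cv c 0 0
  have c1 : ∀ c, Tendsto (fun k => dY (U k c) (t, y)) atTop (𝓝 (dY (W c) (t, y))) := fun c => cv c 0 1
  have c2 : ∀ c, Tendsto (fun k => dY (dY (U k c)) (t, y)) atTop (𝓝 (dY (dY (W c)) (t, y))) :=
    fun c => cv c 0 2
  have cT : Tendsto (fun k => dT (U k j) (t, y)) atTop (𝓝 (dT (W j) (t, y))) := cv j 1 0
  -- `L̃`
  have cL : ∀ c, Tendsto (fun k => Lt q g (U k) c (t, y)) atTop (𝓝 (Lt q g W c (t, y))) := by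
    intro c
    unfold Lt Lop
    exact (((c2 c).const_mul _).add ((c1 c).const_mul _)).add
      (tendsto_finsetSum _ (fun k _ => (c0 k).const_mul _))
  -- the u-form
  have cu : ∀ b, Tendsto (fun k => uT (U k) b (t, y)) atTop (𝓝 (uT W b (t, y))) := by
    intro b
    unfold uT
    split_ifs
    · exact (c0 2).const_mul _
    · exact c0 b
  -- the coefficients
  have cG : ∀ G : HGf, HGSm G →
      Tendsto (fun k => hcmp G (uT (U k)) (t, y)) atTop (𝓝 (hcmp G (uT W) (t, y))) := by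
    intro G hG
    have h1 := (hi_G_cont hG ht.2 y).tendsto (fun b => uT W b (t, y))
    exact h1.comp (tendsto_pi_nhds.2 cu)
  -- the jets
  have cp : ∀ c : Fin 5, Tendsto (fun k => hpp 1 (U k) c (t, y)) atTop (𝓝 (hpp 1 W c (t, y))) := by
    intro c
    fin_cases c
    · exact c1 0
    · exact c1 1
    · exact c0 2
    · exact (c1 2).const_mul _
    · exact tendsto_const_nhds
  have cQ : Tendsto (fun k => S.quad (U k) j (t, y)) atTop (𝓝 (S.quad W j (t, y))) := by
    unfold HNSt.quad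
    exact tendsto_finsetSum _ (fun c _ => tendsto_finsetSum _ (fun c' _ =>
      (cG _ (C.hS.sm.2.2 j c c')).mul ((cp c).mul (cp c'))))
  have cR : Tendsto (fun k => S.raw q g (U k) j (t, y)) atTop (𝓝 (S.raw q g W j (t, y))) := by
    unfold HNSt.raw
    exact (((cG _ C.hS.sm.1).mul (cL j)).add (cG _ (C.hS.sm.2.1 j))).add (cQ.const_mul _)
  have cN : Tendsto (fun k => NN q g (U k) j (t, y)) atTop (𝓝 (NN q g W j (t, y))) := by
    rw [C.hS.eq W hW j t ht.2 y]
    exact cR.congr (fun k => (C.hS.eq (U k) (hsm k) j t ht.2 y).symm)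
  -- the equation of the iterates
  have hth : thetaC (τs + Δ) t = 1 := hi_L_theta_one ht.1.le ht.2
  have hτ : τs + Δ ≤ tauOf t := by
    have := hi_L_le_tauOf ht.1.le ht.2
    linarith
  have heq : ∀ k, dT (U (k + 1) j) (t, y)
      = Lt q g (U (k + 1)) j (t, y) + (NN q g (U k) j (t, y) - Res q g j (t, y)) := by
    intro k
    have h1 := C.it.eq k j t ht.2 y hy
    rw [hth, C.it.βsupp k _ (Or.inr hτ)] at h1
    simpa using h1
  have l1 : Tendsto (fun k => dT (U (k + 1) j) (t, y)) atTop (𝓝 (dT (W j) (t, y))) :=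
    cT.comp (tendsto_add_atTop_nat 1)
  have l2 : Tendsto (fun k => Lt q g (U (k + 1)) j (t, y) + (NN q g (U k) j (t, y) - Res q g j (t, y))) atTop
      (𝓝 (Lt q g W j (t, y) + (NN q g W j (t, y) - Res q g j (t, y)))) :=
    ((cL j).comp (tendsto_add_atTop_nat 1)).add (cN.sub_const _)
  have hlim : dT (W j) (t, y) = Lt q g W j (t, y) + (NN q g W j (t, y) - Res q g j (t, y)) :=
    tendsto_nhds_unique l1 (l2.congr (fun k => (heq k).symm))
  rw [hlim]
  unfold NN
  ring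

end Claimed.Agent.R324.Core
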