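/-
Row 324, module HI, PART L (limit of the iterates), file LDefs: definitions and the elementary facts on `tOf`, `tauOf`.      Sub-architect: helper739.
Design: origin/helper402:docs/R324_HI.md, part L.      Model: R325/Core/HI/{BdO,Lim,Conv,UC,Final}.lean (packs R325/Pk56.lean, Pk61.lean).
PLAN OF PART L  (`ts = tOf τs`, `t₀ = tOf (τs+Δ+1)`):
  LE2   (E2 world, `x ∈ [0,1]`)   bounded derivatives + uniformly Cauchy  ⟹  a smooth limit `γ`, all derivatives converge uniformly on `[s₁,s₂] × [0,1]`, `ts < s₁`.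
  LAff  affine change `y = 2x-1`:  `hi_L_W_exists`  (the same statement on `[-1,1]`, classes `HiW hw0`, `HiLC`, `HiLO`).
  LUC   (L1)  the iterates are uniformly Cauchy on `[ts,s₂] × [-1,1]`  (`Iter.xbd`, `HiU.sup`; `b` near the poles: bound of `b'`).
  LO    calculus of `HiLO` (all derivatives tend to `0` uniformly) and of `HiLT` (uniform convergence on the rectangle).
  LConv `L̃ U_k → L̃ W` in `HiLO`;  the energies `En`, `Di` converge uniformly in `t`.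
  LEq   (L3)  the limit solves `NLU`.            LXB   (L4)  `XB` passes to the limit.            Limit: assembly.
-/
import Claimed.Agent.R324.Core.HI.Defs

set_option autoImplicit false

namespace Claimed.Agent.R324.Core

open Set Filter Topology MeasureTheory
open scoped ContDiff

noncomputable section

/-- all derivatives tend to `0`, uniformly on `[s₁,s₂] × [-1,1]`. -/
def HiLO (s₁ s₂ : ℝ) (𝓕 : ℕ → Fn) : Prop :=
  ∀ i j : ℕ, ∀ e > 0, ∃ N₀ : ℕ, ∀ k ≥ N₀, ∀ t ∈ Icc s₁ s₂, ∀ y ∈ Icc (-1 : ℝ) 1,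
    |dY^[j] (dT^[i] (𝓕 k)) (t, y)| ≤ e

/-- uniformly Cauchy on `[s₁,s₂] × [-1,1]`. -/
def HiLC (s₁ s₂ : ℝ) (𝓕 : ℕ → Fn) : Prop :=
  ∀ e > 0, ∃ N₀ : ℕ, ∀ n ≥ N₀, ∀ m ≥ n, ∀ t ∈ Icc s₁ s₂, ∀ y ∈ Icc (-1 : ℝ) 1,
    |𝓕 m (t, y) - 𝓕 n (t, y)| ≤ e

/-- uniform convergence on `[s₁,s₂] × [-1,1]` (no derivatives). -/
def HiLT (s₁ s₂ : ℝ) (𝓕 : ℕ → Fn) (f : Fn) : Prop :=
  ∀ e > 0, ∃ N₀ : ℕ, ∀ k ≥ N₀, ∀ t ∈ Icc s₁ s₂, ∀ y ∈ Icc (-1 : ℝ) 1, |𝓕 k (t, y) - f (t, y)| ≤ e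

/-- bounded on `[s₁,s₂] × [-1,1]`. -/
def HiLB (s₁ s₂ : ℝ) (f : Fn) : Prop :=
  ∃ C : ℝ, ∀ t ∈ Icc s₁ s₂, ∀ y ∈ Icc (-1 : ℝ) 1, |f (t, y)| ≤ C

/-- `f (t, 2x-1)`:  from `y ∈ [-1,1]` to `x ∈ [0,1]`. -/
def hiLa (f : Fn) : ℝ × ℝ → ℝ := fun p => f (p.1, 2 * p.2 - 1)

/-- `γ (t, (y+1)/2)`:  from `x ∈ [0,1]` to `y ∈ [-1,1]`. -/
def hiLb (γ : ℝ × ℝ → ℝ) : Fn := fun p => γ (p.1, (p.2 + 1) / 2)

end

/-! ### `tOf`, `tauOf`, the cut-off -/

theorem hi_L_tOf_neg (τ : ℝ) : tOf τ < 0 := by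
  unfold tOf
  have := Real.exp_pos (-τ)
  linarith

theorem hi_L_tOf_lt {τ τ' : ℝ} (h : τ < τ') : tOf τ < tOf τ' := by
  unfold tOf
  have : Real.exp (-τ') < Real.exp (-τ) := Real.exp_lt_exp.2 (by linarith)
  linarith

/-- `tOf τ ≤ t < 0 ⟹ τ ≤ tauOf t`. -/
theorem hi_L_le_tauOf {τ t : ℝ} (h : tOf τ ≤ t) (ht : t < 0) : τ ≤ tauOf t := by
  unfold tOf at h
  unfold tauOf
  have h1 : -t ≤ Real.exp (-τ) := by linarith
  have h2 : Real.log (-t) ≤ -τ := by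
    rw [Real.log_le_iff_le_exp (by linarith)]
    exact h1
  linarith

/-- the cut-off is `1` for `t ≥ tOf (τc + 1)`. -/
theorem hi_L_theta_one {τc t : ℝ} (h : tOf (τc + 1) ≤ t) (ht : t < 0) : thetaC τc t = 1 := by
  unfold thetaC
  have := hi_L_le_tauOf h ht
  exact Real.smoothTransition.one_of_one_le (by linarith)

/-- hygiene (rule 6). -/
theorem hi_L_defs_hygiene : True := by
  have := @HiLO.eq_1
  have := @HiLC.eq_1
  have := @HiLT.eq_1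
  have := @HiLB.eq_1
  have := @hiLa.eq_1
  have := @hiLb.eq_1
  trivial

end Claimed.Agent.R324.Core
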