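/-
Row 324, module HI, PART L, file LUC (L1): the iterates are uniformly Cauchy on `[ts,s₂] × [-1,1]`.
`Iter.xbd` + `HiU.sup`:  `|u_{k+1} - u_k| ≤ K/2^k` for `u = uT U = (σ, h₃, X b)`.    `b`: `X ≥ δ` on `[-1+δ,1-δ]`, and `|b'| ≤ K₁` near the poles.
Model: R325/Core/HI/UC.lean (pack R325/Pk61.lean).
-/
import Claimed.Agent.R324.Core.HI.LDefs

set_option autoImplicit false

namespace Claimed.Agent.R324.Core

open Set Filter Topology MeasureTheory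
open scoped ContDiff

variable {q : ℝ} {g : Bg} {Γ : ℝ} {κ : HiC} {S : HNSt} {ε τs Δ : ℝ} {N : ℕ} {Ac : Fin N → Tri}
  {U : ℕ → Tri} {β : ℕ → ℝ → EuclideanSpace ℝ (Fin N)} {s₂ : ℝ}

/-- one step of the iteration, in u-form. -/
theorem hi_L_step (C : HiCtx q g Γ κ S ε τs Δ N Ac U β) : ∃ K : ℝ, 0 ≤ K ∧ ∀ k : ℕ,
    ∀ t ∈ Ioo (tOf τs) 0, ∀ y ∈ Icc (-1 : ℝ) 1, ∀ b : Fin 3,
      |uT (U (k + 1)) b (t, y) - uT (U k) b (t, y)| ≤ K / 2 ^ k := by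
  have hCs := C.hU.hCs
  have hε := C.hε
  have hq := C.hq
  refine ⟨2 * (κ.Cs + 1) * ε, by positivity, fun k t ht y hy b => ?_⟩
  have hV : SmTri (fun j p => U (k + 1) j p - U k j p) := fun j => (C.it.sm (k + 1) j).sub (C.it.sm k j)
  have hsup := C.hU.sup t ⟨C.hts.trans ht.1.le, ht.2⟩ _ hV y hy
  have he0 := (C.it.xbd k).e0 t ht
  have he1 := (C.it.xbd k).e1 t ht
  have hq1 : 0 < q + 1 := by linarith
  have hqq : 1 / 2 ≤ q / (q + 1) := by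
    rw [div_le_div_iff₀ (by norm_num) hq1]
    linarith
  have hnt : 0 ≤ n2t q (slT (fun j p => U (k + 1) j p - U k j p) t) y := by
    unfold n2t
    have : 0 ≤ q / (q + 1) := by linarith
    positivity
  have hE : hiE q g Γ (fun j p => U (k + 1) j p - U k j p) t ≤ 2 * (ε / 2 ^ k) ^ 2 := by
    unfold hiE
    linarith
  have hn : n2 q (slT (fun j p => U (k + 1) j p - U k j p) t) y ≤ κ.Cs * (2 * (ε / 2 ^ k) ^ 2) :=
    le_trans (by linarith) (mul_le_mul_of_nonneg_left hE hCs)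
  have hn2 : n2 q (slT (fun j p => U (k + 1) j p - U k j p) t) y
      = (q + 1) * (U (k + 1) 0 (t, y) - U k 0 (t, y)) ^ 2 + 2 * (U (k + 1) 1 (t, y) - U k 1 (t, y)) ^ 2
        + q / (q + 1) * ((1 - y ^ 2) * (U (k + 1) 2 (t, y) - U k 2 (t, y))) ^ 2 := rfl
  rw [hn2] at hn
  have s0 := sq_nonneg (U (k + 1) 0 (t, y) - U k 0 (t, y))
  have s1 := sq_nonneg (U (k + 1) 1 (t, y) - U k 1 (t, y))
  have s2 := sq_nonneg ((1 - y ^ 2) * (U (k + 1) 2 (t, y) - U k 2 (t, y)))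
  have m0 : (U (k + 1) 0 (t, y) - U k 0 (t, y)) ^ 2 ≤ (q + 1) * (U (k + 1) 0 (t, y) - U k 0 (t, y)) ^ 2 := by
    nlinarith
  have m2 : 1 / 2 * ((1 - y ^ 2) * (U (k + 1) 2 (t, y) - U k 2 (t, y))) ^ 2
      ≤ q / (q + 1) * ((1 - y ^ 2) * (U (k + 1) 2 (t, y) - U k 2 (t, y))) ^ 2 :=
    mul_le_mul_of_nonneg_right hqq s2
  have hK2 : κ.Cs * (2 * (ε / 2 ^ k) ^ 2) * 2 ≤ (2 * (κ.Cs + 1) * ε / 2 ^ k) ^ 2 := by
    have e1 : (2 * (κ.Cs + 1) * ε / 2 ^ k) ^ 2 = 4 * (κ.Cs + 1) ^ 2 * (ε / 2 ^ k) ^ 2 := by ring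
    rw [e1]
    have : 0 ≤ (ε / 2 ^ k) ^ 2 := sq_nonneg _
    nlinarith
  have hpos : 0 ≤ 2 * (κ.Cs + 1) * ε / 2 ^ k := by positivity
  apply abs_le_of_sq_le_sq _ hpos
  refine le_trans ?_ hK2
  fin_cases b
  · show (uT (U (k + 1)) 0 (t, y) - uT (U k) 0 (t, y)) ^ 2 ≤ _
    rw [uT_zero, uT_zero]
    nlinarith
  · show (uT (U (k + 1)) 1 (t, y) - uT (U k) 1 (t, y)) ^ 2 ≤ _
    rw [uT_one, uT_one]
    nlinarith
  · show (uT (U (k + 1)) 2 (t, y) - uT (U k) 2 (t, y)) ^ 2 ≤ _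
    rw [uT_two, uT_two]
    show (Xf y * U (k + 1) 2 (t, y) - Xf y * U k 2 (t, y)) ^ 2 ≤ _
    have e2 : Xf y * U (k + 1) 2 (t, y) - Xf y * U k 2 (t, y)
        = (1 - y ^ 2) * (U (k + 1) 2 (t, y) - U k 2 (t, y)) := by
      unfold Xf
      ring
    rw [e2]
    nlinarith

/-- telescoping. -/
theorem hi_L_tele {a : ℕ → ℝ} {K : ℝ} (hK : 0 ≤ K) (h : ∀ k, |a (k + 1) - a k| ≤ K / 2 ^ k) {n m : ℕ}
    (hnm : n ≤ m) : |a m - a n| ≤ 2 * K / 2 ^ n := by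
  have key : |a m - a n| ≤ K * (2 / 2 ^ n - 2 / 2 ^ m) := by
    induction m, hnm using Nat.le_induction with
    | base => simp
    | succ m hnm ih =>
      have h1 := h m
      have h2 : a (m + 1) - a n = (a (m + 1) - a m) + (a m - a n) := by ring
      rw [h2]
      refine (abs_add_le _ _).trans ?_
      have h3 : K * (2 / 2 ^ n - 2 / 2 ^ (m + 1)) = K / 2 ^ m + K * (2 / 2 ^ n - 2 / 2 ^ m) := by
        rw [pow_succ]
        field_simp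
        ring
      rw [h3]
      exact add_le_add h1 ih
  refine key.trans ?_
  have h4 : 0 ≤ K * (2 / 2 ^ m) := by positivity
  have h5 : 2 * K / 2 ^ n = K * (2 / 2 ^ n) := by ring
  rw [h5, mul_sub]
  linarith

/-- `2K/2^n` is eventually small. -/
theorem hi_L_geom_small {K e : ℝ} (he : 0 < e) : ∃ N₀ : ℕ, ∀ n ≥ N₀, 2 * K / 2 ^ n ≤ e := by
  obtain ⟨N₀, hN₀⟩ := exists_nat_gt (2 * K / e)
  refine ⟨N₀, fun n hn => ?_⟩
  have h2 : (N₀ : ℝ) ≤ 2 ^ n := by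
    have h3 : N₀ < 2 ^ N₀ := Nat.lt_two_pow_self
    have h4 : 2 ^ N₀ ≤ 2 ^ n := Nat.pow_le_pow_right (by norm_num) hn
    exact_mod_cast (h3.le.trans h4)
  rw [div_le_iff₀ (by positivity)]
  rw [div_lt_iff₀ he] at hN₀
  have h5 : (N₀ : ℝ) * e ≤ 2 ^ n * e := mul_le_mul_of_nonneg_right h2 he.le
  linarith

/-- the u-forms are uniformly Cauchy. -/
theorem hi_L_u_cauchy (C : HiCtx q g Γ κ S ε τs Δ N Ac U β) : ∃ K : ℝ, 0 ≤ K ∧ ∀ n m : ℕ, n ≤ m →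
    ∀ t ∈ Ioo (tOf τs) 0, ∀ y ∈ Icc (-1 : ℝ) 1, ∀ b : Fin 3,
      |uT (U m) b (t, y) - uT (U n) b (t, y)| ≤ 2 * K / 2 ^ n := by
  obtain ⟨K, hK, h⟩ := hi_L_step C
  exact ⟨K, hK, fun n m hnm t ht y hy b =>
    hi_L_tele (a := fun k => uT (U k) b (t, y)) hK (fun k => h k t ht y hy b) hnm⟩

/-- a bound in the middle and a bound of the derivative give a bound up to the ends. -/
theorem hi_L_ends {d d' : ℝ → ℝ} {A L δ : ℝ} (hδ0 : 0 < δ) (hδ1 : δ ≤ 1)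
    (hd : ∀ x ∈ Icc (-1 : ℝ) 1, HasDerivAt d (d' x) x) (hL : ∀ x ∈ Icc (-1 : ℝ) 1, |d' x| ≤ L)
    (hA : ∀ x ∈ Icc (-1 + δ) (1 - δ), |d x| ≤ A) : ∀ x ∈ Icc (-1 : ℝ) 1, |d x| ≤ A + L * δ := by
  have hL0 : 0 ≤ L := (abs_nonneg _).trans (hL 0 ⟨by norm_num, zero_le_one⟩)
  have mv : ∀ x ∈ Icc (-1 : ℝ) 1, ∀ y ∈ Icc (-1 : ℝ) 1, |d y - d x| ≤ L * |y - x| := by
    intro x hx y hy
    have := Convex.norm_image_sub_le_of_norm_hasDerivWithin_le (f := d) (f' := d') (C := L)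
      (s := Icc (-1 : ℝ) 1) (fun z hz => (hd z hz).hasDerivWithinAt)
      (fun z hz => by rw [Real.norm_eq_abs]; exact hL z hz) (convex_Icc (-1) 1) hx hy
    simpa [Real.norm_eq_abs] using this
  intro x hx
  rcases lt_or_ge x (-1 + δ) with h1 | h1
  · have hδm : (-1 + δ) ∈ Icc (-1 : ℝ) 1 := ⟨by linarith, by linarith⟩
    have h2 := mv (-1 + δ) hδm x hx
    have h3 := hA (-1 + δ) ⟨le_rfl, by linarith⟩
    have h4 : |x - (-1 + δ)| ≤ δ := by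
      rw [abs_le]
      constructor <;> linarith [hx.1]
    have h5 : L * |x - (-1 + δ)| ≤ L * δ := mul_le_mul_of_nonneg_left h4 hL0
    have h6 : |d x| ≤ |d (-1 + δ)| + |d x - d (-1 + δ)| := by
      have : d x = d (-1 + δ) + (d x - d (-1 + δ)) := by ring
      calc |d x| = |d (-1 + δ) + (d x - d (-1 + δ))| := by rw [← this]
        _ ≤ _ := abs_add_le _ _
    linarith
  rcases le_or_gt x (1 - δ) with h7 | h7
  · have := hA x ⟨h1, h7⟩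
    have h8 : 0 ≤ L * δ := mul_nonneg hL0 hδ0.le
    linarith
  · have hδm : (1 - δ) ∈ Icc (-1 : ℝ) 1 := ⟨by linarith, by linarith⟩
    have h2 := mv (1 - δ) hδm x hx
    have h3 := hA (1 - δ) ⟨by linarith, le_rfl⟩
    have h4 : |x - (1 - δ)| ≤ δ := by
      rw [abs_le]
      constructor <;> linarith [hx.2]
    have h5 : L * |x - (1 - δ)| ≤ L * δ := mul_le_mul_of_nonneg_left h4 hL0
    have h6 : |d x| ≤ |d (1 - δ)| + |d x - d (1 - δ)| := by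
      have : d x = d (1 - δ) + (d x - d (1 - δ)) := by ring
      calc |d x| = |d (1 - δ) + (d x - d (1 - δ))| := by rw [← this]
        _ ≤ _ := abs_add_le _ _
    linarith

/-- `σ`, `h₃`. -/
theorem hi_L_uc01 (C : HiCtx q g Γ κ S ε τs Δ N Ac U β) (h₂ : s₂ < 0) {j : Fin 3} (hj : j ≠ 2) :
    HiLC (tOf τs) s₂ (fun k => U k j) := by
  obtain ⟨K, _, hz⟩ := hi_L_u_cauchy C
  intro e he
  obtain ⟨N₀, hN₀⟩ := hi_L_geom_small (K := K) he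
  refine ⟨N₀, fun n hn m hm t ht y hy => ?_⟩
  show |U m j (t, y) - U n j (t, y)| ≤ e
  rcases eq_or_lt_of_le ht.1 with h1 | h1
  · rw [C.it.zero m j t h1.symm.le y hy, C.it.zero n j t h1.symm.le y hy, sub_zero, abs_zero]
    exact he.le
  have h3 := hz n m hm t ⟨h1, ht.2.trans_lt h₂⟩ y hy j
  have e1 : ∀ k, uT (U k) j (t, y) = U k j (t, y) := fun k => by
    unfold uT
    rw [if_neg hj]
  rw [e1, e1] at h3
  exact h3.trans (hN₀ n hn)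

/-- `b`. -/
theorem hi_L_uc2 (C : HiCtx q g Γ κ S ε τs Δ N Ac U β) (h₂ : s₂ < 0)
    (hB : HiW hw0 (tOf τs) s₂ 0 1 (fun k => U k 2)) : HiLC (tOf τs) s₂ (fun k => U k 2) := by
  obtain ⟨K, _, hz⟩ := hi_L_u_cauchy C
  obtain ⟨K₁, hK₁⟩ := hB 0 le_rfl 1 le_rfl
  intro e he
  obtain ⟨L, hL⟩ : ∃ L : ℝ, L = 2 * |K₁| := ⟨_, rfl⟩
  have hL0 : 0 ≤ L := by rw [hL]; positivity
  obtain ⟨δ, hδ⟩ : ∃ δ : ℝ, δ = min 1 (e / (2 * L + 1)) := ⟨_, rfl⟩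
  have hδ0 : 0 < δ := by
    rw [hδ]
    exact lt_min (by norm_num) (by positivity)
  have hδ1 : δ ≤ 1 := by rw [hδ]; exact min_le_left _ _
  have hLδ : L * δ ≤ e / 2 := by
    have h1 : δ ≤ e / (2 * L + 1) := by rw [hδ]; exact min_le_right _ _
    have h2 : L * δ ≤ L * (e / (2 * L + 1)) := mul_le_mul_of_nonneg_left h1 hL0
    refine h2.trans ?_
    rw [← mul_div_assoc, div_le_div_iff₀ (by positivity) (by norm_num)]
    nlinarith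
  obtain ⟨N₀, hN₀⟩ := hi_L_geom_small (K := K) (e := e / 2 * δ) (by positivity)
  refine ⟨N₀, fun n hn m hm t ht x hx => ?_⟩
  show |U m 2 (t, x) - U n 2 (t, x)| ≤ e
  rcases eq_or_lt_of_le ht.1 with h1 | h1
  · rw [C.it.zero m 2 t h1.symm.le x hx, C.it.zero n 2 t h1.symm.le x hx, sub_zero, abs_zero]
    exact he.le
  have ht0 : t < 0 := lt_of_le_of_lt ht.2 h₂
  have hmid : ∀ y ∈ Icc (-1 + δ) (1 - δ), |U m 2 (t, y) - U n 2 (t, y)| ≤ e / 2 := by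
    intro y hy
    have hy01 : y ∈ Icc (-1 : ℝ) 1 := ⟨by linarith [hy.1], by linarith [hy.2]⟩
    have h3 := hz n m hm t ⟨h1, ht0⟩ y hy01 2
    rw [uT_two, uT_two] at h3
    have h4 : Xf y * U m 2 (t, y) - Xf y * U n 2 (t, y) = Xf y * (U m 2 (t, y) - U n 2 (t, y)) := by ring
    have h3' : |Xf y * U m 2 (t, y) - Xf y * U n 2 (t, y)| ≤ 2 * K / 2 ^ n := h3
    rw [h4, abs_mul] at h3'
    have h5 : δ ≤ |Xf y| := by
      refine le_trans ?_ (le_abs_self _)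
      unfold Xf
      rcases le_total 0 y with h6 | h6
      · nlinarith [hy.1, hy.2]
      · nlinarith [hy.1, hy.2]
    have h6 : δ * |U m 2 (t, y) - U n 2 (t, y)| ≤ e / 2 * δ :=
      (mul_le_mul_of_nonneg_right h5 (abs_nonneg _)).trans (h3'.trans (hN₀ n hn))
    rw [mul_comm] at h6
    exact le_of_mul_le_mul_right h6 hδ0
  have hder : ∀ y ∈ Icc (-1 : ℝ) 1, HasDerivAt (fun y => U m 2 (t, y) - U n 2 (t, y))
      (dY (U m 2) (t, y) - dY (U n 2) (t, y)) y := fun y _ =>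
    ((C.it.sm m 2).hasDerivAt_y ht0 y).sub ((C.it.sm n 2).hasDerivAt_y ht0 y)
  have hbd : ∀ y ∈ Icc (-1 : ℝ) 1, |dY (U m 2) (t, y) - dY (U n 2) (t, y)| ≤ L := by
    intro y hy
    have a1 : hw0 y * |dY (U m 2) (t, y)| ≤ K₁ := hK₁ m t ⟨h1.le, ht.2⟩ y hy
    have a2 : hw0 y * |dY (U n 2) (t, y)| ≤ K₁ := hK₁ n t ⟨h1.le, ht.2⟩ y hy
    unfold hw0 at a1 a2
    rw [one_mul] at a1 a2
    have a3 : K₁ ≤ |K₁| := le_abs_self _
    have a4 := abs_sub (dY (U m 2) (t, y)) (dY (U n 2) (t, y))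
    rw [hL]
    linarith
  have hfin := hi_L_ends hδ0 hδ1 hder hbd hmid x hx
  linarith

/-- **L1.** -/
theorem hi_L_uc (C : HiCtx q g Γ κ S ε τs Δ N Ac U β) (h₂ : s₂ < 0)
    (hB : HiW hw0 (tOf τs) s₂ 0 1 (fun k => U k 2)) (j : Fin 3) : HiLC (tOf τs) s₂ (fun k => U k j) := by
  by_cases hj : j = 2
  · subst hj
    exact hi_L_uc2 C h₂ hB
  · exact hi_L_uc01 C h₂ hj

end Claimed.Agent.R324.Core
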