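/-
Row 324, module HI, PART L, file LConv: if `F_k → F'` with all derivatives, uniformly on `[s₁,s₂] × [-1,1]` (`HiLO (F_k - F')`), then `L̃ F_k → L̃ F'` in the same sense,
and the energies `En`, `Di` (weights `wL a M`) converge uniformly on `[s₁,s₂]`.
Model: R325/Core/HI/Conv.lean (pack R325/Pk56.lean).      Tools: HI/LO.lean, CL/Gron.lean (`cl_II_integrable`), CL/Wt.lean (`cl_wL_contOn`, `cl_n2_sm`).
-/
import Claimed.Agent.R324.Core.HI.LO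
import Claimed.Agent.R324.Core.CL.Wt

set_option autoImplicit false

namespace Claimed.Agent.R324.Core

open Set Filter Topology MeasureTheory
open scoped ContDiff

variable {q : ℝ} {g : Bg} {s₁ s₂ : ℝ} {F : ℕ → Tri} {F' : Tri} {𝓕 : ℕ → Fn} {f : Fn}

/-! ### the operator `L̃` -/

/-- `L̃` preserves the null sequences. -/
theorem hi_L_Lt_null (hq : 1 < q) (hg : BgSm g) (h₂ : s₂ < 0) (hF : ∀ k, SmTri (F k))
    (h : ∀ j, HiLO s₁ s₂ (fun k => F k j)) (j : Fin 3) : HiLO s₁ s₂ (fun k => Lt q g (F k) j) := by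
  have hR : BgSm (bgR q g) := bgR_sm hq hg
  have hA : Sm (fun p => (bgR q g).Z p * Xf p.2) := hR.smZ.mul sm_Xf
  have hB : Sm (fun p => -(dimJ q j) * p.2 * (bgR q g).Z p + Xf p.2 * (bgR q g).w1 p) :=
    Sm.add (((sm_const (-(dimJ q j))).mul sm_snd).mul hR.smZ) (sm_Xf.mul hR.smw1)
  have hC : ∀ k, Sm (fun p => facJ j k p.2 * (bgR q g).cf q j k p) := fun k =>
    (smu_a_facJ j k).mul (hR.smcf q j k)
  have s1 : ∀ k, Sm (dY (F k j)) := fun k => (hF k j).dY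
  have s2 : ∀ k, Sm (dY (dY (F k j))) := fun k => (hF k j).dY.dY
  have o1 : HiLO s₁ s₂ (fun k => dY (F k j)) := HiLO.dY h₂ (fun k => hF k j) (h j)
  have o2 : HiLO s₁ s₂ (fun k => dY (dY (F k j))) := HiLO.dY h₂ s1 o1
  have a2 := HiLO.fix_mul h₂ hA s2 o2
  have a1 := HiLO.fix_mul h₂ hB s1 o1
  have a0 := hiLO_sum (s₁ := s₁) h₂ (Finset.univ : Finset (Fin 3))
    (𝓗 := fun k n p => facJ j k p.2 * (bgR q g).cf q j k p * F n k p)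
    (fun k _ n => (hC k).mul (hF n k)) (fun k _ => HiLO.fix_mul h₂ (hC k) (fun n => hF n k) (h k))
  exact HiLO.add h₂ (fun n => (hA.mul (s2 n)).add (hB.mul (s1 n)))
    (fun n => sm_sum Finset.univ (fun k _ => (hC k).mul (hF n k)))
    (HiLO.add h₂ (fun n => hA.mul (s2 n)) (fun n => hB.mul (s1 n)) a2 a1) a0

/-- linearity of `L̃`. -/
theorem hi_L_Lt_sub {U V : Tri} (hU : SmTri U) (hV : SmTri V) (j : Fin 3) {t : ℝ} (ht : t < 0) (y : ℝ) :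
    Lt q g (fun c p => U c p - V c p) j (t, y) = Lt q g U j (t, y) - Lt q g V j (t, y) := by
  have d1 : dY (fun p => U j p - V j p) (t, y) = dY (U j) (t, y) - dY (V j) (t, y) :=
    dY_sub (hU j) (hV j) ht y
  have d2 : dY (dY (fun p => U j p - V j p)) (t, y) = dY (dY (U j)) (t, y) - dY (dY (V j)) (t, y) :=
    e2Pd_sub (T := 0) (hU j) (hV j) 0 2 t ht y
  unfold Lt Lop
  simp only [d1, d2]
  have e : ∀ k : Fin 3, facJ j k y * (bgR q g).cf q j k (t, y) * (U k (t, y) - V k (t, y))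
      = facJ j k y * (bgR q g).cf q j k (t, y) * U k (t, y)
        - facJ j k y * (bgR q g).cf q j k (t, y) * V k (t, y) := fun k => by ring
  simp only [e, Finset.sum_sub_distrib]
  ring

theorem hi_L_conv_Lt (hq : 1 < q) (hg : BgSm g) (h₂ : s₂ < 0) (hF : ∀ k, SmTri (F k)) (hF' : SmTri F')
    (h : ∀ j, HiLO s₁ s₂ (fun k p => F k j p - F' j p)) (j : Fin 3) :
    HiLO s₁ s₂ (fun k p => Lt q g (F k) j p - Lt q g F' j p) := by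
  have h1 := hi_L_Lt_null (F := fun k c p => F k c p - F' c p) hq hg h₂
    (fun k c => (hF k c).sub (hF' c)) h j
  exact h1.congr h₂ (fun n t ht y => (hi_L_Lt_sub (hF n) hF' j ht y).symm)

/-! ### uniform convergence of `tt` -/

theorem hi_L_ttF (h₂ : s₂ < 0) (hf : ∀ n, Sm (𝓕 n)) (hg : Sm f) (h : HiLO s₁ s₂ (fun n p => 𝓕 n p - f p)) :
    HiLT s₁ s₂ (fun n => ttF (𝓕 n)) (ttF f) := by
  have h1 : HiLT s₁ s₂ (fun n => dY (𝓕 n)) (dY f) := h.tendsU h₂ hf hg 0 1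
  exact HiLT.fix_mul (g := fun p => -(Xf p.2)) (sm_Xf.neg.hiLB h₂) h1 (hg.dY.hiLB h₂)

/-- `c₀ A² + c₁ B² + c₂ C²`. -/
theorem hi_L_quad3 (c₀ c₁ c₂ : ℝ) {A B C : ℕ → Fn} {A' B' C' : Fn} (hA : HiLT s₁ s₂ A A') (hB : HiLT s₁ s₂ B B')
    (hC : HiLT s₁ s₂ C C') (bA : HiLB s₁ s₂ A') (bB : HiLB s₁ s₂ B') (bC : HiLB s₁ s₂ C') :
    HiLT s₁ s₂ (fun n p => c₀ * (A n p) ^ 2 + c₁ * (B n p) ^ 2 + c₂ * (C n p) ^ 2)
      (fun p => c₀ * (A' p) ^ 2 + c₁ * (B' p) ^ 2 + c₂ * (C' p) ^ 2) :=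
  (((hA.sq bA).const_mul c₀).add ((hB.sq bB).const_mul c₁)).add ((hC.sq bC).const_mul c₂)

/-- `X F_k 2 → X F' 2` with all derivatives. -/
theorem hi_L_X2 (h₂ : s₂ < 0) (hF : ∀ k, SmTri (F k)) (hF' : SmTri F')
    (h : ∀ j, HiLO s₁ s₂ (fun k p => F k j p - F' j p)) :
    HiLO s₁ s₂ (fun k p => (1 - p.2 ^ 2) * F k 2 p - (1 - p.2 ^ 2) * F' 2 p) := by
  have hX : Sm (fun p => 1 - p.2 ^ 2) := (sm_const 1).sub (sm_snd.pow 2)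
  exact (HiLO.fix_mul h₂ hX (fun k => (hF k 2).sub (hF' 2)) (h 2)).congr h₂ (fun n t _ y => by ring)

theorem hi_L_n2 (q : ℝ) (h₂ : s₂ < 0) (hF : ∀ k, SmTri (F k)) (hF' : SmTri F')
    (h : ∀ j, HiLO s₁ s₂ (fun k p => F k j p - F' j p)) :
    HiLT s₁ s₂ (fun k p => n2 q (slT (F k) p.1) p.2) (fun p => n2 q (slT F' p.1) p.2) := by
  have hX : Sm (fun p => 1 - p.2 ^ 2) := (sm_const 1).sub (sm_snd.pow 2)
  exact hi_L_quad3 (q + 1) 2 (q / (q + 1))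
    ((h 0).tendsU h₂ (fun k => hF k 0) (hF' 0) 0 0) ((h 1).tendsU h₂ (fun k => hF k 1) (hF' 1) 0 0)
    ((hi_L_X2 h₂ hF hF' h).tendsU h₂ (fun k => hX.mul (hF k 2)) (hX.mul (hF' 2)) 0 0)
    ((hF' 0).hiLB h₂) ((hF' 1).hiLB h₂) ((hX.mul (hF' 2)).hiLB h₂)

theorem hi_L_n2t (q : ℝ) (h₂ : s₂ < 0) (hF : ∀ k, SmTri (F k)) (hF' : SmTri F')
    (h : ∀ j, HiLO s₁ s₂ (fun k p => F k j p - F' j p)) :
    HiLT s₁ s₂ (fun k p => n2t q (slT (F k) p.1) p.2) (fun p => n2t q (slT F' p.1) p.2) := by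
  have hX : Sm (fun p => 1 - p.2 ^ 2) := (sm_const 1).sub (sm_snd.pow 2)
  exact hi_L_quad3 (q + 1) 2 (q / (q + 1))
    (hi_L_ttF h₂ (fun k => hF k 0) (hF' 0) (h 0)) (hi_L_ttF h₂ (fun k => hF k 1) (hF' 1) (h 1))
    (hi_L_ttF h₂ (fun k => hX.mul (hF k 2)) (hX.mul (hF' 2)) (hi_L_X2 h₂ hF hF' h))
    ((hF' 0).ttF.hiLB h₂) ((hF' 1).ttF.hiLB h₂) ((hX.mul (hF' 2)).ttF.hiLB h₂)

/-! ### the integral `𝕀` -/

/-- `|𝕀 φ - 𝕀 ψ| ≤ π sup |φ - ψ|`. -/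
theorem hi_L_II_close {φ ψ : ℝ → ℝ} (hφ : ContinuousOn φ (Icc (-1 : ℝ) 1)) (hψ : ContinuousOn ψ (Icc (-1 : ℝ) 1))
    {e : ℝ} (h : ∀ y ∈ Icc (-1 : ℝ) 1, |φ y - ψ y| ≤ e) : |II φ - II ψ| ≤ Real.pi * e := by
  unfold II
  rw [← intervalIntegral.integral_sub (cl_II_integrable hφ) (cl_II_integrable hψ)]
  have h1 := intervalIntegral.norm_integral_le_of_norm_le_const (a := (0 : ℝ)) (b := Real.pi)
    (f := fun ϑ => φ (Real.cos ϑ) - ψ (Real.cos ϑ)) (C := e) (fun ϑ _ => by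
      rw [Real.norm_eq_abs]
      exact h _ (Real.cos_mem_Icc ϑ))
  rw [Real.norm_eq_abs, sub_zero, abs_of_pos Real.pi_pos] at h1
  linarith

/-- uniform convergence of the integrands gives uniform convergence of the integrals. -/
theorem hi_L_II_conv (h₂ : s₂ < 0) {P : ℕ → Fn} {P' : Fn}
    (hP : ∀ k, ContinuousOn (P k) (Iio (0 : ℝ) ×ˢ Icc (-1 : ℝ) 1))
    (hP' : ContinuousOn P' (Iio (0 : ℝ) ×ˢ Icc (-1 : ℝ) 1)) (h : HiLT s₁ s₂ P P') :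
    ∀ e > 0, ∃ N₀ : ℕ, ∀ k ≥ N₀, ∀ t ∈ Icc s₁ s₂, |II (sl (P k) t) - II (sl P' t)| ≤ e := by
  intro e he
  obtain ⟨N₀, hN⟩ := h (e / Real.pi) (div_pos he Real.pi_pos)
  refine ⟨N₀, fun k hk t ht => ?_⟩
  have ht0 : t < 0 := ht.2.trans_lt h₂
  have hs : ∀ {G : Fn}, ContinuousOn G (Iio (0 : ℝ) ×ˢ Icc (-1 : ℝ) 1) → ContinuousOn (sl G t) (Icc (-1 : ℝ) 1) :=
    fun {G} hG => hG.comp (Continuous.prodMk_right t).continuousOn (fun y hy => ⟨ht0, hy⟩)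
  have h1 := hi_L_II_close (hs (hP k)) (hs hP') (fun y hy => hN k hk t ht y hy)
  have h2 : Real.pi * (e / Real.pi) = e := by
    field_simp
  linarith

/-! ### the energies -/

theorem hi_L_conv_En (a M : ℕ) (q Γ : ℝ) (h₂ : s₂ < 0) (hF : ∀ k, SmTri (F k)) (hF' : SmTri F')
    (h : ∀ j, HiLO s₁ s₂ (fun k p => F k j p - F' j p)) :
    ∀ e > 0, ∃ N₀ : ℕ, ∀ k ≥ N₀, ∀ t ∈ Icc s₁ s₂,
      |En q (wL a M q Γ t) (slT (F k) t) - En q (wL a M q Γ t) (slT F' t)| ≤ e := by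
  have hw := cl_wL_contOn a M q Γ
  have hsub : (Iio (0 : ℝ) ×ˢ Icc (-1 : ℝ) 1) ⊆ (Iio (0 : ℝ) ×ˢ (univ : Set ℝ)) :=
    Set.prod_mono_right (Set.subset_univ _)
  have hc : ContinuousOn (fun p : ℝ × ℝ => (1 - p.2 ^ 2) * wL a M q Γ p.1 p.2) (Iio (0 : ℝ) ×ˢ Icc (-1 : ℝ) 1) :=
    ((continuous_const.sub (continuous_snd.pow 2)).continuousOn).mul hw
  have hn : ∀ {G : Tri}, SmTri G → ContinuousOn (fun p : ℝ × ℝ => (1 - p.2 ^ 2) * wL a M q Γ p.1 p.2 *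
      n2 q (slT G p.1) p.2) (Iio (0 : ℝ) ×ˢ Icc (-1 : ℝ) 1) := fun {G} hG =>
    hc.mul ((cl_n2_sm q hG).1.continuousOn.mono hsub)
  exact hi_L_II_conv h₂ (fun k => hn (hF k)) (hn hF')
    (HiLT.fix_mul (hiLB_of_contOn h₂ hc) (hi_L_n2 q h₂ hF hF' h) ((cl_n2_sm q hF').1.hiLB h₂))

theorem hi_L_conv_Di (a M : ℕ) (q Γ : ℝ) (h₂ : s₂ < 0) (hF : ∀ k, SmTri (F k)) (hF' : SmTri F')
    (h : ∀ j, HiLO s₁ s₂ (fun k p => F k j p - F' j p)) :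
    ∀ e > 0, ∃ N₀ : ℕ, ∀ k ≥ N₀, ∀ t ∈ Icc s₁ s₂,
      |Di q (wL a M q Γ t) (slT (F k) t) - Di q (wL a M q Γ t) (slT F' t)| ≤ e := by
  have hw := cl_wL_contOn a M q Γ
  have hsub : (Iio (0 : ℝ) ×ˢ Icc (-1 : ℝ) 1) ⊆ (Iio (0 : ℝ) ×ˢ (univ : Set ℝ)) :=
    Set.prod_mono_right (Set.subset_univ _)
  have hn : ∀ {G : Tri}, SmTri G → ContinuousOn (fun p : ℝ × ℝ => wL a M q Γ p.1 p.2 *
      (n2t q (slT G p.1) p.2 + q * n2 q (slT G p.1) p.2)) (Iio (0 : ℝ) ×ˢ Icc (-1 : ℝ) 1) := fun {G} hG =>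
    hw.mul (((cl_n2_sm q hG).2.continuousOn.mono hsub).add
      (continuousOn_const.mul ((cl_n2_sm q hG).1.continuousOn.mono hsub)))
  exact hi_L_II_conv h₂ (fun k => hn (hF k)) (hn hF')
    (HiLT.fix_mul (hiLB_of_contOn h₂ hw)
      ((hi_L_n2t q h₂ hF hF' h).add ((hi_L_n2 q h₂ hF hF' h).const_mul q))
      (((cl_n2_sm q hF').2.add ((cl_n2_sm q hF').1.const_mul q)).hiLB h₂))

end Claimed.Agent.R324.Core
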