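/-
Row 324, module HI, PART L, file LXB (L4): the bound `XB` passes to the limit.
Model: R325/Core/HI/Final.lean (pack R325/Pk61.lean).      `E0 = En (wL 2 30)`, `E1 = En (wL 4 30) ∘ L̃`, `D0 = Di (wL 2 30)`, `D1 = Di (wL 4 30) ∘ L̃`.
-/
import Claimed.Agent.R324.Core.HI.LConv

set_option autoImplicit false

namespace Claimed.Agent.R324.Core

open Set Filter Topology MeasureTheory
open scoped ContDiff

variable {q : ℝ} {g : Bg} {Γ : ℝ} {κ : HiC} {S : HNSt} {ε τs Δ : ℝ} {N : ℕ} {Ac : Fin N → Tri}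
  {U : ℕ → Tri} {β : ℕ → ℝ → EuclideanSpace ℝ (Fin N)} {W : Tri}

/-- a limit of numbers `≤ R` is `≤ R`. -/
theorem hi_L_le {E : ℕ → ℝ} {E' R : ℝ} (hb : ∀ k, E k ≤ R)
    (hconv : ∀ e > 0, ∃ N₀ : ℕ, ∀ k ≥ N₀, |E k - E'| ≤ e) : E' ≤ R := by
  refine le_of_forall_pos_le_add (fun e he => ?_)
  obtain ⟨N₀, hN⟩ := hconv e he
  have h1 := (abs_le.1 (hN N₀ le_rfl)).1
  have h2 := hb N₀
  linarith

/-- uniform limits of nonnegative continuous densities: the bound of the integral passes to the limit (on a smaller interval). -/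
theorem hi_L_int_le {D : ℕ → ℝ → ℝ} {D' : ℝ → ℝ} {ts t₀ t R : ℝ} (h0 : ts ≤ t₀) (h1 : t₀ < t)
    (h2 : t < 0) (hc : ∀ k, ContinuousOn (D k) (Iio 0)) (hc' : ContinuousOn D' (Iio 0))
    (hn : ∀ k, ∀ s < 0, 0 ≤ D k s) (hb : ∀ k, ∫ s in ts..t, D k s ≤ R)
    (hconv : ∀ e > 0, ∃ N₀ : ℕ, ∀ k ≥ N₀, ∀ s ∈ Icc t₀ t, |D k s - D' s| ≤ e) :
    ∫ s in t₀..t, D' s ≤ R := by
  have hii : ∀ {f : ℝ → ℝ}, ContinuousOn f (Iio 0) → ∀ a b : ℝ, a ≤ b → b < 0 →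
      IntervalIntegrable f volume a b := by
    intro f hf a b hab hb0
    refine (hf.mono ?_).intervalIntegrable
    rw [uIcc_of_le hab]
    exact fun s hs => lt_of_le_of_lt hs.2 hb0
  refine le_of_forall_pos_le_add (fun e he => ?_)
  have hpos : 0 < t - t₀ := sub_pos.2 h1
  obtain ⟨N₀, hN⟩ := hconv (e / (t - t₀)) (div_pos he hpos)
  have a1 : ∫ s in t₀..t, D' s ≤ ∫ s in t₀..t, (D N₀ s + e / (t - t₀)) := by
    refine intervalIntegral.integral_mono_on h1.le (hii hc' _ _ h1.le h2)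
      ((hii (hc N₀) _ _ h1.le h2).add intervalIntegrable_const) (fun s hs => ?_)
    have := (abs_le.1 (hN N₀ le_rfl s hs)).1
    linarith
  have a2 : ∫ s in t₀..t, (D N₀ s + e / (t - t₀)) = (∫ s in t₀..t, D N₀ s) + e := by
    rw [intervalIntegral.integral_add (hii (hc N₀) _ _ h1.le h2) intervalIntegrable_const,
      intervalIntegral.integral_const, smul_eq_mul, mul_div_cancel₀ _ hpos.ne']
  have a3 : (∫ s in ts..t₀, D N₀ s) + ∫ s in t₀..t, D N₀ s = ∫ s in ts..t, D N₀ s :=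
    intervalIntegral.integral_add_adjacent_intervals (hii (hc N₀) _ _ h0 (h1.trans h2))
      (hii (hc N₀) _ _ h1.le h2)
  have a4 : 0 ≤ ∫ s in ts..t₀, D N₀ s :=
    intervalIntegral.integral_nonneg h0 (fun s hs => hn N₀ s (lt_of_le_of_lt hs.2 (h1.trans h2)))
  have a5 := hb N₀
  linarith

/-- **L4.** -/
theorem hi_L_XB (C : HiCtx q g Γ κ S ε τs Δ N Ac U β) (hW : SmTri W)
    (hO : ∀ j, ∀ s₁ s₂ : ℝ, tOf τs < s₁ → s₂ < 0 → HiLO s₁ s₂ (fun k p => U k j p - W j p)) :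
    XB q g Γ (tOf (τs + Δ + 1)) ε W := by
  have h0 : tOf τs < tOf (τs + Δ + 1) := hi_L_tOf_lt (by linarith [C.hΔ])
  have hq := C.hq
  have hg : BgSm g := C.hg.sm
  have hsm : ∀ k, SmTri (U k) := fun k => C.it.sm k
  have hL : ∀ k, SmTri (Lt q g (U k)) := fun k j => sm_Lt hq hg (hsm k) j
  have hLW : SmTri (Lt q g W) := fun j => sm_Lt hq hg hW j
  refine ⟨fun t ht => ?_, fun t ht => ?_, fun t ht => ?_, fun t ht => ?_⟩
  · have hts : tOf τs < t := h0.trans ht.1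
    refine hi_L_le (E := fun k => E0 q Γ (U k) t) (fun k => (C.it.xb k).e0 t ⟨hts, ht.2⟩) ?_
    intro e he
    obtain ⟨N₀, hN⟩ := hi_L_conv_En 2 30 q Γ ht.2 hsm hW (fun j => hO j t t hts ht.2) e he
    exact ⟨N₀, fun k hk => hN k hk t ⟨le_rfl, le_rfl⟩⟩
  · have hts : tOf τs < t := h0.trans ht.1
    refine hi_L_le (E := fun k => E1 q g Γ (U k) t) (fun k => (C.it.xb k).e1 t ⟨hts, ht.2⟩) ?_
    intro e he
    obtain ⟨N₀, hN⟩ := hi_L_conv_En 4 30 q Γ ht.2 hL hLW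
      (hi_L_conv_Lt hq hg ht.2 hsm hW (fun j => hO j t t hts ht.2)) e he
    exact ⟨N₀, fun k hk => hN k hk t ⟨le_rfl, le_rfl⟩⟩
  · have hts : tOf τs < t := h0.trans ht.1
    exact hi_L_int_le (D := fun k => D0 q Γ (U k)) h0.le ht.1 ht.2
      (fun k => (cl_Di_contOn 2 30 q Γ (hsm k)).1) (cl_Di_contOn 2 30 q Γ hW).1
      (fun k s hs => (cl_Di_nonneg 2 30 hq C.hΓ hs _).1)
      (fun k => (C.it.xb k).d0 t ⟨hts, ht.2⟩)
      (hi_L_conv_Di 2 30 q Γ ht.2 hsm hW (fun j => hO j _ t h0 ht.2))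
  · have hts : tOf τs < t := h0.trans ht.1
    exact hi_L_int_le (D := fun k => D1 q g Γ (U k)) h0.le ht.1 ht.2
      (fun k => (cl_Di_contOn 4 30 q Γ (hL k)).1) (cl_Di_contOn 4 30 q Γ hLW).1
      (fun k s hs => (cl_Di_nonneg 4 30 hq C.hΓ hs _).1)
      (fun k => (C.it.xb k).d1 t ⟨hts, ht.2⟩)
      (hi_L_conv_Di 4 30 q Γ ht.2 hL hLW (hi_L_conv_Lt hq hg ht.2 hsm hW (fun j => hO j _ t h0 ht.2)))

end Claimed.Agent.R324.Core
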