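/-
Row 324, module HI, PART S, file SCls: the BUNDLED classes   `HisW w s₁ s₂ r 𝓕 := (∀ k, Sm (𝓕 k)) ∧ ∀ I, HiW w s₁ s₂ I r 𝓕`
(smooth families all of whose derivatives `∂_y^j ∂_t^i`, `j ≤ r`, ALL `i`, are bounded with the weight `w` on `[s₁,s₂] × [-1,1]`, uniformly in `k`).       Sub-architect: helper898.
   `𝔅_r = HisW hw0 · · r`,   `𝔔 = HisW hwQ · · 0`,   `ℌ = HisW hwH · · 0`      (design: origin/helper402:docs/R324_HI.md, part S).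
Everything is a one-liner from HI/W.lean.
-/
import Claimed.Agent.R324.Core.HI.W
import Claimed.Agent.R324.Core.HI.Gen

set_option autoImplicit false

namespace Claimed.Agent.R324.Core

open Set Filter Topology MeasureTheory
open scoped ContDiff

/-- the bundled classes of part S. -/
def HisW (w : ℝ → ℝ) (s₁ s₂ : ℝ) (r : ℕ) (𝓕 : ℕ → Fn) : Prop :=
  (∀ k, Sm (𝓕 k)) ∧ ∀ I, HiW w s₁ s₂ I r 𝓕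

/-- hygiene. -/
theorem his_cls_hygiene : True := by
  have := @HisW.eq_1
  trivial

variable {w w' w₁ w₂ : ℝ → ℝ} {s₁ s₂ : ℝ} {r r' : ℕ} {𝓕 𝓖 : ℕ → Fn} {g : Fn}

theorem HisW.sm (h : HisW w s₁ s₂ r 𝓕) (k : ℕ) : Sm (𝓕 k) := h.1 k

theorem HisW.mono (h : HisW w s₁ s₂ r 𝓕) (hr : r' ≤ r) : HisW w s₁ s₂ r' 𝓕 :=
  ⟨h.1, fun I => (h.2 I).mono le_rfl hr⟩

theorem HisW.shift (h : HisW w s₁ s₂ r 𝓕) : HisW w s₁ s₂ r (fun k => 𝓕 (k + 1)) :=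
  ⟨fun k => h.1 (k + 1), fun I => (h.2 I).shift⟩

theorem HisW.congr (h₂ : s₂ < 0) (h : HisW w s₁ s₂ r 𝓕) (hg : ∀ k, Sm (𝓖 k)) (e : ∀ k, HiEq (𝓖 k) (𝓕 k)) :
    HisW w s₁ s₂ r 𝓖 :=
  ⟨hg, fun I => HiW.congr h₂ h.1 hg (h.2 I) e⟩

/-- congruence for families which agree for `t < 0` and ALL `y` (smoothness is inherited). -/
theorem HisW.congr' (h₂ : s₂ < 0) (h : HisW w s₁ s₂ r 𝓕) (e : ∀ k, ∀ t < 0, ∀ y : ℝ, 𝓖 k (t, y) = 𝓕 k (t, y)) :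
    HisW w s₁ s₂ r 𝓖 :=
  h.congr h₂ (fun k => (h.1 k).congr (e k)) (fun k => hi_eq_of_all (e k))

theorem HisW.weight (h : HisW w s₁ s₂ r 𝓕) (hle : ∀ y ∈ Icc (-1 : ℝ) 1, w' y ≤ w y) : HisW w' s₁ s₂ r 𝓕 :=
  ⟨h.1, fun I => (h.2 I).weight hle⟩

/-- `𝔅 ⊆` every weighted class. -/
theorem HisW.of0 (hw : HwOK w) (h : HisW hw0 s₁ s₂ r 𝓕) : HisW w s₁ s₂ r 𝓕 :=
  h.weight fun y hy => (hw y hy).2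

/-- `𝔔 ⊆ ℌ`. -/
theorem HisW.QtoH (h : HisW hwQ s₁ s₂ r 𝓕) : HisW hwH s₁ s₂ r 𝓕 :=
  h.weight fun _ hy => hwH_le_hwQ hy

theorem hisW_const (hw : HwOK w) (h₂ : s₂ < 0) (hg : Sm g) (s₁ : ℝ) (r : ℕ) : HisW w s₁ s₂ r (fun _ => g) :=
  ⟨fun _ => hg, fun I => hiW_const hw h₂ hg s₁ I r⟩

theorem HisW.dT (h : HisW w s₁ s₂ r 𝓕) : HisW w s₁ s₂ r (fun k => dT (𝓕 k)) :=
  ⟨fun k => (h.1 k).dT, fun I => (h.2 (I + 1)).dT⟩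

theorem HisW.dY (h₂ : s₂ < 0) (h : HisW w s₁ s₂ (r + 1) 𝓕) : HisW w s₁ s₂ r (fun k => dY (𝓕 k)) :=
  ⟨fun k => (h.1 k).dY, fun I => (h.2 I).dY h₂ h.1⟩

theorem hisW_of_dY (h₂ : s₂ < 0) (h0 : HisW w s₁ s₂ 0 𝓕) (h : HisW w s₁ s₂ r (fun k => dY (𝓕 k))) :
    HisW w s₁ s₂ (r + 1) 𝓕 :=
  ⟨h0.1, fun I => hiW_of_dY h₂ h0.1 (h0.2 I) (h.2 I)⟩

theorem HisW.add (hw : HwOK w) (h₂ : s₂ < 0) (h : HisW w s₁ s₂ r 𝓕) (h' : HisW w s₁ s₂ r 𝓖) :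
    HisW w s₁ s₂ r (fun k p => 𝓕 k p + 𝓖 k p) :=
  ⟨fun k => (h.1 k).add (h'.1 k), fun I => HiW.add hw h₂ h.1 h'.1 (h.2 I) (h'.2 I)⟩

theorem HisW.neg (h₂ : s₂ < 0) (h : HisW w s₁ s₂ r 𝓕) : HisW w s₁ s₂ r (fun k p => -𝓕 k p) :=
  ⟨fun k => (h.1 k).neg, fun I => HiW.neg h₂ h.1 (h.2 I)⟩

theorem HisW.sub (hw : HwOK w) (h₂ : s₂ < 0) (h : HisW w s₁ s₂ r 𝓕) (h' : HisW w s₁ s₂ r 𝓖) :
    HisW w s₁ s₂ r (fun k p => 𝓕 k p - 𝓖 k p) :=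
  ⟨fun k => (h.1 k).sub (h'.1 k), fun I => HiW.sub hw h₂ h.1 h'.1 (h.2 I) (h'.2 I)⟩

theorem hisW_sum (hw : HwOK w) (h₂ : s₂ < 0) {ι : Type} (s : Finset ι) {𝓗 : ι → ℕ → Fn}
    (h : ∀ a ∈ s, HisW w s₁ s₂ r (𝓗 a)) : HisW w s₁ s₂ r (fun k p => ∑ a ∈ s, 𝓗 a k p) :=
  ⟨fun k => sm_sum s fun a ha => (h a ha).1 k,
    fun I => hiW_sum hw h₂ s (fun a ha => (h a ha).1) fun a ha => (h a ha).2 I⟩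

/-- products: the weights multiply. -/
theorem HisW.mul (hw₁ : HwOK w₁) (hw₂ : HwOK w₂) (h₂ : s₂ < 0) (h : HisW w₁ s₁ s₂ r 𝓕) (h' : HisW w₂ s₁ s₂ r 𝓖) :
    HisW (fun y => w₁ y * w₂ y) s₁ s₂ r (fun k p => 𝓕 k p * 𝓖 k p) :=
  ⟨fun k => (h.1 k).mul (h'.1 k), fun I => HiW.mul hw₁ hw₂ h₂ h.1 h'.1 (h.2 I) (h'.2 I)⟩

/-- bounded times weighted. -/
theorem HisW.mul0 (hw : HwOK w) (h₂ : s₂ < 0) (h : HisW hw0 s₁ s₂ r 𝓕) (h' : HisW w s₁ s₂ r 𝓖) :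
    HisW w s₁ s₂ r (fun k p => 𝓕 k p * 𝓖 k p) :=
  ⟨fun k => (h.1 k).mul (h'.1 k), fun I => HiW.mul0 hw h₂ h.1 h'.1 (h.2 I) (h'.2 I)⟩

/-- a fixed smooth function times a family. -/
theorem HisW.cmul (hw : HwOK w) (h₂ : s₂ < 0) (hg : Sm g) (h : HisW w s₁ s₂ r 𝓕) :
    HisW w s₁ s₂ r (fun k p => g p * 𝓕 k p) :=
  (hisW_const hwOK_0 h₂ hg s₁ r).mul0 hw h₂ h

/-- `𝔔 · 𝔔 ⊆ ℌ`. -/
theorem HisW.mulQQ (h₂ : s₂ < 0) (h : HisW hwQ s₁ s₂ r 𝓕) (h' : HisW hwQ s₁ s₂ r 𝓖) :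
    HisW hwH s₁ s₂ r (fun k p => 𝓕 k p * 𝓖 k p) :=
  ⟨fun k => (h.1 k).mul (h'.1 k), fun I => HiW.mulQQ h₂ h.1 h'.1 (h.2 I) (h'.2 I)⟩

/-- `X ℌ ⊆ 𝔅₀`. -/
theorem HisW.X_mul (h₂ : s₂ < 0) (h : HisW hwH s₁ s₂ 0 𝓕) : HisW hw0 s₁ s₂ 0 (fun k p => Xf p.2 * 𝓕 k p) :=
  ⟨fun k => sm_Xf.mul (h.1 k), fun I => HiW.X_mul h₂ h.1 (h.2 I)⟩

/-- the bound of order `(0,0)`. -/
theorem HisW.bound0 (h : HisW w s₁ s₂ r 𝓕) : ∃ C : ℝ, 0 ≤ C ∧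
    ∀ k : ℕ, ∀ t ∈ Icc s₁ s₂, ∀ y ∈ Icc (-1 : ℝ) 1, w y * |𝓕 k (t, y)| ≤ C :=
  (h.2 0).bound (le_refl 0) (Nat.zero_le r)

end Claimed.Agent.R324.Core
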