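/-
Row 324, module HI, PART S, file SIn: the INPUT of part S.       Sub-architect: helper898.       Design: origin/helper402:docs/R324_HI.md, part S (S5).
   (K1) `his_u`, `his_ttu`:  `u_b = uT (U k) b` and `tt u_b` are in `𝔅₀`      (`hi_energy` + `HiX.u_B`);
   (K2) `his_pp`:            the jets `π_c = hpp 1 (U k) c` are in `𝔔`  (weight `X^{1/4}`)      (`hi_energy` + `HiX.pp_P` + the trace inequality in space and time `his_trace`);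
   (K3) `his_small`:         `|θ mm_k| ≤ 1/4`;
   the control term: `his_Sb` (HI/Beta.lean);      `his_lip`:  `√X |f'| ≤ C` and `|X f| ≤ C`  ⇒  `|f| ≤ C'`.
Classes: HI/SCls.lean (`HisW`), HI/W.lean (`HiW`), HI/ClsA.lean (`HiA`, `haDen`).
-/
import Claimed.Agent.R324.Core.HI.SCls
import Claimed.Agent.R324.Core.HI.ClsX
import Claimed.Agent.R324.Core.HI.Energy
import Claimed.Agent.R324.Core.HI.Beta
import Claimed.Agent.R324.Core.W.Trace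

set_option autoImplicit false

namespace Claimed.Agent.R324.Core

open Set Filter Topology MeasureTheory
open scoped ContDiff

/-! ### general lemmas -/

section
variable {s₁ s₂ t y : ℝ} {n I : ℕ} {F : ℕ → Fn} {f : Fn}

/-- **trace at a fixed time**:  `√X f² ≤ 2 𝕀[f² + (tt f)²]`.
`w6_trace` (Core/W/Trace.lean) with `om = fun _ => 1` (`smI_const`, `tt_const`), `C₀ = 0`, `k = 0`, `f := sl f t` (`Sm.smI`);  `tt (sl f t) z = ttF f (t,z)` (`tt_sl`, rfl);  then `simp`/`ii_congr`. -/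
theorem his_trace_pt (hf : Sm f) (ht : t < 0) (hy : y ∈ Icc (-1 : ℝ) 1) :
    Real.sqrt (Xf y) * (f (t, y)) ^ 2 ≤ 2 * haDen f t := by
  have h := w6_trace (C₀ := 0) (om := fun _ => (1 : ℝ)) (f := sl f t) (smI_const 1) (hf.smI ht)
    (fun _ _ => zero_le_one) (fun z _ => by rw [tt_const]; simp) 0 hy
  have e : II (fun z => Xf z ^ 0 * (1 : ℝ) * (sl f t z ^ 2 + tt (sl f t) z ^ 2)) = haDen f t := by
    unfold haDen
    refine ii_congr (fun z _ => ?_)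
    rw [tt_sl]
    simp [sl]
  rw [e] at h
  simpa [sl] using h

theorem his_tr_time (hf : Sm f) (hv : HiVan s₁ f) (h₂ : s₂ < 0) (ht : t ∈ Icc s₁ s₂) (hy : y ∈ Icc (-1 : ℝ) 1) :
    Real.sqrt (Xf y) * (f (t, y)) ^ 2
      ≤ 2 * (∫ s in s₁..s₂, haDen f s) + 2 * ∫ s in s₁..s₂, haDen (dT f) s := by
  have h₁₂ : s₁ ≤ s₂ := ht.1.trans ht.2
  have ht0 : t < 0 := lt_of_le_of_lt ht.2 h₂
  have hc : 0 ≤ Real.sqrt (Xf y) := Real.sqrt_nonneg _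
  have hder : ∀ s ∈ uIcc s₁ t, HasDerivAt (fun s => Real.sqrt (Xf y) * (f (s, y)) ^ 2)
      (Real.sqrt (Xf y) * (2 * f (s, y) * dT f (s, y))) s := by
    intro s hs
    rw [uIcc_of_le ht.1] at hs
    have hs0 : s < 0 := lt_of_le_of_lt hs.2 ht0
    have h1 := ((hf.hasDerivAt_t hs0 y).fun_pow 2).const_mul (Real.sqrt (Xf y))
    simpa using h1
  have hcont : ContinuousOn (fun s => Real.sqrt (Xf y) * (2 * f (s, y) * dT f (s, y))) (Iio 0) :=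
    continuousOn_const.mul ((continuousOn_const.mul (hf.slice_t y).continuousOn).mul
      (hf.dT.slice_t y).continuousOn)
  have hFTC := intervalIntegral.integral_eq_sub_of_hasDerivAt hder (hi_intble hcont ht.1 ht0)
  have h0 : f (s₁, y) = 0 := hv s₁ le_rfl y hy
  rw [h0] at hFTC
  have hψc : ContinuousOn (fun s => 2 * haDen f s + 2 * haDen (dT f) s) (Iio 0) :=
    (continuousOn_const.mul (hi_haDen_cont hf)).add (continuousOn_const.mul (hi_haDen_cont hf.dT))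
  have hle : ∫ s in s₁..t, Real.sqrt (Xf y) * (2 * f (s, y) * dT f (s, y))
      ≤ ∫ s in s₁..t, (2 * haDen f s + 2 * haDen (dT f) s) := by
    refine hi_int_mono hcont hψc ht.1 ht0 (fun s hs => ?_)
    have hs0 : s < 0 := lt_of_le_of_lt hs.2 ht0
    have a1 := his_trace_pt hf hs0 hy
    have a2 := his_trace_pt hf.dT hs0 hy
    have a3 : 2 * f (s, y) * dT f (s, y) ≤ (f (s, y)) ^ 2 + (dT f (s, y)) ^ 2 := by
      nlinarith [sq_nonneg (f (s, y) - dT f (s, y))]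
    have a4 := mul_le_mul_of_nonneg_left a3 hc
    linarith
  have hmono : ∫ s in s₁..t, (2 * haDen f s + 2 * haDen (dT f) s)
      ≤ ∫ s in s₁..s₂, (2 * haDen f s + 2 * haDen (dT f) s) := by
    refine intervalIntegral.integral_mono_interval le_rfl ht.1 ht.2 ?_ (hi_intble hψc h₁₂ h₂)
    exact Filter.Eventually.of_forall (fun s => by
      have b1 := hi_haDen_nonneg f s
      have b2 := hi_haDen_nonneg (dT f) s
      show (0 : ℝ) ≤ 2 * haDen f s + 2 * haDen (dT f) s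
      linarith)
  have hsplit : ∫ s in s₁..s₂, (2 * haDen f s + 2 * haDen (dT f) s)
      = 2 * (∫ s in s₁..s₂, haDen f s) + 2 * ∫ s in s₁..s₂, haDen (dT f) s := by
    have i1 : IntervalIntegrable (fun s => 2 * haDen f s) volume s₁ s₂ :=
      hi_intble (continuousOn_const.mul (hi_haDen_cont hf)) h₁₂ h₂
    have i2 : IntervalIntegrable (fun s => 2 * haDen (dT f) s) volume s₁ s₂ :=
      hi_intble (continuousOn_const.mul (hi_haDen_cont hf.dT)) h₁₂ h₂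
    rw [intervalIntegral.integral_add i1 i2, intervalIntegral.integral_const_mul,
      intervalIntegral.integral_const_mul]
  have e : Real.sqrt (Xf y) * (f (t, y)) ^ 2
      = ∫ s in s₁..t, Real.sqrt (Xf y) * (2 * f (s, y) * dT f (s, y)) := by
    rw [hFTC]
    ring
  rw [e, ← hsplit]
  exact hle.trans hmono

/-- **trace in space and time.**    Fix `i ≤ n`, `k`;  `f := dT^[i] (F k)` is `Sm` (`Sm.dT_iter`) and vanishes for `t ≤ s₁` (`hi_dT_iter_van`, `s₁ ≤ s₂ < 0`);  `dT f = dT^[i+1] (F k)` (`Function.iterate_succ_apply'`).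
Fix `y ∈ [-1,1]`, `φ(s) := √X(y) f(s,y)²`:  `φ(s₁) = 0`,  `φ'(s) = 2 √X f ∂_t f ≤ √X f² + √X (∂_t f)² ≤ 2 haDen f s + 2 haDen (dT f) s`  (`Sm.hasDerivAt_t`, `his_trace_pt`).   For `t ∈ [s₁,s₂]`:
   `φ(t) = ∫_{s₁}^t φ' ≤ ∫_{s₁}^t (2 haDen f + 2 haDen (dT f)) ≤ ∫_{s₁}^{s₂} (…) ≤ 2 C_i + 2 C_{i+1} =: K`
(`intervalIntegral.integral_eq_sub_of_hasDerivAt`; continuity of `φ'` on `[s₁,t]`: `Sm.continuousOn`/`Sm.slice_t`;  `hi_haDen_cont`, `hi_haDen_nonneg`, `hi_int_mono`, `hi_intble`, `intervalIntegral.integral_mono_interval`).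
Finally `(hwQ y |f|)² = √X f² ≤ K`  (`hwQ_mul_hwQ`, `hwH`), so `hwQ y |f| ≤ √K`  (`Real.le_sqrt`/`abs_le_of_sq_le_sq`). -/
theorem his_trace (h₁₂ : s₁ ≤ s₂) (h₂ : s₂ < 0) (hF : ∀ k, Sm (F k)) (hv : ∀ k, HiVan s₁ (F k))
    (h : HiA s₁ s₂ (n + 1) F) : HiW hwQ s₁ s₂ n 0 F := by
  intro i hi j hj
  have hj0 : j = 0 := Nat.le_zero.mp hj
  subst hj0
  obtain ⟨C1, hC1⟩ := h i (by omega)
  obtain ⟨C2, hC2⟩ := h (i + 1) (by omega)
  refine ⟨Real.sqrt (2 * C1 + 2 * C2), fun k t ht y hy => ?_⟩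
  show hwQ y * |dT^[i] (F k) (t, y)| ≤ _
  have hf : Sm (dT^[i] (F k)) := (hF k).dT_iter i
  have hs1 : s₁ < 0 := lt_of_le_of_lt h₁₂ h₂
  have hvan : HiVan s₁ (dT^[i] (F k)) := hi_dT_iter_van (hF k) hs1 (hv k) i
  have key := his_tr_time hf hvan h₂ ht hy
  rw [← Function.iterate_succ_apply' dT i (F k)] at key
  have hK : Real.sqrt (Xf y) * (dT^[i] (F k) (t, y)) ^ 2 ≤ 2 * C1 + 2 * C2 := by
    have b1 := hC1 k
    have b2 := hC2 k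
    linarith
  apply Real.le_sqrt_of_sq_le
  have e : (hwQ y * |dT^[i] (F k) (t, y)|) ^ 2 = Real.sqrt (Xf y) * (dT^[i] (F k) (t, y)) ^ 2 := by
    rw [mul_pow, sq_abs, sq (hwQ y), hwQ_mul_hwQ hy]
    rfl
  rw [e]
  exact hK

/-- **from `f' ∈ ℌ` to `f ∈ 𝔅₀`.**    Fix `i ≤ I`, `k`, `t ∈ [s₁,s₂]`;  `f := dT^[i] (F k)`;   `dY f (t,y) = dT^[i] (dY (F k)) (t,y)` (`E2Sm.pdt_iter_pdx` / `E2Sm.pd_pdx` with `j = 0`), so `√X |dY f| ≤ C₁`;
`Xf y * f (t,y) = dT^[i] (fun p => Xf p.2 * F k p) (t,y)` (`hiW_dT_iter_X_mul`), so `|f (t,0)| ≤ C₀` (`Xf 0 = 1`).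
`h(ϑ) := f (t, cos ϑ)`:  `h'(ϑ) = - sin ϑ · dY f (t, cos ϑ)`,  `|h'(ϑ)| = √(Xf (cos ϑ)) |dY f| ≤ C₁` for all real `ϑ` (`|sin ϑ| = √(1 - cos² ϑ)`: `Real.abs_sin_eq_sqrt_one_sub_cos_sq`),
so `|h(ϑ) - h(π/2)| ≤ C₁ |ϑ - π/2|` (`Convex.norm_image_sub_le_of_norm_hasDerivWithin_le` on `univ`, or `norm_image_sub_le_of_norm_deriv_le_segment`);   `y = cos (arccos y)`, `arccos y ∈ [0,π]`, `cos (π/2) = 0`:   `|f (t,y)| ≤ C₀ + C₁ π`. -/
theorem his_lip (h₂ : s₂ < 0) (hF : ∀ k, Sm (F k)) (h : HiW hwH s₁ s₂ I 0 (fun k => dY (F k)))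
    (h0 : HiW hw0 s₁ s₂ I 0 (fun k p => Xf p.2 * F k p)) : HiW hw0 s₁ s₂ I 0 F := by
  intro i hi j hj
  obtain rfl : j = 0 := by omega
  obtain ⟨C₁, hC₁0, hC₁⟩ := h.bound hi (le_refl 0)
  obtain ⟨C₀, _, hC₀⟩ := h0.bound hi (le_refl 0)
  refine ⟨C₀ + C₁ * Real.pi, fun k t ht y hy => ?_⟩
  have ht0 : t < 0 := lt_of_le_of_lt ht.2 h₂
  have hfS : Sm (Core.dT^[i] (F k)) := (hF k).dT_iter i
  show hw0 y * |Core.dT^[i] (F k) (t, y)| ≤ C₀ + C₁ * Real.pi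
  have hd : ∀ z ∈ Icc (-1 : ℝ) 1,
      Real.sqrt (Xf z) * |Core.dY (Core.dT^[i] (F k)) (t, z)| ≤ C₁ := by
    intro z hz
    have h1 : hwH z * |Core.dT^[i] (Core.dY (F k)) (t, z)| ≤ C₁ := hC₁ k t ht z hz
    have e : Core.dT^[i] (Core.dY (F k)) (t, z) = Core.dY (Core.dT^[i] (F k)) (t, z) :=
      (hF k).e2.pdt_iter_pdx i t ht0 z
    rw [e] at h1
    exact h1
  have h00 : |Core.dT^[i] (F k) (t, 0)| ≤ C₀ := by
    have h1 : hw0 0 * |Core.dT^[i] (fun p => Xf p.2 * F k p) (t, 0)| ≤ C₀ :=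
      hC₀ k t ht 0 (by constructor <;> norm_num)
    rw [hiW_dT_iter_X_mul (hF k) i t ht0 0] at h1
    simpa [Xf, hw0] using h1
  have hder : ∀ ϑ : ℝ, HasDerivAt (fun ϑ => Core.dT^[i] (F k) (t, Real.cos ϑ))
      (Core.dY (Core.dT^[i] (F k)) (t, Real.cos ϑ) * (-Real.sin ϑ)) ϑ := fun ϑ =>
    (hfS.hasDerivAt_y ht0 (Real.cos ϑ)).comp ϑ (Real.hasDerivAt_cos ϑ)
  have hbd : ∀ ϑ : ℝ, ‖Core.dY (Core.dT^[i] (F k)) (t, Real.cos ϑ) * (-Real.sin ϑ)‖ ≤ C₁ := by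
    intro ϑ
    rw [Real.norm_eq_abs, abs_mul, abs_neg, Real.abs_sin_eq_sqrt_one_sub_cos_sq, mul_comm]
    exact hd (Real.cos ϑ) (cos_mem_Icc ϑ)
  have hlip := Convex.norm_image_sub_le_of_norm_hasDerivWithin_le
    (f := fun ϑ => Core.dT^[i] (F k) (t, Real.cos ϑ)) (s := univ)
    (fun ϑ _ => (hder ϑ).hasDerivWithinAt) (fun ϑ _ => hbd ϑ) convex_univ
    (mem_univ (Real.pi / 2)) (mem_univ (Real.arccos y))
  simp only [Real.cos_arccos hy.1 hy.2, Real.cos_pi_div_two, Real.norm_eq_abs] at hlip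
  have ha : |Real.arccos y - Real.pi / 2| ≤ Real.pi := by
    rw [abs_le]
    constructor <;> linarith [Real.arccos_nonneg y, Real.arccos_le_pi y, Real.pi_pos]
  have h3 : C₁ * |Real.arccos y - Real.pi / 2| ≤ C₁ * Real.pi := mul_le_mul_of_nonneg_left ha hC₁0
  have h4 : |Core.dT^[i] (F k) (t, y)|
      ≤ |Core.dT^[i] (F k) (t, 0)| + |Core.dT^[i] (F k) (t, y) - Core.dT^[i] (F k) (t, 0)| := by
    have := abs_add_le (Core.dT^[i] (F k) (t, 0))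
      (Core.dT^[i] (F k) (t, y) - Core.dT^[i] (F k) (t, 0))
    simpa using this
  have h5 : hw0 y = 1 := rfl
  rw [h5, one_mul]
  linarith

theorem his_Th_mem (τc : ℝ) (p : ℝ × ℝ) : 0 ≤ hiTh τc p ∧ hiTh τc p ≤ 1 :=
  ⟨Real.smoothTransition.nonneg _, Real.smoothTransition.le_one _⟩

/-- `θ` does not depend on `y`. -/
theorem his_dY_Th_mul (τc : ℝ) (hf : Sm f) (ht : t < 0) (y : ℝ) :
    dY (fun p => hiTh τc p * f p) (t, y) = hiTh τc (t, y) * dY f (t, y) := by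
  have h : HasDerivAt (fun z => hiTh τc (t, z) * f (t, z)) (hiTh τc (t, y) * dY f (t, y)) y :=
    (hf.hasDerivAt_y ht y).const_mul (thetaC τc t)
  exact h.deriv

end

/-! ### the context -/

variable {q : ℝ} {g : Bg} {Γ : ℝ} {κ : HiC} {S : HNSt} {ε τs Δ : ℝ} {N : ℕ} {Ac : Fin N → Tri}
  {U : ℕ → Tri} {β : ℕ → ℝ → EuclideanSpace ℝ (Fin N)} {s₂ : ℝ}

theorem HiCtx.vanU (C : HiCtx q g Γ κ S ε τs Δ N Ac U β) (k : ℕ) (j : Fin 3) : HiVan (tOf τs) (U k j) :=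
  fun t ht y hy => C.it.zero k j t ht y hy

/-- the reference background is smooth. -/
theorem HiCtx.smR (C : HiCtx q g Γ κ S ε τs Δ N Ac U β) : BgSm (bgR q g) := bgR_sm C.hq C.hg.sm

/-- **(K1)**. -/
theorem his_u (C : HiCtx q g Γ κ S ε τs Δ N Ac U β) (h₁₂ : tOf τs ≤ s₂) (h₂ : s₂ < 0) (b : Fin 3) :
    HisW hw0 (tOf τs) s₂ 0 (fun k => uT (U k) b) :=
  ⟨fun k => (C.smU k).uT b, fun I => ((hi_energy C h₁₂ h₂ I).u_B (C.K h₁₂ h₂) C.smU b).1⟩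

/-- **(K1)**. -/
theorem his_ttu (C : HiCtx q g Γ κ S ε τs Δ N Ac U β) (h₁₂ : tOf τs ≤ s₂) (h₂ : s₂ < 0) (b : Fin 3) :
    HisW hw0 (tOf τs) s₂ 0 (fun k => ttF (uT (U k) b)) :=
  ⟨fun k => ((C.smU k).uT b).ttF, fun I => ((hi_energy C h₁₂ h₂ I).u_B (C.K h₁₂ h₂) C.smU b).2⟩

/-- the jets `σ', h₃', b, X b'` vanish for `t ≤ ts`   (`fin_cases c`; `HiCtx.vanU`, `hi_dY_van`, `hi_tOf_neg`; `hpp` is a vector `![..]`: `simp [hpp]`/`show`). -/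
theorem his_pp_van (C : HiCtx q g Γ κ S ε τs Δ N Ac U β) (k : ℕ) (c : Fin 5) (hc : c ≠ 4) :
    HiVan (tOf τs) (hpp 1 (U k) c) := by
  have hts := hi_tOf_neg τs
  have h0 := hi_dY_van (C.smU k 0) hts (C.vanU k 0)
  have h1 := hi_dY_van (C.smU k 1) hts (C.vanU k 1)
  have h2 := hi_dY_van (C.smU k 2) hts (C.vanU k 2)
  fin_cases c
  · exact h0
  · exact h1
  · exact C.vanU k 2
  · intro t ht y hy
    show Xf y * dY (U k 2) (t, y) = 0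
    rw [h2 t ht y hy, mul_zero]
  · exact absurd rfl hc

/-- **(K2)**: the jets are `O(X^{-1/4})` with all their time derivatives. -/
theorem his_pp (C : HiCtx q g Γ κ S ε τs Δ N Ac U β) (h₁₂ : tOf τs ≤ s₂) (h₂ : s₂ < 0) (c : Fin 5) :
    HisW hwQ (tOf τs) s₂ 0 (fun k => hpp 1 (U k) c) := by
  by_cases hc : c = 4
  · subst hc
    exact hisW_const hwOK_Q h₂ (sm_const 1) _ 0
  · exact ⟨fun k => sm_hpp 1 (C.smU k) c, fun I => his_trace h₁₂ h₂ (fun k => sm_hpp 1 (C.smU k) c)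
      (fun k => his_pp_van C k c hc) ((hi_energy C h₁₂ h₂ (I + 1)).pp_P (C.K h₁₂ h₂) C.smU 1 c).1⟩

/-- **(K3)**: `|θ mm_k| ≤ 1/4` on `[ts,s₂] × [-1,1]`.
`0 ≤ θ ≤ 1` (`his_Th_mem`);  `S.M = hmmG q g` (`C.hS.hM`), `hcmp S.M u (t,y) = hmmG q g (t,y) (fun b => u b (t,y))`;  `HiU.mm` (`C.hU.mm`, `t ∈ Ico (-Λ₀) 0`: `HiK.mem`) needs `|u_b (t,y)| ≤ δ₀`:
   `u_b² ≤ 2 Cs hiE (U k) t` (`hi_u_le` with `C.K h₁₂ h₂`), `hiE (U k) t ≤ 2 ε²` (`hi_E_small`, HI/Energy.lean), so `u_b² ≤ 4 Cs ε² ≤ δ₀²` (`C.hεδ`, `C.hU.hCs`);  `abs_le_of_sq_le_sq` (`C.hU.hδ`). -/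
theorem his_small (C : HiCtx q g Γ κ S ε τs Δ N Ac U β) (h₁₂ : tOf τs ≤ s₂) (h₂ : s₂ < 0) (k : ℕ) :
    ∀ t ∈ Icc (tOf τs) s₂, ∀ y ∈ Icc (-1 : ℝ) 1,
      |hiTh (τs + Δ) (t, y) * hcmp S.M (uT (U k)) (t, y)| ≤ 1 / 4 := by
  intro t ht y hy
  have hK := C.K h₁₂ h₂
  have hu : ∀ b, |uT (U k) b (t, y)| ≤ κ.δ₀ := by
    intro b
    have h1 := hi_u_le hK (C.smU k) ht hy b
    have h2 := hi_E_small C k (t := t) ⟨ht.1, lt_of_le_of_lt ht.2 h₂⟩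
    have h3 : 2 * κ.Cs * hiE q g Γ (U k) t ≤ 2 * κ.Cs * (2 * ε ^ 2) :=
      mul_le_mul_of_nonneg_left h2 (by have := C.hU.hCs; positivity)
    have h4 : (uT (U k) b (t, y)) ^ 2 ≤ κ.δ₀ ^ 2 := by
      have := C.hεδ
      nlinarith [sq_nonneg (ttF (uT (U k) b) (t, y))]
    exact abs_le_of_sq_le_sq h4 C.hU.hδ.le
  have hm := C.hU.mm t (hK.mem ht) y hy (fun b => uT (U k) b (t, y)) hu
  have hθ := his_Th_mem (τs + Δ) (t, y)
  have he : hcmp S.M (uT (U k)) (t, y) = hmmG q g (t, y) (fun b => uT (U k) b (t, y)) := by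
    rw [C.hS.hM]; rfl
  rw [he, abs_mul, abs_of_nonneg hθ.1]
  calc hiTh (τs + Δ) (t, y) * |hmmG q g (t, y) (fun b => uT (U k) b (t, y))|
      ≤ 1 * |hmmG q g (t, y) (fun b => uT (U k) b (t, y))| :=
        mul_le_mul_of_nonneg_right hθ.2 (abs_nonneg _)
    _ ≤ 1 / 4 := by rw [one_mul]; exact hm

/-- the control terms (HI/Beta.lean). -/
theorem his_Sb (C : HiCtx q g Γ κ S ε τs Δ N Ac U β) (s₁ : ℝ) (h₂ : s₂ < 0) (r : ℕ) (j : Fin 3) :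
    HisW hw0 s₁ s₂ r (fun k => hiSb Ac (β k) j) :=
  ⟨fun k => sm_hiSb C k j, fun I => hi_Sb_W C h₂ I r j⟩

end Claimed.Agent.R324.Core
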