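/-
Row 324, module HI, PART S, file SId: the identity (PI) for the pole operator.       Sub-architect: helper898.       Design: origin/helper402:docs/R324_HI.md, part S (S4).
   `p_k = U_{k,j}'`,   `μ_k = θ mm_k`,  `mm_k = M(p;u_k)`,   `P_k = p_{k+1} + μ_k p_k`,   `d_j = dimJ q j`,   `Z̃, w̃₁, c̃` = coefficients of `bgR q g`,   `1/Z̃ = 1 + X B̃ = hisDen`:
      `hPo d_j P_k = (1/Z̃) [ Br_k - θ xr_j quad_k - w̃₁ (X P_k) ] + θ mm_k' (X p_k)`,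
      `Br_k = ∂_t U_{k+1,j} - Z0(U_{k+1})_j - μ_k Z0(U_k)_j - θ A0_j(u_k) + θ Res_j - S_{β,j}`,     `Z0(V)_j = Σ_l c̃_{jl} (fac_{jl} V_l)`.
-/
import Claimed.Agent.R324.Core.HI.SIn

set_option autoImplicit false

namespace Claimed.Agent.R324.Core

open Set Filter Topology MeasureTheory
open scoped ContDiff

noncomputable section

/-- `mm_k = M(p; u_k)`. -/
def hisMm (S : HNSt) (U : ℕ → Tri) (k : ℕ) : Fn := hcmp S.M (uT (U k))

/-- `μ_k = θ mm_k`. -/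
def hisMu (τc : ℝ) (S : HNSt) (U : ℕ → Tri) (k : ℕ) : Fn := fun p => hiTh τc p * hisMm S U k p

/-- `P_k = U_{k+1,j}' + μ_k U_{k,j}'`. -/
def hisP (τc : ℝ) (S : HNSt) (U : ℕ → Tri) (j : Fin 3) (k : ℕ) : Fn := fun p =>
  dY (U (k + 1) j) p + hisMu τc S U k p * dY (U k j) p

/-- `1/Z̃ = 1 + X B̃`. -/
def hisDen (q : ℝ) (g : Bg) : Fn := fun p => 1 + Xf p.2 * (bgR q g).B p

/-- the zeroth order part of `L̃`:  `Σ_l c̃_{jl} (fac_{jl} V_l)`. -/
def hisZ0 (q : ℝ) (g : Bg) (V : Tri) (j : Fin 3) : Fn := fun p =>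
  ∑ l, (bgR q g).cf q j l p * (facJ j l p.2 * V l p)

/-- the bracket. -/
def hisBr (q : ℝ) (g : Bg) (τc : ℝ) (S : HNSt) {N : ℕ} (Ac : Fin N → Tri) (β : ℕ → ℝ → EuclideanSpace ℝ (Fin N))
    (U : ℕ → Tri) (j : Fin 3) (k : ℕ) : Fn := fun p =>
  dT (U (k + 1) j) p - hisZ0 q g (U (k + 1)) j p - hisMu τc S U k p * hisZ0 q g (U k) j p
    - hiTh τc p * hcmp (S.A0 j) (uT (U k)) p + hiTh τc p * Res q g j p - hiSb Ac (β k) j p

end

/-- hygiene. -/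
theorem his_id_hygiene : True := by
  have := @hisMm.eq_1
  have := @hisMu.eq_1
  have := @hisP.eq_1
  have := @hisDen.eq_1
  have := @hisZ0.eq_1
  have := @hisBr.eq_1
  trivial

variable {q : ℝ} {g : Bg} {Γ : ℝ} {κ : HiC} {S : HNSt} {ε τs Δ : ℝ} {N : ℕ} {Ac : Fin N → Tri}
  {U : ℕ → Tri} {β : ℕ → ℝ → EuclideanSpace ℝ (Fin N)} {s₂ t : ℝ}

/-- `L̃` through the pole operator. -/
theorem his_Lt_eq (q : ℝ) (g : Bg) (V : Tri) (j : Fin 3) (p : ℝ × ℝ) :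
    Lt q g V j p = (bgR q g).Z p * hPo (dimJ q j) (dY (V j)) p + (bgR q g).w1 p * (Xf p.2 * dY (V j) p)
      + hisZ0 q g V j p := by
  have e : ∑ k, facJ j k p.2 * (bgR q g).cf q j k p * V k p = hisZ0 q g V j p := by
    unfold hisZ0
    exact Finset.sum_congr rfl fun l _ => by ring
  unfold Lt Lop hPo
  rw [e]
  ring

theorem his_sm_Den (C : HiCtx q g Γ κ S ε τs Δ N Ac U β) : Sm (hisDen q g) := C.smR.smden

theorem his_sm_Mm (C : HiCtx q g Γ κ S ε τs Δ N Ac U β) (k : ℕ) : Sm (hisMm S U k) :=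
  sm_hcmp C.hS.sm.1 (C.smU k).uT

theorem his_sm_Mu (C : HiCtx q g Γ κ S ε τs Δ N Ac U β) (τc : ℝ) (k : ℕ) : Sm (hisMu τc S U k) :=
  (sm_hiTh τc).mul (his_sm_Mm C k)

theorem his_sm_P (C : HiCtx q g Γ κ S ε τs Δ N Ac U β) (τc : ℝ) (j : Fin 3) (k : ℕ) : Sm (hisP τc S U j k) :=
  (C.smU (k + 1) j).dY.add ((his_sm_Mu C τc k).mul (C.smU k j).dY)

/-- **(PI)**. -/
theorem his_PI (C : HiCtx q g Γ κ S ε τs Δ N Ac U β) (j : Fin 3) (k : ℕ) :
    HiEq (hPo (dimJ q j) (hisP (τs + Δ) S U j k)) (fun p =>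
      hisDen q g p * (hisBr q g (τs + Δ) S Ac β U j k p - hiTh (τs + Δ) p * (hxr j p * S.quad (U k) j p)
          - (bgR q g).w1 p * (Xf p.2 * hisP (τs + Δ) S U j k p))
        + hiTh (τs + Δ) p * (dY (hisMm S U k) p * (Xf p.2 * dY (U k j) p))) := by
  intro t ht y hy
  have hZ : (bgR q g).Z (t, y) * hisDen q g (t, y) = 1 := C.smR.Z_mul ht y
  have h1 := C.it.eq k j t ht y hy
  rw [C.hS.eq (U k) (C.smU k) j t ht y] at h1
  unfold HNSt.raw at h1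
  rw [his_Lt_eq q g (U (k + 1)) j, his_Lt_eq q g (U k) j] at h1
  -- derivative of `P`
  have hdP : dY (hisP (τs + Δ) S U j k) (t, y) = dY (dY (U (k + 1) j)) (t, y)
      + (hiTh (τs + Δ) (t, y) * dY (hisMm S U k) (t, y) * dY (U k j) (t, y)
        + hisMu (τs + Δ) S U k (t, y) * dY (dY (U k j)) (t, y)) := by
    have e1 : dY (hisP (τs + Δ) S U j k) (t, y) = dY (dY (U (k + 1) j)) (t, y)
        + dY (fun p => hisMu (τs + Δ) S U k p * dY (U k j) p) (t, y) :=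
      dY_add (C.smU (k + 1) j).dY ((his_sm_Mu C _ k).mul (C.smU k j).dY) ht y
    rw [e1, dY_mul (his_sm_Mu C _ k) (C.smU k j).dY ht y]
    have e2 : dY (hisMu (τs + Δ) S U k) (t, y) = hiTh (τs + Δ) (t, y) * dY (hisMm S U k) (t, y) :=
      his_dY_Th_mul _ (his_sm_Mm C k) ht y
    rw [e2]
  have hth : thetaC (τs + Δ) t = hiTh (τs + Δ) (t, y) := rfl
  have hsb : ∑ i, β k (tauOf t) i * Ac i j (t, y) = hiSb Ac (β k) j (t, y) := rfl
  have hmm : hcmp S.M (uT (U k)) (t, y) = hisMm S U k (t, y) := rfl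
  rw [hth, hsb, hmm] at h1
  simp only [hisBr]
  rw [h1]
  simp only [hPo] at *
  rw [hdP]
  simp only [hisP, hisMu]
  generalize (bgR q g).Z (t, y) = Z at *
  generalize hisDen q g (t, y) = D at *
  linear_combination (-(Xf y * dY (dY (U (k + 1) j)) (t, y) - dimJ q j * y * dY (U (k + 1) j) (t, y))
    - hiTh (τs + Δ) (t, y) * hisMm S U k (t, y) * (Xf y * dY (dY (U k j)) (t, y) - dimJ q j * y * dY (U k j) (t, y))) * hZ

end Claimed.Agent.R324.Core
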