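/-
Row 324, module HI, PART S, file SPole (S3 of origin/helper402:docs/R324_HI.md): the POLE OPERATOR `hPo d p = X p' - d y p`, `d = 2 (m + 1)`, `m : ℕ`.      Author: helper182.      SORRY-FREE.
   `(X^{m+1} p)' = X^m hPo d p`.
 (P0)  `|hPo d p| ≤ M` on `[-1,1]` ⇒ `|p| ≤ M` on `[-1,1]`;      (P0w)  `m ≥ 1`, `√X |hPo d p| ≤ M` ⇒ `√X |p| ≤ M`.
 commutation:  `∂_t hPo d p = hPo d ∂_t p`,   `∂_y hPo d p = hPo (d+2) (∂_y p) - d p`.
 (PA)  `hPo d P_k = a_k` on the strip, `a ∈ HiW hw0 I r` ⇒ `P ∈ HiW hw0 I r`;    weighted, `r = 0`, `m ≥ 1`:  `a ∈ HiW hwH I 0` ⇒ `P ∈ HiW hwH I 0`.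
 (PB)  `hPo d P_k = a_k + X kk_k`, `a ∈ HiW hw0 I (r+1)`, `kk ∈ HiW hw0 I r` ⇒ `P ∈ HiW hw0 I (r+1)`.
-/
import Claimed.Agent.R324.Core.HI.W

set_option autoImplicit false

namespace Claimed.Agent.R324.Core

open Set Filter Topology MeasureTheory
open scoped ContDiff

variable {s₁ s₂ : ℝ} {I r : ℕ} {P a kk : ℕ → Fn} {p : Fn} {t : ℝ}

theorem sm_hPo (d : ℝ) (hp : Sm p) : Sm (hPo d p) :=
  (sm_Xf.mul hp.dY).sub (((sm_const d).mul sm_snd).mul hp)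

/-- `∂_t hPo d p = hPo d ∂_t p`. -/
theorem his_dT_hPo (d : ℝ) (hp : Sm p) (ht : t < 0) (y : ℝ) : dT (hPo d p) (t, y) = hPo d (dT p) (t, y) := by
  have h1 : dT (hPo d p) (t, y)
      = dT (fun z => Xf z.2 * dY p z) (t, y) - dT (fun z => (fun s : ℝ => d * s) z.2 * p z) (t, y) :=
    dT_sub (sm_Xf.mul hp.dY) (((sm_const d).mul sm_snd).mul hp) ht y
  rw [h1, dT_y_mul Xf hp.dY ht y, dT_y_mul (fun s : ℝ => d * s) hp ht y, hp.dT_dY ht y]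
  rfl

/-- `∂_y hPo d p = hPo (d+2) (∂_y p) - d p`. -/
theorem his_dY_hPo (d : ℝ) (hp : Sm p) (ht : t < 0) (y : ℝ) :
    dY (hPo d p) (t, y) = hPo (d + 2) (dY p) (t, y) - d * p (t, y) := by
  have h1 : dY (hPo d p) (t, y)
      = dY (fun z => Xf z.2 * dY p z) (t, y) - dY (fun z => d * z.2 * p z) (t, y) :=
    dY_sub (sm_Xf.mul hp.dY) (((sm_const d).mul sm_snd).mul hp) ht y
  rw [h1, dY_mul sm_Xf hp.dY ht y, dY_mul ((sm_const d).mul sm_snd) hp ht y, dY_Xf,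
    dY_const_mul d sm_snd ht y, dY_snd]
  unfold hPo
  ring

/-! ### functions of one variable -/

theorem his_Xf_neg (y : ℝ) : Xf (-y) = Xf y := by
  unfold Xf
  ring

/-- `X` is decreasing on `[0,1]`. -/
theorem his_Xf_anti {y s : ℝ} (hy : 0 ≤ y) (hs : y ≤ s) : Xf s ≤ Xf y := by
  unfold Xf
  nlinarith

/-- `(X^{m+1} φ)' = X^m (X φ' - 2 (m+1) y φ)`. -/
theorem his_pole_deriv (m : ℕ) {φ : ℝ → ℝ} {d y : ℝ} (hφ : HasDerivAt φ d y) :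
    HasDerivAt (fun s => Xf s ^ (m + 1) * φ s) (Xf y ^ m * (Xf y * d - 2 * ((m : ℝ) + 1) * y * φ y)) y := by
  have h1 := ((hasDerivAt_Xf y).pow (m + 1)).mul hφ
  refine h1.congr_deriv ?_
  simp only [Nat.add_sub_cancel, Pi.pow_apply]
  push_cast
  ring

/-- the core of (P0), (P0w):  `X^m |hPo| ≤ K` on `[y,1]`, `0 ≤ y ≤ 1` ⇒ `X(y)^{m+1} |φ(y)| ≤ K X(y)`. -/
theorem his_pole_core (m : ℕ) {φ φ' : ℝ → ℝ} (hφ : ∀ y, HasDerivAt φ (φ' y) y) {y K : ℝ} (hy : y ∈ Icc (0 : ℝ) 1)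
    (hK : ∀ s ∈ Icc y 1, Xf s ^ m * |Xf s * φ' s - 2 * ((m : ℝ) + 1) * s * φ s| ≤ K) :
    Xf y ^ (m + 1) * |φ y| ≤ K * Xf y := by
  have hX : ∀ s ∈ Icc y 1, 0 ≤ Xf s := fun s hs =>
    (hiW_Xf_mem (y := s) ⟨by linarith [hy.1, hs.1], hs.2⟩).1
  have hK0 : 0 ≤ K :=
    (mul_nonneg (pow_nonneg (hX y ⟨le_rfl, hy.2⟩) m) (abs_nonneg _)).trans (hK y ⟨le_rfl, hy.2⟩)
  have h := Convex.norm_image_sub_le_of_norm_hasDerivWithin_le (f := fun s => Xf s ^ (m + 1) * φ s)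
    (f' := fun s => Xf s ^ m * (Xf s * φ' s - 2 * ((m : ℝ) + 1) * s * φ s)) (C := K) (s := Icc y 1)
    (x := 1) (y := y) (fun s _ => (his_pole_deriv m (hφ s)).hasDerivWithinAt)
    (fun s hs => by
      rw [Real.norm_eq_abs, abs_mul, abs_of_nonneg (pow_nonneg (hX s hs) m)]
      exact hK s hs)
    (convex_Icc y 1) ⟨hy.2, le_rfl⟩ ⟨le_rfl, hy.2⟩
  have hX1 : Xf 1 = 0 := by unfold Xf; norm_num
  simp only [hX1] at h
  rw [zero_pow (Nat.succ_ne_zero m), zero_mul, sub_zero, Real.norm_eq_abs, Real.norm_eq_abs, abs_mul,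
    abs_of_nonneg (pow_nonneg (hX y ⟨le_rfl, hy.2⟩) (m + 1)), abs_of_nonpos (by linarith [hy.2] : y - 1 ≤ 0)] at h
  refine h.trans (mul_le_mul_of_nonneg_left ?_ hK0)
  unfold Xf
  nlinarith [hy.1, hy.2]

/-- (P0) on `[0,1]`. -/
theorem his_P0_pos (m : ℕ) {φ φ' : ℝ → ℝ} (hφ : ∀ y, HasDerivAt φ (φ' y) y) {M : ℝ}
    (hM : ∀ y ∈ Icc (0 : ℝ) 1, |Xf y * φ' y - 2 * ((m : ℝ) + 1) * y * φ y| ≤ M) :
    ∀ y ∈ Icc (0 : ℝ) 1, |φ y| ≤ M := by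
  intro y hy
  have hM0 : 0 ≤ M := (abs_nonneg _).trans (hM y hy)
  rcases eq_or_lt_of_le hy.2 with h1 | h1
  · have h := hM 1 ⟨zero_le_one, le_rfl⟩
    have hX1 : Xf 1 = 0 := by unfold Xf; norm_num
    rw [hX1, zero_mul, zero_sub, abs_neg, mul_one, abs_mul,
      abs_of_nonneg (by positivity : (0 : ℝ) ≤ 2 * ((m : ℝ) + 1))] at h
    rw [h1]
    have hm : (0 : ℝ) ≤ (m : ℝ) := Nat.cast_nonneg m
    nlinarith [abs_nonneg (φ 1)]
  · have hXy : 0 < Xf y := by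
      unfold Xf
      nlinarith [hy.1]
    have h := his_pole_core m hφ (K := M * Xf y ^ m) hy (fun s hs => by
      have hs' : s ∈ Icc (0 : ℝ) 1 := ⟨hy.1.trans hs.1, hs.2⟩
      have hXs : 0 ≤ Xf s := (hiW_Xf_mem (y := s) ⟨by linarith [hs'.1], hs.2⟩).1
      rw [mul_comm M]
      exact mul_le_mul (pow_le_pow_left₀ hXs (his_Xf_anti hy.1 hs.1) m) (hM s hs') (abs_nonneg _)
        (pow_nonneg hXy.le m))
    have e : M * Xf y ^ m * Xf y = Xf y ^ (m + 1) * M := by ring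
    rw [e] at h
    exact le_of_mul_le_mul_left h (pow_pos hXy (m + 1))

/-- (P0w) on `[0,1]`. -/
theorem his_P0w_pos (m : ℕ) {φ φ' : ℝ → ℝ} (hφ : ∀ y, HasDerivAt φ (φ' y) y) {M : ℝ}
    (hM : ∀ y ∈ Icc (0 : ℝ) 1, hwH y * |Xf y * φ' y - 2 * (((m + 1 : ℕ) : ℝ) + 1) * y * φ y| ≤ M) :
    ∀ y ∈ Icc (0 : ℝ) 1, hwH y * |φ y| ≤ M := by
  intro y hy
  have hI : ∀ s ∈ Icc (0 : ℝ) 1, s ∈ Icc (-1 : ℝ) 1 := fun s hs => ⟨by linarith [hs.1], hs.2⟩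
  have hM0 : 0 ≤ M := (mul_nonneg (hwOK_H y (hI y hy)).1 (abs_nonneg _)).trans (hM y hy)
  rcases eq_or_lt_of_le hy.2 with h1 | h1
  · have hX1 : hwH 1 = 0 := by unfold hwH Xf; norm_num
    rw [h1, hX1, zero_mul]
    exact hM0
  · have hXy : 0 < Xf y := by
      unfold Xf
      nlinarith [hy.1]
    have hHy : 0 < hwH y := Real.sqrt_pos.2 hXy
    have h := his_pole_core (m + 1) hφ (K := Xf y ^ m * hwH y * M) hy (fun s hs => by
      have hs' : s ∈ Icc (0 : ℝ) 1 := ⟨hy.1.trans hs.1, hs.2⟩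
      have hXs : 0 ≤ Xf s := (hiW_Xf_mem (hI s hs')).1
      have hHs : 0 ≤ hwH s := (hwOK_H s (hI s hs')).1
      have hle : hwH s ≤ hwH y := Real.sqrt_le_sqrt (his_Xf_anti hy.1 hs.1)
      have e : Xf s ^ (m + 1) * |Xf s * φ' s - 2 * (((m + 1 : ℕ) : ℝ) + 1) * s * φ s|
          = Xf s ^ m * hwH s * (hwH s * |Xf s * φ' s - 2 * (((m + 1 : ℕ) : ℝ) + 1) * s * φ s|) := by
        rw [pow_succ, ← hwH_mul_hwH (hI s hs')]
        ring
      rw [e]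
      exact mul_le_mul (mul_le_mul (pow_le_pow_left₀ hXs (his_Xf_anti hy.1 hs.1) m) hle hHs
        (pow_nonneg hXy.le m)) (hM s hs') (mul_nonneg hHs (abs_nonneg _))
        (mul_nonneg (pow_nonneg hXy.le m) hHy.le))
    have e1 : Xf y ^ (m + 1 + 1) * |φ y| = (Xf y ^ m * hwH y * Xf y) * (hwH y * |φ y|) := by
      rw [pow_succ, pow_succ]
      nth_rewrite 2 [← hwH_mul_hwH (hI y hy)]
      ring
    have e2 : Xf y ^ m * hwH y * M * Xf y = (Xf y ^ m * hwH y * Xf y) * M := by ring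
    rw [e1, e2] at h
    exact le_of_mul_le_mul_left h (mul_pos (mul_pos (pow_pos hXy m) hHy) hXy)

/-- the reflection `y ↦ -y`. -/
theorem his_refl_deriv {φ φ' : ℝ → ℝ} (hφ : ∀ y, HasDerivAt φ (φ' y) y) (y : ℝ) :
    HasDerivAt (fun s => φ (-s)) (-φ' (-y)) y := by
  have h := (hφ (-y)).comp y (hasDerivAt_neg y)
  have e : φ' (-y) * -1 = -φ' (-y) := by ring
  rw [e] at h
  exact h

/-- **(P0)**, functions of one variable. -/
theorem his_P0 (m : ℕ) {φ φ' : ℝ → ℝ} (hφ : ∀ y, HasDerivAt φ (φ' y) y) {M : ℝ}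
    (hM : ∀ y ∈ Icc (-1 : ℝ) 1, |Xf y * φ' y - 2 * ((m : ℝ) + 1) * y * φ y| ≤ M) :
    ∀ y ∈ Icc (-1 : ℝ) 1, |φ y| ≤ M := by
  intro y hy
  rcases le_total 0 y with h0 | h0
  · exact his_P0_pos m hφ (fun s hs => hM s ⟨by linarith [hs.1], hs.2⟩) y ⟨h0, hy.2⟩
  · have h := his_P0_pos m (his_refl_deriv hφ) (M := M) (fun s hs => by
      have h1 := hM (-s) ⟨by linarith [hs.2], by linarith [hs.1]⟩
      rw [his_Xf_neg] at h1
      rw [← abs_neg]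
      convert h1 using 2
      ring) (-y) ⟨by linarith, by linarith [hy.1]⟩
    simpa using h

/-- **(P0w)**, functions of one variable. -/
theorem his_P0w (m : ℕ) (hm : 1 ≤ m) {φ φ' : ℝ → ℝ} (hφ : ∀ y, HasDerivAt φ (φ' y) y) {M : ℝ}
    (hM : ∀ y ∈ Icc (-1 : ℝ) 1, hwH y * |Xf y * φ' y - 2 * ((m : ℝ) + 1) * y * φ y| ≤ M) :
    ∀ y ∈ Icc (-1 : ℝ) 1, hwH y * |φ y| ≤ M := by
  obtain ⟨m, rfl⟩ : ∃ m', m = m' + 1 := ⟨m - 1, by omega⟩
  have hH : ∀ s, hwH (-s) = hwH s := fun s => by unfold hwH; rw [his_Xf_neg]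
  intro y hy
  rcases le_total 0 y with h0 | h0
  · exact his_P0w_pos m hφ (fun s hs => hM s ⟨by linarith [hs.1], hs.2⟩) y ⟨h0, hy.2⟩
  · have h := his_P0w_pos m (his_refl_deriv hφ) (M := M) (fun s hs => by
      have h1 := hM (-s) ⟨by linarith [hs.2], by linarith [hs.1]⟩
      rw [his_Xf_neg, hH] at h1
      rw [← abs_neg]
      convert h1 using 3
      ring) (-y) ⟨by linarith, by linarith [hy.1]⟩
    rw [hH] at h
    simpa using h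

/-! ### families -/

/-- (PA), `I = 0`, `r = 0`. -/
theorem his_PA_00 (h₂ : s₂ < 0) (m : ℕ) (hP : ∀ k, Sm (P k))
    (he : ∀ k, HiEq (hPo (2 * ((m : ℝ) + 1)) (P k)) (a k)) (hW : HiW hw0 s₁ s₂ 0 0 a) : HiW hw0 s₁ s₂ 0 0 P := by
  obtain ⟨C, hC⟩ := hW 0 le_rfl 0 le_rfl
  refine hiW_zero_zero (C := C) fun k t ht y hy => ?_
  have ht' : t < 0 := lt_of_le_of_lt ht.2 h₂
  unfold hw0
  rw [one_mul]
  refine his_P0 m (φ := fun z => P k (t, z)) (φ' := fun z => dY (P k) (t, z))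
    (fun z => (hP k).hasDerivAt_y ht' z) (fun z hz => ?_) y hy
  have h1 : hw0 z * |a k (t, z)| ≤ C := hC k t ht z hz
  unfold hw0 at h1
  rw [one_mul, ← he k t ht' z hz] at h1
  exact h1

/-- (PA), `r = 0`. -/
theorem his_PA_0 (h₂ : s₂ < 0) (m : ℕ) (hP : ∀ k, Sm (P k)) (ha : ∀ k, Sm (a k))
    (he : ∀ k, HiEq (hPo (2 * ((m : ℝ) + 1)) (P k)) (a k)) (hW : HiW hw0 s₁ s₂ I 0 a) : HiW hw0 s₁ s₂ I 0 P := by
  induction I generalizing P a with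
  | zero => exact his_PA_00 h₂ m hP he hW
  | succ I ih =>
    refine hiW_of_dT (his_PA_00 h₂ m hP he (hW.mono (Nat.zero_le _) le_rfl)) ?_
    refine ih (P := fun k => dT (P k)) (a := fun k => dT (a k)) (fun k => (hP k).dT) (fun k => (ha k).dT) ?_ hW.dT
    intro k t ht y hy
    rw [← his_dT_hPo _ (hP k) ht y]
    exact hi_dT_congr (he k) t ht y hy

/-- **(PA)**. -/
theorem his_PA (h₂ : s₂ < 0) (m : ℕ) (hP : ∀ k, Sm (P k)) (ha : ∀ k, Sm (a k))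
    (he : ∀ k, HiEq (hPo (2 * ((m : ℝ) + 1)) (P k)) (a k)) (hW : HiW hw0 s₁ s₂ I r a) : HiW hw0 s₁ s₂ I r P := by
  induction r generalizing m P a with
  | zero => exact his_PA_0 h₂ m hP ha he hW
  | succ r ih =>
    have hPr : HiW hw0 s₁ s₂ I r P := ih m hP ha he (hW.mono le_rfl (Nat.le_succ r))
    refine hiW_of_dY h₂ hP (hPr.mono le_rfl (Nat.zero_le r)) ?_
    refine ih (m + 1) (P := fun k => dY (P k)) (a := fun k p => dY (a k) p + 2 * ((m : ℝ) + 1) * P k p)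
      (fun k => (hP k).dY) (fun k => (ha k).dY.add ((hP k).const_mul _)) ?_ ?_
    · intro k t ht y hy
      have h1 := his_dY_hPo (2 * ((m : ℝ) + 1)) (hP k) ht y
      have h2 := hi_dY_congr (sm_hPo _ (hP k)) (ha k) (he k) t ht y hy
      have e : 2 * (((m + 1 : ℕ) : ℝ) + 1) = 2 * ((m : ℝ) + 1) + 2 := by
        push_cast
        ring
      rw [e]
      linarith
    · exact HiW.add hwOK_0 h₂ (fun k => (ha k).dY) (fun k => (hP k).const_mul _) (hW.dY h₂ ha)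
        (HiW.mul0 hwOK_0 h₂ (fun _ => sm_const _) hP (hiW_const hwOK_0 h₂ (sm_const _) s₁ I r) hPr)

/-- (PA), weight `√X`, `I = 0`, `r = 0`. -/
theorem his_PAw_00 (h₂ : s₂ < 0) (m : ℕ) (hm : 1 ≤ m) (hP : ∀ k, Sm (P k))
    (he : ∀ k, HiEq (hPo (2 * ((m : ℝ) + 1)) (P k)) (a k)) (hW : HiW hwH s₁ s₂ 0 0 a) : HiW hwH s₁ s₂ 0 0 P := by
  obtain ⟨C, hC⟩ := hW 0 le_rfl 0 le_rfl
  refine hiW_zero_zero (C := C) fun k t ht y hy => ?_
  have ht' : t < 0 := lt_of_le_of_lt ht.2 h₂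
  refine his_P0w m hm (φ := fun z => P k (t, z)) (φ' := fun z => dY (P k) (t, z))
    (fun z => (hP k).hasDerivAt_y ht' z) (fun z hz => ?_) y hy
  have h1 : hwH z * |a k (t, z)| ≤ C := hC k t ht z hz
  rw [← he k t ht' z hz] at h1
  exact h1

/-- **(PA)**, weight `√X`, `r = 0`. -/
theorem his_PAw (h₂ : s₂ < 0) (m : ℕ) (hm : 1 ≤ m) (hP : ∀ k, Sm (P k)) (ha : ∀ k, Sm (a k))
    (he : ∀ k, HiEq (hPo (2 * ((m : ℝ) + 1)) (P k)) (a k)) (hW : HiW hwH s₁ s₂ I 0 a) : HiW hwH s₁ s₂ I 0 P := by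
  induction I generalizing P a with
  | zero => exact his_PAw_00 h₂ m hm hP he hW
  | succ I ih =>
    refine hiW_of_dT (his_PAw_00 h₂ m hm hP he (hW.mono (Nat.zero_le _) le_rfl)) ?_
    refine ih (P := fun k => dT (P k)) (a := fun k => dT (a k)) (fun k => (hP k).dT) (fun k => (ha k).dT) ?_ hW.dT
    intro k t ht y hy
    rw [← his_dT_hPo _ (hP k) ht y]
    exact hi_dT_congr (he k) t ht y hy

/-- **(PB)**. -/
theorem his_PB (h₂ : s₂ < 0) (m : ℕ) (hP : ∀ k, Sm (P k)) (ha : ∀ k, Sm (a k)) (hk : ∀ k, Sm (kk k))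
    (he : ∀ k, HiEq (hPo (2 * ((m : ℝ) + 1)) (P k)) (fun p => a k p + Xf p.2 * kk k p))
    (hW : HiW hw0 s₁ s₂ I (r + 1) a) (hkW : HiW hw0 s₁ s₂ I r kk) : HiW hw0 s₁ s₂ I (r + 1) P := by
  have hXk : ∀ k, Sm (fun p => Xf p.2 * kk k p) := fun k => sm_Xf.mul (hk k)
  have hPr : HiW hw0 s₁ s₂ I r P :=
    his_PA h₂ m hP (fun k => (ha k).add (hXk k)) he
      (HiW.add hwOK_0 h₂ ha hXk (hW.mono le_rfl (Nat.le_succ r))
        (HiW.mul0 hwOK_0 h₂ (fun _ => sm_Xf) hk (hiW_const hwOK_0 h₂ sm_Xf s₁ I r) hkW))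
  refine hiW_of_dY h₂ hP (hPr.mono le_rfl (Nat.zero_le r)) ?_
  -- `P¹ = ∂_y P - kk`
  have hP1 : HiW hw0 s₁ s₂ I r (fun k p => dY (P k) p - kk k p) := by
    refine his_PA h₂ (m + 1) (P := fun k p => dY (P k) p - kk k p)
      (a := fun k p => dY (a k) p + 2 * ((m : ℝ) + 1) * p.2 * kk k p + 2 * ((m : ℝ) + 1) * P k p)
      (fun k => (hP k).dY.sub (hk k))
      (fun k => ((ha k).dY.add (((sm_const _).mul sm_snd).mul (hk k))).add ((hP k).const_mul _)) ?_ ?_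
    · intro k t ht y hy
      have h1 := his_dY_hPo (2 * ((m : ℝ) + 1)) (hP k) ht y
      have h2 := hi_dY_congr (sm_hPo _ (hP k)) ((ha k).add (hXk k)) (he k) t ht y hy
      rw [dY_add (ha k) (hXk k) ht y, dY_mul sm_Xf (hk k) ht y, dY_Xf] at h2
      have e : 2 * (((m + 1 : ℕ) : ℝ) + 1) = 2 * ((m : ℝ) + 1) + 2 := by
        push_cast
        ring
      rw [e]
      have h3 : hPo (2 * ((m : ℝ) + 1) + 2) (fun p => dY (P k) p - kk k p) (t, y)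
          = hPo (2 * ((m : ℝ) + 1) + 2) (dY (P k)) (t, y) - Xf y * dY (kk k) (t, y)
            + (2 * ((m : ℝ) + 1) + 2) * y * kk k (t, y) := by
        unfold hPo
        rw [dY_sub (hP k).dY (hk k) ht y]
        ring
      rw [h3]
      simp only at h2 ⊢
      linarith
    · exact HiW.add hwOK_0 h₂ (fun k => (ha k).dY.add (((sm_const _).mul sm_snd).mul (hk k)))
        (fun k => (hP k).const_mul _)
        (HiW.add hwOK_0 h₂ (fun k => (ha k).dY) (fun k => ((sm_const _).mul sm_snd).mul (hk k)) (hW.dY h₂ ha)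
          (HiW.mul0 hwOK_0 h₂ (fun _ => (sm_const _).mul sm_snd) hk
            (hiW_const hwOK_0 h₂ ((sm_const _).mul sm_snd) s₁ I r) hkW))
        (HiW.mul0 hwOK_0 h₂ (fun _ => sm_const _) hP (hiW_const hwOK_0 h₂ (sm_const _) s₁ I r) hPr)
  refine HiW.congr h₂ (fun k => ((hP k).dY.sub (hk k)).add (hk k)) (fun k => (hP k).dY)
    (HiW.add hwOK_0 h₂ (fun k => (hP k).dY.sub (hk k)) hk hP1 hkW) ?_
  intro k t _ y _
  ring

end Claimed.Agent.R324.Core
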