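/-
Row 324, module HI, PART S, file SRec (S2 of origin/helper402:docs/R324_HI.md): the RECURSION LEMMA in the weighted classes `HiW`.      Author: helper182.      SORRY-FREE.
   `a_{k+1} = c_k + μ_k a_k` on the strip,  `|μ_k| ≤ 1/2` on `[s₁,s₂] × [-1,1]`,  `c ∈ HiW w I r`,  `μ ∈ HiW hw0 I r`,  `a_0 = 0`     ⇒     `a ∈ HiW w I r`.
Proof: `(I,r) = (0,0)`: `w |a_{k+1}| ≤ C + (w |a_k|)/2`, so `w |a_k| ≤ 2 C` by induction on `k`.
`∂ a_{k+1} = (∂ c_k + ∂ μ_k · a_k) + μ_k ∂ a_k` for `∂ = dY` (induction on `r` at `I = 0`), `∂ = dT` (induction on `I`): same recursion for `∂ a`.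
-/
import Claimed.Agent.R324.Core.HI.W

set_option autoImplicit false

namespace Claimed.Agent.R324.Core

open Set Filter Topology MeasureTheory
open scoped ContDiff

variable {w : ℝ → ℝ} {s₁ s₂ : ℝ} {I r : ℕ} {a c μ : ℕ → Fn}

/-- the recursion lemma, `I = 0`, `r = 0`. -/
theorem his_rec_00 (hw : HwOK w) (h₂ : s₂ < 0)
    (h0 : HiEq (a 0) (fun _ => 0)) (hrec : ∀ k, HiEq (a (k + 1)) (fun p => c k p + μ k p * a k p))
    (hsm : ∀ k : ℕ, ∀ t ∈ Icc s₁ s₂, ∀ y ∈ Icc (-1 : ℝ) 1, |μ k (t, y)| ≤ 1 / 2)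
    (hcW : HiW w s₁ s₂ 0 0 c) : HiW w s₁ s₂ 0 0 a := by
  obtain ⟨C, hC0, hC⟩ := hcW.bound (le_refl 0) (le_refl 0)
  refine hiW_zero_zero (C := 2 * C) fun k => ?_
  induction k with
  | zero =>
    intro t ht y hy
    rw [h0 t (lt_of_le_of_lt ht.2 h₂) y hy, abs_zero, mul_zero]
    positivity
  | succ k ih =>
    intro t ht y hy
    rw [hrec k t (lt_of_le_of_lt ht.2 h₂) y hy]
    have h1 : w y * |c k (t, y)| ≤ C := hC k t ht y hy
    have h2 := ih t ht y hy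
    have h3 := hsm k t ht y hy
    have hw0 := (hw y hy).1
    have h4 : |c k (t, y) + μ k (t, y) * a k (t, y)| ≤ |c k (t, y)| + 1 / 2 * |a k (t, y)| := by
      refine (abs_add_le _ _).trans ?_
      rw [abs_mul]
      exact add_le_add le_rfl (mul_le_mul_of_nonneg_right h3 (abs_nonneg _))
    calc w y * |c k (t, y) + μ k (t, y) * a k (t, y)|
        ≤ w y * (|c k (t, y)| + 1 / 2 * |a k (t, y)|) := mul_le_mul_of_nonneg_left h4 hw0
      _ = w y * |c k (t, y)| + 1 / 2 * (w y * |a k (t, y)|) := by ring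
      _ ≤ 2 * C := by linarith

/-- the recursion lemma, `I = 0`. -/
theorem his_rec_0 (hw : HwOK w) (h₂ : s₂ < 0) (ha : ∀ k, Sm (a k)) (hc : ∀ k, Sm (c k)) (hμ : ∀ k, Sm (μ k))
    (h0 : HiEq (a 0) (fun _ => 0)) (hrec : ∀ k, HiEq (a (k + 1)) (fun p => c k p + μ k p * a k p))
    (hsm : ∀ k : ℕ, ∀ t ∈ Icc s₁ s₂, ∀ y ∈ Icc (-1 : ℝ) 1, |μ k (t, y)| ≤ 1 / 2)
    (hcW : HiW w s₁ s₂ 0 r c) (hμW : HiW hw0 s₁ s₂ 0 r μ) : HiW w s₁ s₂ 0 r a := by
  induction r generalizing a c with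
  | zero => exact his_rec_00 hw h₂ h0 hrec hsm hcW
  | succ r ih =>
    have hA : HiW w s₁ s₂ 0 r a :=
      ih ha hc h0 hrec (hcW.mono le_rfl (Nat.le_succ r)) (hμW.mono le_rfl (Nat.le_succ r))
    refine hiW_of_dY h₂ ha (hA.mono le_rfl (Nat.zero_le r)) ?_
    refine ih (a := fun k => dY (a k)) (c := fun k p => dY (c k) p + dY (μ k) p * a k p)
      (fun k => (ha k).dY) (fun k => (hc k).dY.add ((hμ k).dY.mul (ha k))) ?_ ?_ ?_
      (hμW.mono le_rfl (Nat.le_succ r))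
    · intro t ht y hy
      rw [hi_dY_congr (ha 0) (sm_const 0) h0 t ht y hy]
      exact dY_const 0 _
    · intro k t ht y hy
      rw [hi_dY_congr (ha (k + 1)) ((hc k).add ((hμ k).mul (ha k))) (hrec k) t ht y hy,
        dY_add (hc k) ((hμ k).mul (ha k)) ht y, dY_mul (hμ k) (ha k) ht y]
      ring
    · exact HiW.add hw h₂ (fun k => (hc k).dY) (fun k => (hμ k).dY.mul (ha k)) (hcW.dY h₂ hc)
        (HiW.mul0 hw h₂ (fun k => (hμ k).dY) ha (hμW.dY h₂ hμ) hA)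

/-- **S2, the recursion lemma.** -/
theorem his_rec (hw : HwOK w) (h₂ : s₂ < 0) (ha : ∀ k, Sm (a k)) (hc : ∀ k, Sm (c k)) (hμ : ∀ k, Sm (μ k))
    (h0 : HiEq (a 0) (fun _ => 0)) (hrec : ∀ k, HiEq (a (k + 1)) (fun p => c k p + μ k p * a k p))
    (hsm : ∀ k : ℕ, ∀ t ∈ Icc s₁ s₂, ∀ y ∈ Icc (-1 : ℝ) 1, |μ k (t, y)| ≤ 1 / 2)
    (hcW : HiW w s₁ s₂ I r c) (hμW : HiW hw0 s₁ s₂ I r μ) : HiW w s₁ s₂ I r a := by
  induction I generalizing a c with
  | zero => exact his_rec_0 hw h₂ ha hc hμ h0 hrec hsm hcW hμW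
  | succ I ih =>
    have hA : HiW w s₁ s₂ I r a :=
      ih ha hc h0 hrec (hcW.mono (Nat.le_succ I) le_rfl) (hμW.mono (Nat.le_succ I) le_rfl)
    refine hiW_of_dT (hA.mono (Nat.zero_le I) le_rfl) ?_
    refine ih (a := fun k => dT (a k)) (c := fun k p => dT (c k) p + dT (μ k) p * a k p)
      (fun k => (ha k).dT) (fun k => (hc k).dT.add ((hμ k).dT.mul (ha k))) ?_ ?_ ?_
      (hμW.mono (Nat.le_succ I) le_rfl)
    · intro t ht y hy
      rw [hi_dT_congr h0 t ht y hy]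
      exact dT_const 0 _
    · intro k t ht y hy
      rw [hi_dT_congr (hrec k) t ht y hy,
        dT_add (hc k) ((hμ k).mul (ha k)) ht y, dT_mul (hμ k) (ha k) ht y]
      ring
    · exact HiW.add hw h₂ (fun k => (hc k).dT) (fun k => (hμ k).dT.mul (ha k)) hcW.dT
        (HiW.mul0 hw h₂ (fun k => (hμ k).dT) ha hμW.dT hA)

end Claimed.Agent.R324.Core
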