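/-
Row 324, module HI, PART S, file STerm: bundled forms of S2, S3, composition (helper182's SRec, SPole, SCmp), and the classes of the terms of the identity (PI).       Sub-architect: helper898.
All statements are generic in the weight `w` and the order `r`:  hypotheses = classes of `u_b`, `U_j`, `fac_{jl} U_l`, `π_c π_c'`, `U_j'`, `X U_j'`.
-/
import Claimed.Agent.R324.Core.HI.SId
import Claimed.Agent.R324.Core.HI.SCmp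
import Claimed.Agent.R324.Core.HI.SPole
import Claimed.Agent.R324.Core.HI.SRec

set_option autoImplicit false

namespace Claimed.Agent.R324.Core

open Set Filter Topology MeasureTheory
open scoped ContDiff

/-! ### bundled forms -/

section
variable {w : ℝ → ℝ} {s₁ s₂ : ℝ} {r : ℕ} {u u' : ℕ → Tri} {G : HGf} {a c μ P kk : ℕ → Fn}

theorem hisW_cmp (h₂ : s₂ < 0) (h : ∀ b, HisW hw0 s₁ s₂ r (fun k => u k b)) (hG : HGSm G) :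
    HisW hw0 s₁ s₂ r (fun k => hcmp G (u k)) :=
  ⟨fun k => sm_hcmp hG (fun b => (h b).1 k), fun I => his_cmp h₂ (fun k b => (h b).1 k) (fun b => (h b).2 I) hG⟩

theorem hisW_cmpL (hw : HwOK w) (h₂ : s₂ < 0) (h : ∀ b, HisW hw0 s₁ s₂ r (fun k => u k b))
    (h' : ∀ b, HisW w s₁ s₂ r (fun k => u' k b)) (hG : HGSm G) :
    HisW w s₁ s₂ r (fun k => hcmpL G (u k) (u' k)) :=
  ⟨fun k => sm_hcmpL hG (fun b => (h b).1 k) (fun b => (h' b).1 k),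
    fun I => his_cmpL hw h₂ (fun k b => (h b).1 k) (fun k b => (h' b).1 k) (fun b => (h b).2 I)
      (fun b => (h' b).2 I) hG⟩

theorem hisW_rec (hw : HwOK w) (h₂ : s₂ < 0) (ha : ∀ k, Sm (a k)) (h0 : HiEq (a 0) (fun _ => 0))
    (hrec : ∀ k, HiEq (a (k + 1)) (fun p => c k p + μ k p * a k p))
    (hsm : ∀ k : ℕ, ∀ t ∈ Icc s₁ s₂, ∀ y ∈ Icc (-1 : ℝ) 1, |μ k (t, y)| ≤ 1 / 2)
    (hc : HisW w s₁ s₂ r c) (hμ : HisW hw0 s₁ s₂ r μ) : HisW w s₁ s₂ r a :=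
  ⟨ha, fun I => his_rec hw h₂ ha hc.1 hμ.1 h0 hrec hsm (hc.2 I) (hμ.2 I)⟩

theorem hisW_PA (h₂ : s₂ < 0) (m : ℕ) (hP : ∀ k, Sm (P k))
    (he : ∀ k, HiEq (hPo (2 * ((m : ℝ) + 1)) (P k)) (a k)) (ha : HisW hw0 s₁ s₂ r a) : HisW hw0 s₁ s₂ r P :=
  ⟨hP, fun I => his_PA h₂ m hP ha.1 he (ha.2 I)⟩

theorem hisW_PAw (h₂ : s₂ < 0) (m : ℕ) (hm : 1 ≤ m) (hP : ∀ k, Sm (P k))
    (he : ∀ k, HiEq (hPo (2 * ((m : ℝ) + 1)) (P k)) (a k)) (ha : HisW hwH s₁ s₂ 0 a) : HisW hwH s₁ s₂ 0 P :=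
  ⟨hP, fun I => his_PAw h₂ m hm hP ha.1 he (ha.2 I)⟩

theorem hisW_PB (h₂ : s₂ < 0) (m : ℕ) (hP : ∀ k, Sm (P k))
    (he : ∀ k, HiEq (hPo (2 * ((m : ℝ) + 1)) (P k)) (fun p => a k p + Xf p.2 * kk k p))
    (ha : HisW hw0 s₁ s₂ (r + 1) a) (hk : HisW hw0 s₁ s₂ r kk) : HisW hw0 s₁ s₂ (r + 1) P :=
  ⟨hP, fun I => his_PB h₂ m hP ha.1 hk.1 he (ha.2 I) (hk.2 I)⟩

end

/-! ### the terms of (PI) -/

variable {q : ℝ} {g : Bg} {Γ : ℝ} {κ : HiC} {S : HNSt} {ε τs Δ : ℝ} {N : ℕ} {Ac : Fin N → Tri}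
  {U : ℕ → Tri} {β : ℕ → ℝ → EuclideanSpace ℝ (Fin N)} {s₁ s₂ : ℝ} {w : ℝ → ℝ} {r : ℕ} {j : Fin 3}

theorem his_mm (C : HiCtx q g Γ κ S ε τs Δ N Ac U β) (h₂ : s₂ < 0)
    (hu : ∀ b, HisW hw0 s₁ s₂ r (fun k => uT (U k) b)) : HisW hw0 s₁ s₂ r (hisMm S U) :=
  hisW_cmp h₂ hu C.hS.sm.1

theorem his_mu (C : HiCtx q g Γ κ S ε τs Δ N Ac U β) (h₂ : s₂ < 0) (τc : ℝ)
    (hu : ∀ b, HisW hw0 s₁ s₂ r (fun k => uT (U k) b)) : HisW hw0 s₁ s₂ r (hisMu τc S U) :=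
  (his_mm C h₂ hu).cmul hwOK_0 h₂ (sm_hiTh τc)

theorem his_Z0 (C : HiCtx q g Γ κ S ε τs Δ N Ac U β) (hw : HwOK w) (h₂ : s₂ < 0)
    (hfac : ∀ l, HisW w s₁ s₂ r (fun k p => facJ j l p.2 * U k l p)) :
    HisW w s₁ s₂ r (fun k => hisZ0 q g (U k) j) :=
  hisW_sum hw h₂ Finset.univ fun l _ => (hfac l).cmul hw h₂ (C.smR.smcf q j l)

theorem his_Br (C : HiCtx q g Γ κ S ε τs Δ N Ac U β) (hw : HwOK w) (h₂ : s₂ < 0) (τc : ℝ)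
    (hu : ∀ b, HisW hw0 s₁ s₂ r (fun k => uT (U k) b)) (hUj : HisW w s₁ s₂ r (fun k => U k j))
    (hfac : ∀ l, HisW w s₁ s₂ r (fun k p => facJ j l p.2 * U k l p)) :
    HisW w s₁ s₂ r (hisBr q g τc S Ac β U j) := by
  have hZ := his_Z0 C hw h₂ hfac
  have hA : HisW w s₁ s₂ r (fun k => dT (U (k + 1) j)) := hUj.shift.dT
  have hB : HisW w s₁ s₂ r (fun k => hisZ0 q g (U (k + 1)) j) := hZ.shift
  have hC : HisW w s₁ s₂ r (fun k p => hisMu τc S U k p * hisZ0 q g (U k) j p) :=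
    (his_mu C h₂ τc hu).mul0 hw h₂ hZ
  have hD : HisW w s₁ s₂ r (fun k p => hiTh τc p * hcmp (S.A0 j) (uT (U k)) p) :=
    ((hisW_cmp h₂ hu (C.hS.sm.2.1 j)).cmul hwOK_0 h₂ (sm_hiTh τc)).of0 hw
  have hE : HisW w s₁ s₂ r (fun _ p => hiTh τc p * Res q g j p) :=
    hisW_const hw h₂ ((sm_hiTh τc).mul (C.hg.sm.smRes q j)) s₁ r
  have hF : HisW w s₁ s₂ r (fun k => hiSb Ac (β k) j) := (his_Sb C s₁ h₂ r j).of0 hw
  exact ((((hA.sub hw h₂ hB).sub hw h₂ hC).sub hw h₂ hD).add hw h₂ hE).sub hw h₂ hF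

theorem his_quad (C : HiCtx q g Γ κ S ε τs Δ N Ac U β) (hw : HwOK w) (h₂ : s₂ < 0)
    (hu : ∀ b, HisW hw0 s₁ s₂ r (fun k => uT (U k) b))
    (hππ : ∀ c c', HisW w s₁ s₂ r (fun k p => hpp 1 (U k) c p * hpp 1 (U k) c' p)) (j : Fin 3) :
    HisW w s₁ s₂ r (fun k => S.quad (U k) j) :=
  hisW_sum hw h₂ Finset.univ fun c _ => hisW_sum hw h₂ Finset.univ fun c' _ =>
    (hisW_cmp h₂ hu (C.hS.sm.2.2 j c c')).mul0 hw h₂ (hππ c c')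

/-- `u₀' = π₀`, `u₁' = π₁`, `u₂' = π₃ - 2 y π₂`. -/
theorem his_du (C : HiCtx q g Γ κ S ε τs Δ N Ac U β) (hw : HwOK w) (h₂ : s₂ < 0)
    (hπ : ∀ c, HisW w s₁ s₂ r (fun k => hpp 1 (U k) c)) (b : Fin 3) :
    HisW w s₁ s₂ r (fun k => dY (uT (U k) b)) := by
  have h2y : Sm (fun p : ℝ × ℝ => 2 * p.2) := sm_snd.const_mul 2
  have h3 : HisW w s₁ s₂ r (fun k p => hpp 1 (U k) 3 p - 2 * p.2 * hpp 1 (U k) 2 p) :=
    (hπ 3).sub hw h₂ ((hπ 2).cmul hw h₂ h2y)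
  fin_cases b
  · exact (hπ 0).congr' h₂ fun k t ht y => hi_dY_uT 1 (C.smU k) ht y 0
  · exact (hπ 1).congr' h₂ fun k t ht y => hi_dY_uT 1 (C.smU k) ht y 1
  · exact h3.congr' h₂ fun k t ht y => hi_dY_uT 1 (C.smU k) ht y 2

theorem his_dmm (C : HiCtx q g Γ κ S ε τs Δ N Ac U β) (hw : HwOK w) (h₂ : s₂ < 0)
    (hu : ∀ b, HisW hw0 s₁ s₂ r (fun k => uT (U k) b)) (hdu : ∀ b, HisW w s₁ s₂ r (fun k => dY (uT (U k) b))) :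
    HisW w s₁ s₂ r (fun k => dY (hisMm S U k)) :=
  (((hisW_cmp h₂ hu C.hS.sm.1.dy).of0 hw).add hw h₂ (hisW_cmpL hw h₂ hu hdu C.hS.sm.1)).congr' h₂
    fun k _ ht y => hi_dY_hcmp C.hS.sm.1 (C.smU k).uT ht y

theorem his_P (C : HiCtx q g Γ κ S ε τs Δ N Ac U β) (hw : HwOK w) (h₂ : s₂ < 0) (τc : ℝ)
    (hu : ∀ b, HisW hw0 s₁ s₂ r (fun k => uT (U k) b)) (hp : HisW w s₁ s₂ r (fun k => dY (U k j))) :
    HisW w s₁ s₂ r (hisP τc S U j) :=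
  hp.shift.add hw h₂ ((his_mu C h₂ τc hu).mul0 hw h₂ hp)

theorem his_XP (C : HiCtx q g Γ κ S ε τs Δ N Ac U β) (hw : HwOK w) (h₂ : s₂ < 0) (τc : ℝ)
    (hu : ∀ b, HisW hw0 s₁ s₂ r (fun k => uT (U k) b))
    (hXp : HisW w s₁ s₂ r (fun k p => Xf p.2 * dY (U k j) p)) :
    HisW w s₁ s₂ r (fun k p => Xf p.2 * hisP τc S U j k p) :=
  (hXp.shift.add hw h₂ ((his_mu C h₂ τc hu).mul0 hw h₂ hXp)).congr' h₂ fun k t _ y => by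
    simp only [hisP]
    ring

/-- **from `P` to `U_j'`** (S2). -/
theorem his_of_P (C : HiCtx q g Γ κ S ε τs Δ N Ac U β) (hw : HwOK w) (h₁₂ : tOf τs ≤ s₂) (h₂ : s₂ < 0)
    (hu : ∀ b, HisW hw0 (tOf τs) s₂ r (fun k => uT (U k) b)) (hP : HisW w (tOf τs) s₂ r (hisP (τs + Δ) S U j)) :
    HisW w (tOf τs) s₂ r (fun k => dY (U k j)) := by
  refine hisW_rec hw h₂ (c := hisP (τs + Δ) S U j) (μ := fun k p => -hisMu (τs + Δ) S U k p)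
    (fun k => (C.smU k j).dY) ?_ ?_ ?_ hP ((his_mu C h₂ _ hu).neg h₂)
  · intro t _ y _
    have e : U 0 j = fun _ => 0 := funext fun p => C.it.u0 j p
    rw [e]
    exact dY_const 0 _
  · intro k t _ y _
    simp only [hisP]
    ring
  · intro k t ht y hy
    rw [abs_neg]
    exact (his_small C h₁₂ h₂ k t ht y hy).trans (by norm_num)

/-- the dimensions are even integers. -/
theorem his_dim (C : HiCtx q g Γ κ S ε τs Δ N Ac U β) (j : Fin 3) :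
    ∃ m : ℕ, dimJ q j = 2 * ((m : ℝ) + 1) ∧ (j = 2 → 1 ≤ m) := by
  obtain ⟨m, hm⟩ := C.hm
  by_cases hj : j = 2
  · refine ⟨m + 2, ?_, fun _ => by omega⟩
    unfold dimJ
    rw [if_pos hj, hm]
    push_cast
    ring
  · refine ⟨m, ?_, fun h => absurd h hj⟩
    unfold dimJ
    rw [if_neg hj, hm]
    ring

end Claimed.Agent.R324.Core
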