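/-
Row 324, module HI, PART S, file SBase: the base `R(1)` of the induction:  `U_{k,j} ∈ 𝔅₁`.       Sub-architect: helper898.       Design: origin/helper402:docs/R324_HI.md, part S (S6).
 Step 1 (`j = 0,1`):  right hand side of (PI) `∈ 𝔅₀`  ⇒ `P ∈ 𝔅₀` (PA) ⇒ `σ', h₃' ∈ 𝔅₀` (S2).
 Step 2 (`j = 2`):    right hand side `∈ ℌ` ⇒ `P ∈ ℌ` (PA weighted) ⇒ `b' ∈ ℌ` ⇒ `b ∈ 𝔅₀` (`his_lip`), `X b' ∈ 𝔅₀`.
 Step 3 (`j = 2`):    now all jets are in `𝔅₀`: right hand side `∈ 𝔅₀` ⇒ `b' ∈ 𝔅₀`.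
-/
import Claimed.Agent.R324.Core.HI.STerm

set_option autoImplicit false

namespace Claimed.Agent.R324.Core

open Set Filter Topology MeasureTheory
open scoped ContDiff

variable {q : ℝ} {g : Bg} {Γ : ℝ} {κ : HiC} {S : HNSt} {ε τs Δ : ℝ} {N : ℕ} {Ac : Fin N → Tri}
  {U : ℕ → Tri} {β : ℕ → ℝ → EuclideanSpace ℝ (Fin N)} {s₁ s₂ : ℝ} {w : ℝ → ℝ} {r : ℕ} {j : Fin 3}

/-- the right hand side of (PI). -/
noncomputable def hisRHS (q : ℝ) (g : Bg) (τc : ℝ) (S : HNSt) {N : ℕ} (Ac : Fin N → Tri)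
    (β : ℕ → ℝ → EuclideanSpace ℝ (Fin N)) (U : ℕ → Tri) (j : Fin 3) (k : ℕ) : Fn := fun p =>
  hisDen q g p * (hisBr q g τc S Ac β U j k p - hiTh τc p * (hxr j p * S.quad (U k) j p)
      - (bgR q g).w1 p * (Xf p.2 * hisP τc S U j k p))
    + hiTh τc p * (dY (hisMm S U k) p * (Xf p.2 * dY (U k j) p))

/-- hygiene. -/
theorem his_base_hygiene : True := by
  have := @hisRHS.eq_1
  trivial

theorem his_RHS (C : HiCtx q g Γ κ S ε τs Δ N Ac U β) (hw : HwOK w) (h₂ : s₂ < 0) (τc : ℝ)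
    (hBr : HisW w s₁ s₂ r (hisBr q g τc S Ac β U j))
    (hq : HisW w s₁ s₂ r (fun k p => hxr j p * S.quad (U k) j p))
    (hXP : HisW w s₁ s₂ r (fun k p => Xf p.2 * hisP τc S U j k p))
    (h4 : HisW w s₁ s₂ r (fun k p => dY (hisMm S U k) p * (Xf p.2 * dY (U k j) p))) :
    HisW w s₁ s₂ r (hisRHS q g τc S Ac β U j) :=
  (((hBr.sub hw h₂ (hq.cmul hw h₂ (sm_hiTh τc))).sub hw h₂ (hXP.cmul hw h₂ C.smR.smw1)).cmul hw h₂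
    (his_sm_Den C)).add hw h₂ (h4.cmul hw h₂ (sm_hiTh τc))

/-- (PA) applied to (PI). -/
theorem his_P_of_RHS (C : HiCtx q g Γ κ S ε τs Δ N Ac U β) (h₂ : s₂ < 0)
    (h : HisW hw0 s₁ s₂ r (hisRHS q g (τs + Δ) S Ac β U j)) : HisW hw0 s₁ s₂ r (hisP (τs + Δ) S U j) := by
  obtain ⟨m, hm, -⟩ := his_dim C j
  refine hisW_PA h₂ m (fun k => his_sm_P C _ j k) (fun k => ?_) h
  rw [← hm]
  exact his_PI C j k

/-- (PA), weighted, applied to (PI), `j = 2`. -/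
theorem his_P_of_RHSw (C : HiCtx q g Γ κ S ε τs Δ N Ac U β) (h₂ : s₂ < 0)
    (h : HisW hwH s₁ s₂ 0 (hisRHS q g (τs + Δ) S Ac β U 2)) : HisW hwH s₁ s₂ 0 (hisP (τs + Δ) S U 2) := by
  obtain ⟨m, hm, hm1⟩ := his_dim C 2
  refine hisW_PAw h₂ m (hm1 rfl) (fun k => his_sm_P C _ 2 k) (fun k => ?_) h
  rw [← hm]
  exact his_PI C 2 k

/-! ### elementary identifications -/

theorem his_uT_ne (V : Tri) (hj : j ≠ 2) : uT V j = V j := by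
  funext p
  simp [uT, hj]

/-- `fac_{jl} V_l = u_l` for `j ≠ 2`. -/
theorem his_fac_ne (V : Tri) (hj : j ≠ 2) (l : Fin 3) (p : ℝ × ℝ) : facJ j l p.2 * V l p = uT V l p := by
  by_cases hl : l = 2
  · subst hl
    simp [facJ, uT, hj, Xf]
  · simp [facJ, uT, hl]

/-- `fac_{2l} = 1`. -/
theorem his_fac_two (V : Tri) (l : Fin 3) (p : ℝ × ℝ) : facJ 2 l p.2 * V l p = V l p := by
  simp [facJ]

theorem his_hxr_ne (hj : j ≠ 2) (p : ℝ × ℝ) : hxr j p = Xf p.2 := by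
  simp [hxr, hj]

theorem his_hxr_two (p : ℝ × ℝ) : hxr 2 p = 1 := by
  simp [hxr]

/-! ### Step 1 -/

theorem his_U_ne (C : HiCtx q g Γ κ S ε τs Δ N Ac U β) (h₁₂ : tOf τs ≤ s₂) (h₂ : s₂ < 0) (hj : j ≠ 2) :
    HisW hw0 (tOf τs) s₂ 0 (fun k => U k j) :=
  (his_u C h₁₂ h₂ j).congr' h₂ fun k t _ y => by rw [his_uT_ne (U k) hj]

theorem his_p_Q (C : HiCtx q g Γ κ S ε τs Δ N Ac U β) (h₁₂ : tOf τs ≤ s₂) (h₂ : s₂ < 0) (hj : j ≠ 2) :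
    HisW hwQ (tOf τs) s₂ 0 (fun k => dY (U k j)) := by
  fin_cases j
  · exact his_pp C h₁₂ h₂ 0
  · exact his_pp C h₁₂ h₂ 1
  · exact absurd rfl hj

theorem his_quad_H (C : HiCtx q g Γ κ S ε τs Δ N Ac U β) (h₁₂ : tOf τs ≤ s₂) (h₂ : s₂ < 0) (j : Fin 3) :
    HisW hwH (tOf τs) s₂ 0 (fun k => S.quad (U k) j) :=
  his_quad C hwOK_H h₂ (his_u C h₁₂ h₂) (fun c c' => (his_pp C h₁₂ h₂ c).mulQQ h₂ (his_pp C h₁₂ h₂ c')) j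

theorem his_dmm_Q (C : HiCtx q g Γ κ S ε τs Δ N Ac U β) (h₁₂ : tOf τs ≤ s₂) (h₂ : s₂ < 0) :
    HisW hwQ (tOf τs) s₂ 0 (fun k => dY (hisMm S U k)) :=
  his_dmm C hwOK_Q h₂ (his_u C h₁₂ h₂) (his_du C hwOK_Q h₂ (his_pp C h₁₂ h₂))

/-- **Step 1**: `σ', h₃' ∈ 𝔅₀`. -/
theorem his_step1 (C : HiCtx q g Γ κ S ε τs Δ N Ac U β) (h₁₂ : tOf τs ≤ s₂) (h₂ : s₂ < 0) (hj : j ≠ 2) :
    HisW hw0 (tOf τs) s₂ 0 (fun k => dY (U k j)) := by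
  have hu := his_u C h₁₂ h₂
  have hBr : HisW hw0 (tOf τs) s₂ 0 (hisBr q g (τs + Δ) S Ac β U j) :=
    his_Br C hwOK_0 h₂ _ hu (his_U_ne C h₁₂ h₂ hj)
      (fun l => (hu l).congr' h₂ fun k t _ y => his_fac_ne (U k) hj l (t, y))
  have hq : HisW hw0 (tOf τs) s₂ 0 (fun k p => hxr j p * S.quad (U k) j p) :=
    ((his_quad_H C h₁₂ h₂ j).X_mul h₂).congr' h₂ fun k t _ y => by rw [his_hxr_ne hj]
  have hXp : HisW hw0 (tOf τs) s₂ 0 (fun k p => Xf p.2 * dY (U k j) p) :=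
    ((his_ttu C h₁₂ h₂ j).neg h₂).congr' h₂ fun k t _ y => by
      rw [his_uT_ne (U k) hj]
      simp only [ttF]
      ring
  have h4 : HisW hw0 (tOf τs) s₂ 0 (fun k p => dY (hisMm S U k) p * (Xf p.2 * dY (U k j) p)) :=
    (((his_dmm_Q C h₁₂ h₂).mulQQ h₂ (his_p_Q C h₁₂ h₂ hj)).X_mul h₂).congr' h₂ fun k t _ y => by ring
  exact his_of_P C hwOK_0 h₁₂ h₂ hu
    (his_P_of_RHS C h₂ (his_RHS C hwOK_0 h₂ _ hBr hq (his_XP C hwOK_0 h₂ _ hu hXp) h4))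

/-! ### Step 2 -/

/-- `U_l ∈ ℌ`. -/
theorem his_U_H (C : HiCtx q g Γ κ S ε τs Δ N Ac U β) (h₁₂ : tOf τs ≤ s₂) (h₂ : s₂ < 0) (l : Fin 3) :
    HisW hwH (tOf τs) s₂ 0 (fun k => U k l) := by
  by_cases hl : l = 2
  · subst hl
    exact (his_pp C h₁₂ h₂ 2).QtoH
  · exact (his_U_ne C h₁₂ h₂ hl).of0 hwOK_H

/-- **Step 2**: `b' ∈ ℌ`. -/
theorem his_step2 (C : HiCtx q g Γ κ S ε τs Δ N Ac U β) (h₁₂ : tOf τs ≤ s₂) (h₂ : s₂ < 0) :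
    HisW hwH (tOf τs) s₂ 0 (fun k => dY (U k 2)) := by
  have hu := his_u C h₁₂ h₂
  have hBr : HisW hwH (tOf τs) s₂ 0 (hisBr q g (τs + Δ) S Ac β U 2) :=
    his_Br C hwOK_H h₂ _ hu (his_U_H C h₁₂ h₂ 2)
      (fun l => (his_U_H C h₁₂ h₂ l).congr' h₂ fun k t _ y => his_fac_two (U k) l (t, y))
  have hq : HisW hwH (tOf τs) s₂ 0 (fun k p => hxr 2 p * S.quad (U k) 2 p) :=
    (his_quad_H C h₁₂ h₂ 2).congr' h₂ fun k t _ y => by rw [his_hxr_two, one_mul]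
  have hπ3 : HisW hwQ (tOf τs) s₂ 0 (fun k p => Xf p.2 * dY (U k 2) p) := his_pp C h₁₂ h₂ 3
  have h4 : HisW hwH (tOf τs) s₂ 0 (fun k p => dY (hisMm S U k) p * (Xf p.2 * dY (U k 2) p)) :=
    (his_dmm_Q C h₁₂ h₂).mulQQ h₂ hπ3
  exact his_of_P C hwOK_H h₁₂ h₂ hu
    (his_P_of_RHSw C h₂ (his_RHS C hwOK_H h₂ _ hBr hq (his_XP C hwOK_H h₂ _ hu hπ3.QtoH) h4))

/-- `b ∈ 𝔅₀`. -/
theorem his_b0 (C : HiCtx q g Γ κ S ε τs Δ N Ac U β) (h₁₂ : tOf τs ≤ s₂) (h₂ : s₂ < 0) :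
    HisW hw0 (tOf τs) s₂ 0 (fun k => U k 2) := by
  have hX : HisW hw0 (tOf τs) s₂ 0 (fun k p => Xf p.2 * U k 2 p) :=
    (his_u C h₁₂ h₂ 2).congr' h₂ fun k t _ y => by rw [uT_two]
  exact ⟨fun k => C.smU k 2, fun I => his_lip h₂ (fun k => C.smU k 2) ((his_step2 C h₁₂ h₂).2 I) (hX.2 I)⟩

/-- `U_l ∈ 𝔅₀`. -/
theorem his_U0 (C : HiCtx q g Γ κ S ε τs Δ N Ac U β) (h₁₂ : tOf τs ≤ s₂) (h₂ : s₂ < 0) (l : Fin 3) :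
    HisW hw0 (tOf τs) s₂ 0 (fun k => U k l) := by
  by_cases hl : l = 2
  · subst hl
    exact his_b0 C h₁₂ h₂
  · exact his_U_ne C h₁₂ h₂ hl

/-- all jets are in `𝔅₀`. -/
theorem his_pp0 (C : HiCtx q g Γ κ S ε τs Δ N Ac U β) (h₁₂ : tOf τs ≤ s₂) (h₂ : s₂ < 0) (c : Fin 5) :
    HisW hw0 (tOf τs) s₂ 0 (fun k => hpp 1 (U k) c) := by
  fin_cases c
  · exact his_step1 C h₁₂ h₂ (j := 0) (by decide)
  · exact his_step1 C h₁₂ h₂ (j := 1) (by decide)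
  · exact his_b0 C h₁₂ h₂
  · exact (his_step2 C h₁₂ h₂).X_mul h₂
  · exact hisW_const hwOK_0 h₂ (sm_const 1) _ 0

/-! ### Step 3 -/

/-- **Step 3**: `b' ∈ 𝔅₀`. -/
theorem his_step3 (C : HiCtx q g Γ κ S ε τs Δ N Ac U β) (h₁₂ : tOf τs ≤ s₂) (h₂ : s₂ < 0) :
    HisW hw0 (tOf τs) s₂ 0 (fun k => dY (U k 2)) := by
  have hu := his_u C h₁₂ h₂
  have hπ := his_pp0 C h₁₂ h₂
  have hBr : HisW hw0 (tOf τs) s₂ 0 (hisBr q g (τs + Δ) S Ac β U 2) :=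
    his_Br C hwOK_0 h₂ _ hu (his_b0 C h₁₂ h₂)
      (fun l => (his_U0 C h₁₂ h₂ l).congr' h₂ fun k t _ y => his_fac_two (U k) l (t, y))
  have hq : HisW hw0 (tOf τs) s₂ 0 (fun k p => hxr 2 p * S.quad (U k) 2 p) :=
    (his_quad C hwOK_0 h₂ hu (fun c c' => (hπ c).mul0 hwOK_0 h₂ (hπ c')) 2).congr' h₂
      fun k t _ y => by rw [his_hxr_two, one_mul]
  have hπ3 : HisW hw0 (tOf τs) s₂ 0 (fun k p => Xf p.2 * dY (U k 2) p) := hπ 3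
  have h4 : HisW hw0 (tOf τs) s₂ 0 (fun k p => dY (hisMm S U k) p * (Xf p.2 * dY (U k 2) p)) :=
    (his_dmm C hwOK_0 h₂ hu (his_du C hwOK_0 h₂ hπ)).mul0 hwOK_0 h₂ hπ3
  exact his_of_P C hwOK_0 h₁₂ h₂ hu
    (his_P_of_RHS C h₂ (his_RHS C hwOK_0 h₂ _ hBr hq (his_XP C hwOK_0 h₂ _ hu hπ3) h4))

/-- **`R(1)`.** -/
theorem his_R1 (C : HiCtx q g Γ κ S ε τs Δ N Ac U β) (h₁₂ : tOf τs ≤ s₂) (h₂ : s₂ < 0) (j : Fin 3) :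
    HisW hw0 (tOf τs) s₂ 1 (fun k => U k j) := by
  refine hisW_of_dY h₂ (his_U0 C h₁₂ h₂ j) ?_
  by_cases hj : j = 2
  · subst hj
    exact his_step3 C h₁₂ h₂
  · exact his_step1 C h₁₂ h₂ hj

end Claimed.Agent.R324.Core
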