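/-
Row 324, module HI, PART S, file SInd: the induction step `R(r+1) ⇒ R(r+2)`   (`R(r)`: `U_{k,j} ∈ 𝔅_r` for `j = 0,1,2`).       Sub-architect: helper898.       Design: origin/helper402:docs/R324_HI.md, part S (S7).
   (PI) reads  `hPo d_j P_k = a_k + X kk_k`  with `a ∈ 𝔅_{r+1}`, `kk ∈ 𝔅_r`;   (PB) ⇒ `P ∈ 𝔅_{r+1}`;  (S2) ⇒ `U_j' ∈ 𝔅_{r+1}`.
   `j = 0,1`:   `a = Br/Z̃`,    `kk = -θ quad/Z̃ - w̃₁ P/Z̃ + θ mm' p_k`.
   `j = 2`:     `quad = quadA + X quadB`  (`quadA`: the terms `π_c π_c'` with `c, c' ≠ 3`;  `π₃ = X b'`),    `a = (Br - θ quadA)/Z̃`,    `kk = -θ quadB/Z̃ - w̃₁ P/Z̃ + θ mm' p_k`;   uses `σ', h₃' ∈ 𝔅_{r+1}` (first part).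
-/
import Claimed.Agent.R324.Core.HI.SBase

set_option autoImplicit false

namespace Claimed.Agent.R324.Core

open Set Filter Topology MeasureTheory
open scoped ContDiff

noncomputable section

/-- `π_c π_c'` if `c, c' ≠ 3`. -/
def hisPiA (U : ℕ → Tri) (c c' : Fin 5) (k : ℕ) : Fn := fun p =>
  if c = 3 ∨ c' = 3 then 0 else hpp 1 (U k) c p * hpp 1 (U k) c' p

/-- `π_c π_c' / X` if `c = 3` or `c' = 3`. -/
def hisPiB (U : ℕ → Tri) (c c' : Fin 5) (k : ℕ) : Fn := fun p =>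
  if c = 3 then dY (U k 2) p * hpp 1 (U k) c' p else if c' = 3 then hpp 1 (U k) c p * dY (U k 2) p else 0

/-- `Σ A2_{jcc'}(p;u) Pi2_{cc'}`. -/
def hisQG (S : HNSt) (U : ℕ → Tri) (Pi2 : Fin 5 → Fin 5 → ℕ → Fn) (j : Fin 3) (k : ℕ) : Fn := fun p =>
  ∑ c, ∑ c', hcmp (S.A2 j c c') (uT (U k)) p * Pi2 c c' k p

end

/-- hygiene. -/
theorem his_ind_hygiene : True := by
  have := @hisPiA.eq_1
  have := @hisPiB.eq_1
  have := @hisQG.eq_1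
  trivial

variable {q : ℝ} {g : Bg} {Γ : ℝ} {κ : HiC} {S : HNSt} {ε τs Δ : ℝ} {N : ℕ} {Ac : Fin N → Tri}
  {U : ℕ → Tri} {β : ℕ → ℝ → EuclideanSpace ℝ (Fin N)} {s₁ s₂ : ℝ} {w : ℝ → ℝ} {r : ℕ} {j : Fin 3}

theorem his_Pi_split (U : ℕ → Tri) (c c' : Fin 5) (k : ℕ) (p : ℝ × ℝ) :
    hpp 1 (U k) c p * hpp 1 (U k) c' p = hisPiA U c c' k p + Xf p.2 * hisPiB U c c' k p := by
  have h3 : hpp 1 (U k) 3 p = Xf p.2 * dY (U k 2) p := rfl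
  unfold hisPiA hisPiB
  by_cases hc : c = 3
  · subst hc
    simp only [true_or, if_true, h3]
    ring
  · by_cases hc' : c' = 3
    · subst hc'
      simp only [or_true, if_true, if_neg hc, h3]
      ring
    · simp only [hc, hc', or_self, if_false]
      ring

theorem his_quad_split (S : HNSt) (U : ℕ → Tri) (j : Fin 3) (k : ℕ) (p : ℝ × ℝ) :
    S.quad (U k) j p = hisQG S U (hisPiA U) j k p + Xf p.2 * hisQG S U (hisPiB U) j k p := by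
  unfold HNSt.quad hisQG
  rw [Finset.mul_sum, ← Finset.sum_add_distrib]
  refine Finset.sum_congr rfl fun c _ => ?_
  rw [Finset.mul_sum, ← Finset.sum_add_distrib]
  refine Finset.sum_congr rfl fun c' _ => ?_
  rw [his_Pi_split U c c' k p]
  ring

theorem his_QG (C : HiCtx q g Γ κ S ε τs Δ N Ac U β) (hw : HwOK w) (h₂ : s₂ < 0)
    (hu : ∀ b, HisW hw0 s₁ s₂ r (fun k => uT (U k) b)) {Pi2 : Fin 5 → Fin 5 → ℕ → Fn}
    (hPi : ∀ c c', HisW w s₁ s₂ r (Pi2 c c')) (j : Fin 3) : HisW w s₁ s₂ r (hisQG S U Pi2 j) :=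
  hisW_sum hw h₂ Finset.univ fun c _ => hisW_sum hw h₂ Finset.univ fun c' _ =>
    (hisW_cmp h₂ hu (C.hS.sm.2.2 j c c')).mul0 hw h₂ (hPi c c')

theorem his_PiA (h₂ : s₂ < 0) (hπ : ∀ c : Fin 5, c ≠ 3 → HisW hw0 s₁ s₂ r (fun k => hpp 1 (U k) c)) (c c' : Fin 5) :
    HisW hw0 s₁ s₂ r (hisPiA U c c') := by
  by_cases h : c = 3 ∨ c' = 3
  · have e : hisPiA U c c' = fun _ _ => 0 := by
      funext k p
      simp [hisPiA, h]
    rw [e]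
    exact hisW_const hwOK_0 h₂ (sm_const 0) _ _
  · have e : hisPiA U c c' = fun k p => hpp 1 (U k) c p * hpp 1 (U k) c' p := by
      funext k p
      simp [hisPiA, h]
    rw [e]
    push Not at h
    exact (hπ c h.1).mul0 hwOK_0 h₂ (hπ c' h.2)

theorem his_PiB (h₂ : s₂ < 0) (hπ : ∀ c : Fin 5, HisW hw0 s₁ s₂ r (fun k => hpp 1 (U k) c))
    (hb : HisW hw0 s₁ s₂ r (fun k => dY (U k 2))) (c c' : Fin 5) : HisW hw0 s₁ s₂ r (hisPiB U c c') := by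
  by_cases hc : c = 3
  · have e : hisPiB U c c' = fun k p => dY (U k 2) p * hpp 1 (U k) c' p := by
      funext k p
      simp [hisPiB, hc]
    rw [e]
    exact hb.mul0 hwOK_0 h₂ (hπ c')
  · by_cases hc' : c' = 3
    · have e : hisPiB U c c' = fun k p => hpp 1 (U k) c p * dY (U k 2) p := by
        funext k p
        simp [hisPiB, hc, hc']
      rw [e]
      exact (hπ c).mul0 hwOK_0 h₂ hb
    · have e : hisPiB U c c' = fun _ _ => 0 := by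
        funext k p
        simp [hisPiB, hc, hc']
      rw [e]
      exact hisW_const hwOK_0 h₂ (sm_const 0) _ _

/-! ### consequences of `R(r)` -/

/-- `u_b ∈ 𝔅_r`. -/
theorem his_u_of_R (h₂ : s₂ < 0) (hR : ∀ j, HisW hw0 s₁ s₂ r (fun k => U k j)) (b : Fin 3) :
    HisW hw0 s₁ s₂ r (fun k => uT (U k) b) := by
  by_cases hb : b = 2
  · subst hb
    exact ((hR 2).cmul hwOK_0 h₂ sm_Xf).congr' h₂ fun k t _ y => by rw [uT_two]
  · exact (hR b).congr' h₂ fun k t _ y => by rw [his_uT_ne (U k) hb]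

/-- the jets are in `𝔅_r` if `U ∈ 𝔅_{r+1}`. -/
theorem his_pp_of_R (h₂ : s₂ < 0) (hR : ∀ j, HisW hw0 s₁ s₂ (r + 1) (fun k => U k j)) (c : Fin 5) :
    HisW hw0 s₁ s₂ r (fun k => hpp 1 (U k) c) := by
  fin_cases c
  · exact (hR 0).dY h₂
  · exact (hR 1).dY h₂
  · exact (hR 2).mono (Nat.le_succ r)
  · exact ((hR 2).dY h₂).cmul hwOK_0 h₂ sm_Xf
  · exact hisW_const hwOK_0 h₂ (sm_const 1) _ _

/-- the common part of `kk`:  `- w̃₁ P/Z̃ + θ mm' p_k`. -/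
theorem his_kk0 (C : HiCtx q g Γ κ S ε τs Δ N Ac U β) (h₂ : s₂ < 0) (τc : ℝ)
    (hR : ∀ j, HisW hw0 s₁ s₂ (r + 1) (fun k => U k j)) (j : Fin 3) :
    HisW hw0 s₁ s₂ r (fun k p => -(hisDen q g p * ((bgR q g).w1 p * hisP τc S U j k p))
      + hiTh τc p * (dY (hisMm S U k) p * dY (U k j) p)) := by
  have hu : ∀ b, HisW hw0 s₁ s₂ r (fun k => uT (U k) b) :=
    his_u_of_R h₂ fun j => (hR j).mono (Nat.le_succ r)
  have hp : HisW hw0 s₁ s₂ r (fun k => dY (U k j)) := (hR j).dY h₂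
  have hP := his_P C hwOK_0 h₂ τc hu hp
  have hm := his_dmm C hwOK_0 h₂ hu (his_du C hwOK_0 h₂ (his_pp_of_R h₂ hR))
  exact (((hP.cmul hwOK_0 h₂ C.smR.smw1).cmul hwOK_0 h₂ (his_sm_Den C)).neg h₂).add hwOK_0 h₂
    ((hm.mul0 hwOK_0 h₂ hp).cmul hwOK_0 h₂ (sm_hiTh τc))

/-- (PB) + (S2) + `hisW_of_dY`. -/
theorem his_close (C : HiCtx q g Γ κ S ε τs Δ N Ac U β) (h₁₂ : tOf τs ≤ s₂) (h₂ : s₂ < 0)
    (hR : ∀ j, HisW hw0 (tOf τs) s₂ (r + 1) (fun k => U k j)) {a kk : ℕ → Fn}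
    (ha : HisW hw0 (tOf τs) s₂ (r + 1) a) (hk : HisW hw0 (tOf τs) s₂ r kk)
    (he : ∀ k p, hisRHS q g (τs + Δ) S Ac β U j k p = a k p + Xf p.2 * kk k p) :
    HisW hw0 (tOf τs) s₂ (r + 1) (fun k => dY (U k j)) := by
  obtain ⟨m, hm, -⟩ := his_dim C j
  have hP : HisW hw0 (tOf τs) s₂ (r + 1) (hisP (τs + Δ) S U j) := by
    refine hisW_PB h₂ m (fun k => his_sm_P C _ j k) (fun k => ?_) ha hk
    rw [← hm]
    intro t ht y hy
    rw [his_PI C j k t ht y hy]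
    exact he k (t, y)
  exact his_of_P C hwOK_0 h₁₂ h₂ (his_u_of_R h₂ hR) hP

/-- the step for `j = 0, 1`. -/
theorem his_ind_ne (C : HiCtx q g Γ κ S ε τs Δ N Ac U β) (h₁₂ : tOf τs ≤ s₂) (h₂ : s₂ < 0)
    (hR : ∀ j, HisW hw0 (tOf τs) s₂ (r + 1) (fun k => U k j)) (hj : j ≠ 2) :
    HisW hw0 (tOf τs) s₂ (r + 1) (fun k => dY (U k j)) := by
  have hu := his_u_of_R h₂ hR
  have hu' : ∀ b, HisW hw0 (tOf τs) s₂ r (fun k => uT (U k) b) := fun b => (hu b).mono (Nat.le_succ r)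
  have hπ := his_pp_of_R h₂ hR
  have hBr : HisW hw0 (tOf τs) s₂ (r + 1) (hisBr q g (τs + Δ) S Ac β U j) :=
    his_Br C hwOK_0 h₂ _ hu (hR j) (fun l => (hu l).congr' h₂ fun k t _ y => his_fac_ne (U k) hj l (t, y))
  have hq : HisW hw0 (tOf τs) s₂ r (fun k => S.quad (U k) j) :=
    his_quad C hwOK_0 h₂ hu' (fun c c' => (hπ c).mul0 hwOK_0 h₂ (hπ c')) j
  refine his_close C h₁₂ h₂ hR (hBr.cmul hwOK_0 h₂ (his_sm_Den C))
    ((((hq.cmul hwOK_0 h₂ (sm_hiTh (τs + Δ))).cmul hwOK_0 h₂ (his_sm_Den C)).neg h₂).add hwOK_0 h₂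
      (his_kk0 C h₂ (τs + Δ) hR j)) ?_
  intro k p
  simp only [hisRHS, his_hxr_ne hj]
  ring

/-- the step for `j = 2`. -/
theorem his_ind_two (C : HiCtx q g Γ κ S ε τs Δ N Ac U β) (h₁₂ : tOf τs ≤ s₂) (h₂ : s₂ < 0)
    (hR : ∀ j, HisW hw0 (tOf τs) s₂ (r + 1) (fun k => U k j))
    (h01 : ∀ j : Fin 3, j ≠ 2 → HisW hw0 (tOf τs) s₂ (r + 1) (fun k => dY (U k j))) :
    HisW hw0 (tOf τs) s₂ (r + 1) (fun k => dY (U k 2)) := by
  have hu := his_u_of_R h₂ hR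
  have hu' : ∀ b, HisW hw0 (tOf τs) s₂ r (fun k => uT (U k) b) := fun b => (hu b).mono (Nat.le_succ r)
  have hπ := his_pp_of_R h₂ hR
  have hπA : ∀ c : Fin 5, c ≠ 3 → HisW hw0 (tOf τs) s₂ (r + 1) (fun k => hpp 1 (U k) c) := by
    intro c hc
    fin_cases c
    · exact h01 0 (by decide)
    · exact h01 1 (by decide)
    · exact hR 2
    · exact absurd rfl hc
    · exact hisW_const hwOK_0 h₂ (sm_const 1) _ _
  have hBr : HisW hw0 (tOf τs) s₂ (r + 1) (hisBr q g (τs + Δ) S Ac β U 2) :=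
    his_Br C hwOK_0 h₂ _ hu (hR 2) (fun l => (hR l).congr' h₂ fun k t _ y => his_fac_two (U k) l (t, y))
  have hqA : HisW hw0 (tOf τs) s₂ (r + 1) (hisQG S U (hisPiA U) 2) :=
    his_QG C hwOK_0 h₂ hu (his_PiA h₂ hπA) 2
  have hqB : HisW hw0 (tOf τs) s₂ r (hisQG S U (hisPiB U) 2) :=
    his_QG C hwOK_0 h₂ hu' (his_PiB h₂ hπ ((hR 2).dY h₂)) 2
  refine his_close C h₁₂ h₂ hR
    ((hBr.sub hwOK_0 h₂ (hqA.cmul hwOK_0 h₂ (sm_hiTh (τs + Δ)))).cmul hwOK_0 h₂ (his_sm_Den C))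
    ((((hqB.cmul hwOK_0 h₂ (sm_hiTh (τs + Δ))).cmul hwOK_0 h₂ (his_sm_Den C)).neg h₂).add hwOK_0 h₂
      (his_kk0 C h₂ (τs + Δ) hR 2)) ?_
  intro k p
  simp only [hisRHS, his_hxr_two, his_quad_split S U 2 k p]
  ring

/-- **the induction step.** -/
theorem his_ind (C : HiCtx q g Γ κ S ε τs Δ N Ac U β) (h₁₂ : tOf τs ≤ s₂) (h₂ : s₂ < 0)
    (hR : ∀ j, HisW hw0 (tOf τs) s₂ (r + 1) (fun k => U k j)) (j : Fin 3) :
    HisW hw0 (tOf τs) s₂ (r + 2) (fun k => U k j) := by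
  refine hisW_of_dY h₂ ((hR j).mono (Nat.zero_le _)) ?_
  by_cases hj : j = 2
  · subst hj
    exact his_ind_two C h₁₂ h₂ hR fun j hj => his_ind_ne C h₁₂ h₂ hR hj
  · exact his_ind_ne C h₁₂ h₂ hR hj

/-- `R(r+1)` for all `r`. -/
theorem his_all (C : HiCtx q g Γ κ S ε τs Δ N Ac U β) (h₁₂ : tOf τs ≤ s₂) (h₂ : s₂ < 0) (r : ℕ) :
    ∀ j, HisW hw0 (tOf τs) s₂ (r + 1) (fun k => U k j) := by
  induction r with
  | zero => exact his_R1 C h₁₂ h₂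
  | succ r ih => exact his_ind C h₁₂ h₂ ih

end Claimed.Agent.R324.Core
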