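/-
Row 324, module HI, PART S (final statement): all mixed derivatives of the iterates are bounded on `[ts,s₂] × [-1,1]`, uniformly in `k`.
Design: origin/helper402:docs/R324_HI.md, part S.
-/
import Claimed.Agent.R324.Core.HI.SInd

set_option autoImplicit false

namespace Claimed.Agent.R324.Core

open Set Filter Topology MeasureTheory
open scoped ContDiff

variable {q : ℝ} {g : Bg} {Γ : ℝ} {κ : HiC} {S : HNSt} {ε τs Δ : ℝ} {N : ℕ} {Ac : Fin N → Tri}
  {U : ℕ → Tri} {β : ℕ → ℝ → EuclideanSpace ℝ (Fin N)}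

/-- **Part S.** -/
theorem hi_sup (C : HiCtx q g Γ κ S ε τs Δ N Ac U β) {s₂ : ℝ} (h₁₂ : tOf τs ≤ s₂) (h₂ : s₂ < 0) (I r : ℕ)
    (j : Fin 3) : HiW hw0 (tOf τs) s₂ I r (fun k => U k j) :=
  ((his_all C h₁₂ h₂ r j).2 I).mono le_rfl (Nat.le_succ r)

end Claimed.Agent.R324.Core
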