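/-
Row 324, module HI, PART L (final statement): the limit of the iterates.
Design: origin/helper402:docs/R324_HI.md, part L.      Model: R325/Core/HI/{UC,Lim,Conv,Final}.lean (packs Pk56, Pk61; `git show origin/helper232:docs/R325_packmap.md`).
Files of part L (sub-architect helper739; plan in the header of HI/LDefs.lean):  LDefs, LE2, LO, LAff (L2), LUC (L1), LConv, LEq (L3), LXB (L4).
-/
import Claimed.Agent.R324.Core.HI.Sup
import Claimed.Agent.R324.Core.HI.LAff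
import Claimed.Agent.R324.Core.HI.LUC
import Claimed.Agent.R324.Core.HI.LEq
import Claimed.Agent.R324.Core.HI.LXB

set_option autoImplicit false

namespace Claimed.Agent.R324.Core

open Set Filter Topology MeasureTheory
open scoped ContDiff

variable {q : ℝ} {g : Bg} {Γ : ℝ} {κ : HiC} {S : HNSt} {ε τs Δ : ℝ} {N : ℕ} {Ac : Fin N → Tri}
  {U : ℕ → Tri} {β : ℕ → ℝ → EuclideanSpace ℝ (Fin N)}

/-- **Part L.** -/
theorem hi_limit (C : HiCtx q g Γ κ S ε τs Δ N Ac U β)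
    (hB : ∀ s₂ : ℝ, tOf τs ≤ s₂ → s₂ < 0 → ∀ (I r : ℕ) (j : Fin 3), HiW hw0 (tOf τs) s₂ I r (fun k => U k j)) :
    ∃ W : Tri, (∀ j, Sm (W j)) ∧ NLU q g (tOf (τs + Δ + 1)) W ∧ XB q g Γ (tOf (τs + Δ + 1)) ε W := by
  have hex : ∀ j : Fin 3, ∃ Wj : Fn, Sm Wj ∧
      ∀ s₁ s₂ : ℝ, tOf τs < s₁ → s₂ < 0 → HiLO s₁ s₂ (fun k p => U k j p - Wj p) := fun j =>
    hi_L_W_exists (w := fun k => U k j) (fun k => C.it.sm k j) (hi_L_tOf_neg τs) (fun k => C.it.zero k j)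
      (fun s₂ h1 h2 I r => hB s₂ h1 h2 I r j) (fun s₂ h1 h2 => hi_L_uc C h2 (hB s₂ h1 h2 0 1 2) j)
  choose W hW hO using hex
  exact ⟨W, hW, hi_L_NLU C hW hO, hi_L_XB C hW hO⟩

end Claimed.Agent.R324.Core
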