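/-
Row 324, module HI, file NLa (helper739, sub-architect of `hi_need_lin`): THE POINTWISE INEQUALITY FOR THE LINEARISED NONLINEARITY ("N0L").
   `hlinN q g U V j (t,y) = d/dh|₀ uT (NN (U + h V)) j (t,y)`.       Notation of Core/NT/N0.lean, N0T.lean.
   By `nt_struct`, `uT (NN W) j (t,y) = ntF c (Ψ(W)) (e₁(W)) (atoms W) j y`, `c = (ntCF q g).sl t` independent of `W`; the atoms are affine in `h`; the multipliers are `ψ(H(U + h V))`, `H` linear. Hence (`hi_nl_struct`)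
        hlinN q g U V j (t,y) = ntDF c 0 Ψ Ψd e₁ e₁d (atoms U) (atoms V) j y      for t < 0 and ALL y,
   and by `nt_DF_bound` with `Kd = 0` (`hi_nl_pt`)
        ntS2 (sl (hlinN q g U V j) t) y ≤ 10¹² K² [ ([[u]] + Λ³)² aa(V) + [[uV]]² aa(U) ]        if [[u]] ≤ 1 at (t,y).
-/
import Claimed.Agent.R324.Core.HI.Ops
import Claimed.Agent.R324.Core.NT.N0T

set_option autoImplicit false

namespace Claimed.Agent.R324.Core

open Set Filter Topology
open scoped ContDiff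

noncomputable section

/-- the derivative of `ψ(H(U + h V))` at `h = 0`  (`H` linear). -/
def hnlC (ψ : ℝ → ℝ) (H : Tri → Fn) (U V : Tri) : Fn := fun p => deriv ψ (H U p) * H V p

/-- the derivatives of the multipliers `ntPsF` in the direction `V`. -/
def hnlPd (q : ℝ) (U V : Tri) : Fin 7 → Fn :=
  ![hnlC ntMdE (h1F q) U V, hnlC ntMdE (h2F q) U V, hnlC ntMdE (fun W => W 1) U V,
    hnlC ntMdG (h1F q) U V, hnlC ntMdG (h2F q) U V, hnlC ntMdG (fun W => W 1) U V,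
    fun p => hnlC ntMdE (h2F q) U V p - hnlC ntMdG beF U V p
      - (hnlC ntMdE (h2F q) U V p * ntMdG (beF U p) + ntMdE (h2F q U p) * hnlC ntMdG beF U V p)]

/-- the zero coefficient array. -/
def hnlZ : NTc where
  c1 := fun _ _ _ _ => 0
  c2 := fun _ _ _ _ => 0
  c3 := fun _ _ => 0
  c5 := fun _ _ _ _ => 0
  c0 := fun _ _ _ => 0
  c0v := fun _ _ => 0

/-- `H (U + h V) = H U + h H V`. -/
def HnlAff (H : Tri → Fn) : Prop := ∀ (U V : Tri) (h : ℝ) (p : ℝ × ℝ), H (tAdd U h V) p = H U p + h * H V p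

/-- hygiene. -/
theorem hi_nla_hygiene : True := by
  have := @hnlC.eq_1
  have := @hnlPd.eq_1
  have := @hnlZ.eq_1
  have := @HnlAff.eq_1
  trivial

variable {q : ℝ} {g : Bg} {U V : Tri} {t y K Λ₀ : ℝ}

theorem hi_nl_aff1 (q : ℝ) : HnlAff (h1F q) := fun U V h p => by
  unfold h1F tAdd
  ring

theorem hi_nl_aff2 (q : ℝ) : HnlAff (h2F q) := fun U V h p => by
  unfold h2F tAdd
  ring

theorem hi_nl_aff3 : HnlAff (fun W => W 1) := fun _ _ _ _ => rfl

theorem hi_nl_aff4 : HnlAff beF := fun U V h p => by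
  unfold beF tAdd
  ring

theorem hi_nl_tAdd_zero (U V : Tri) : tAdd U 0 V = U := by
  funext j p
  simp [tAdd]

/-- an affine function of `h`. -/
theorem hi_nl_aff_hasDerivAt {f : ℝ → ℝ} {a b : ℝ} (h : ∀ s, f s = a + s * b) : HasDerivAt f b 0 := by
  have h1 : HasDerivAt (fun s : ℝ => a + s * b) b 0 := by
    simpa using ((hasDerivAt_id (0 : ℝ)).mul_const b).const_add a
  have e : f = fun s : ℝ => a + s * b := funext h
  rw [e]
  exact h1

section
variable {ψ : ℝ → ℝ} {H : Tri → Fn}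

theorem hi_nl_deriv_contDiff (hψ : NtMdOk ψ) : ContDiff ℝ ∞ (deriv ψ) := by
  have : ContDiff ℝ (∞ + 1) ψ := by simpa using hψ.cd
  exact (contDiff_succ_iff_deriv.1 this).2.2

theorem hi_nl_comp_hasDerivAt (hψ : NtMdOk ψ) (hH : HnlAff H) (U V : Tri) (p : ℝ × ℝ) :
    HasDerivAt (fun h : ℝ => ψ (H (tAdd U h V) p)) (hnlC ψ H U V p) 0 := by
  have h1 : HasDerivAt (fun h : ℝ => H (tAdd U h V) p) (H V p) 0 := hi_nl_aff_hasDerivAt (hH U V · p)
  have h2 : HasDerivAt ψ (deriv ψ (H U p)) (H (tAdd U 0 V) p) := by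
    rw [hi_nl_tAdd_zero]
    exact (hψ.cd.differentiable (by simp) _).hasDerivAt
  exact h2.comp (0 : ℝ) h1

theorem sm_hnlC (hψ : NtMdOk ψ) (hH : NtMdLin H) (hU : SmTri U) (hV : SmTri V) : Sm (hnlC ψ H U V) :=
  (Sm.comp (hi_nl_deriv_contDiff hψ) (hH.sm U hU)).mul (hH.sm V hV)

theorem hi_nl_comp_bd (hψ : NtMdOk ψ) (hH : NtMdLin H) (hU : SmTri U) (hV : SmTri V) (ht : t < 0)
    (h : ntUb U t y ≤ 1) : ntBk (sl (hnlC ψ H U V) t) y ≤ 6 * ntUb V t y := by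
  have h1 := hH.bk U hU t ht y
  have h3 := nt_comp_bk_deriv (h := sl (H U) t) (h1 := sl (H V) t) hψ.cd hψ.d1 hψ.d2
    (nt_sl_differentiable (hH.sm U hU) ht y) (nt_sl_differentiable (hH.sm V hV) ht y) (h1.trans h)
  have h4 := hH.bk V hV t ht y
  exact h3.trans (by linarith)

end

/-- smoothness of the derivatives of the multipliers. -/
theorem sm_hnlPd (hq : 0 ≤ q) (hU : SmTri U) (hV : SmTri V) (m : Fin 7) : Sm (hnlPd q U V m) := by
  fin_cases m
  · exact sm_hnlC nt_md_E (nt_md_lin1 hq) hU hV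
  · exact sm_hnlC nt_md_E (nt_md_lin2 hq) hU hV
  · exact sm_hnlC nt_md_E nt_md_lin3 hU hV
  · exact sm_hnlC nt_md_G (nt_md_lin1 hq) hU hV
  · exact sm_hnlC nt_md_G (nt_md_lin2 hq) hU hV
  · exact sm_hnlC nt_md_G nt_md_lin3 hU hV
  · exact ((sm_hnlC nt_md_E (nt_md_lin2 hq) hU hV).sub (sm_hnlC nt_md_G nt_md_lin4 hU hV)).sub
      (((sm_hnlC nt_md_E (nt_md_lin2 hq) hU hV).mul (Sm.comp nt_md_G.cd (sm_beF hU))).add
        ((Sm.comp nt_md_E.cd (sm_h2F q hU)).mul (sm_hnlC nt_md_G nt_md_lin4 hU hV)))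

/-- the multipliers are differentiable in `h`. -/
theorem hi_nl_Ps_hasDerivAt (q : ℝ) (U V : Tri) (t y : ℝ) (m : Fin 7) :
    HasDerivAt (fun h : ℝ => ntPs q (tAdd U h V) t m y) (hnlPd q U V m (t, y)) 0 := by
  fin_cases m
  · exact hi_nl_comp_hasDerivAt nt_md_E (hi_nl_aff1 q) U V (t, y)
  · exact hi_nl_comp_hasDerivAt nt_md_E (hi_nl_aff2 q) U V (t, y)
  · exact hi_nl_comp_hasDerivAt nt_md_E hi_nl_aff3 U V (t, y)
  · exact hi_nl_comp_hasDerivAt nt_md_G (hi_nl_aff1 q) U V (t, y)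
  · exact hi_nl_comp_hasDerivAt nt_md_G (hi_nl_aff2 q) U V (t, y)
  · exact hi_nl_comp_hasDerivAt nt_md_G hi_nl_aff3 U V (t, y)
  · have a := hi_nl_comp_hasDerivAt nt_md_E (hi_nl_aff2 q) U V (t, y)
    have b := hi_nl_comp_hasDerivAt nt_md_G hi_nl_aff4 U V (t, y)
    have e : (fun h : ℝ => ntPs q (tAdd U h V) t 6 y)
        = fun h : ℝ => (ntMdE (h2F q (tAdd U h V) (t, y)) - ntMdG (beF (tAdd U h V) (t, y)))
            - ntMdE (h2F q (tAdd U h V) (t, y)) * ntMdG (beF (tAdd U h V) (t, y)) := by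
      funext h
      show e2F q (tAdd U h V) (t, y) * Ph1 (beF (tAdd U h V) (t, y)) - 1 = _
      unfold ntMdE ntMdG e2F
      ring
    have D := (a.sub b).sub (a.mul b)
    simp only [hi_nl_tAdd_zero] at D
    show HasDerivAt (fun h : ℝ => ntPs q (tAdd U h V) t 6 y) _ 0
    rw [e]
    exact D

theorem hi_nl_e1_hasDerivAt (q : ℝ) (U V : Tri) (t y : ℝ) :
    HasDerivAt (fun h : ℝ => sl (e1F q (tAdd U h V)) t y) (hnlC ntMdE (h1F q) U V (t, y)) 0 := by
  have a := (hi_nl_comp_hasDerivAt nt_md_E (hi_nl_aff1 q) U V (t, y)).add_const 1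
  have e : (fun h : ℝ => sl (e1F q (tAdd U h V)) t y)
      = fun h : ℝ => ntMdE (h1F q (tAdd U h V) (t, y)) + 1 := by
    funext h
    show e1F q (tAdd U h V) (t, y) = _
    unfold ntMdE e1F
    ring
  rw [e]
  exact a

/-- size of the derivatives of the multipliers. -/
theorem hi_nl_mult_bd (hq : 0 ≤ q) (hU : SmTri U) (hV : SmTri V) (ht : t < 0) (h : ntUb U t y ≤ 1) :
    (∀ m, ntBk (sl (hnlPd q U V m) t) y ≤ 50 * ntUb V t y) ∧
      ntBk (sl (hnlC ntMdE (h1F q) U V) t) y ≤ 50 * ntUb V t y := by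
  have hδ : 0 ≤ ntUb V t y := ntUb_nonneg _ _ _
  have a1 := hi_nl_comp_bd nt_md_E (nt_md_lin1 hq) hU hV ht h
  have a2 := hi_nl_comp_bd nt_md_E (nt_md_lin2 hq) hU hV ht h
  have a3 := hi_nl_comp_bd nt_md_E nt_md_lin3 hU hV ht h
  have b1 := hi_nl_comp_bd nt_md_G (nt_md_lin1 hq) hU hV ht h
  have b2 := hi_nl_comp_bd nt_md_G (nt_md_lin2 hq) hU hV ht h
  have b3 := hi_nl_comp_bd nt_md_G nt_md_lin3 hU hV ht h
  have b4 := hi_nl_comp_bd nt_md_G nt_md_lin4 hU hV ht h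
  refine ⟨fun m => ?_, le_trans a1 (by linarith)⟩
  fin_cases m
  · exact le_trans a1 (by linarith)
  · exact le_trans a2 (by linarith)
  · exact le_trans a3 (by linarith)
  · exact le_trans b1 (by linarith)
  · exact le_trans b2 (by linarith)
  · exact le_trans b3 (by linarith)
  · have c1 := nt_md_comp_bound nt_md_G nt_md_lin4 hU ht h
    have c2 := nt_md_comp_bound nt_md_E (nt_md_lin2 hq) hU ht h
    have k := nt_md_comb (y := y)
      (nt_sl_differentiable (sm_hnlC nt_md_E (nt_md_lin2 hq) hU hV) ht y)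
      (nt_sl_differentiable (sm_hnlC nt_md_G nt_md_lin4 hU hV) ht y)
      (nt_md_df nt_md_G nt_md_lin4 hU ht y) (nt_md_df nt_md_E (nt_md_lin2 hq) hU ht y)
      a2 b4 (c1.trans (by linarith)) (c2.trans (by linarith))
    exact le_trans k (by linarith)

/-- `tt` of the u-form is affine in `h`. -/
theorem hi_nl_ttF_uT_tAdd (hU : SmTri U) (hV : SmTri V) (h : ℝ) (i : Fin 3) (ht : t < 0) (y : ℝ) :
    ttF (uT (tAdd U h V) i) (t, y) = ttF (uT U i) (t, y) + h * ttF (uT V i) (t, y) := by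
  have e : dY (uT (tAdd U h V) i) (t, y) = dY (uT U i) (t, y) + h * dY (uT V i) (t, y) := by
    rw [dY_congr (g := fun p => uT U i p + h * uT V i p) (fun z => hi_uT_tAdd U V h i (t, z)) y,
      dY_add (sm_uT hU i) ((sm_uT hV i).const_mul h) ht y, dY_const_mul h (sm_uT hV i) ht y]
  rw [ttF_apply, ttF_apply, ttF_apply, e]
  ring

/-- the atoms are affine in `h`. -/
theorem hi_nl_atoms_hasDerivAt (hU : SmTri U) (hV : SmTri V) (ht : t < 0) (y : ℝ) :
    (∀ k, HasDerivAt (fun h : ℝ => ((ntAF q g (tAdd U h V)).sl t).A k y) (((ntAF q g V).sl t).A k y) 0) ∧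
    (∀ j, HasDerivAt (fun h : ℝ => ((ntAF q g (tAdd U h V)).sl t).v j y) (((ntAF q g V).sl t).v j y) 0) ∧
    (∀ l, HasDerivAt (fun h : ℝ => ((ntAF q g (tAdd U h V)).sl t).p l y) (((ntAF q g V).sl t).p l y) 0) := by
  have hu : ∀ i, HasDerivAt (fun h : ℝ => uT (tAdd U h V) i (t, y)) (uT V i (t, y)) 0 := fun i =>
    hi_nl_aff_hasDerivAt (fun h => hi_uT_tAdd U V h i (t, y))
  have htu : ∀ i, HasDerivAt (fun h : ℝ => ttF (uT (tAdd U h V) i) (t, y)) (ttF (uT V i) (t, y)) 0 := fun i =>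
    hi_nl_aff_hasDerivAt (fun h => hi_nl_ttF_uT_tAdd hU hV h i ht y)
  have hd : ∀ i, HasDerivAt (fun h : ℝ => dY (tAdd U h V i) (t, y)) (dY (V i) (t, y)) 0 := fun i =>
    hi_nl_aff_hasDerivAt (fun h => hi_dY_tAdd hU hV h i ht y)
  refine ⟨fun k => ?_, fun j => ?_, fun l => ?_⟩
  · fin_cases k
    · exact hu 0
    · exact hu 1
    · exact hu 2
    · exact htu 0
    · exact htu 1
    · exact htu 2
  · exact hi_nl_aff_hasDerivAt (fun h => hi_hvT_tAdd hU hV h j ht y)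
  · fin_cases l
    · exact hd 0
    · exact hd 1
    · exact hi_nl_aff_hasDerivAt (a := U 2 (t, y)) (fun h => rfl)
    · exact (hd 2).const_mul (Xf y)

/-- **the structure of the linearised nonlinearity.** -/
theorem hi_nl_struct (hq : 1 < q) (hg : BgSm g) (hU : SmTri U) (hV : SmTri V) (ht : t < 0) (j : Fin 3) (y : ℝ) :
    hlinN q g U V j (t, y)
      = ntDF ((ntCF q g).sl t) hnlZ (ntPs q U t) (fun m => sl (hnlPd q U V m) t)
          (sl (e1F q U) t) (sl (hnlC ntMdE (h1F q) U V) t) ((ntAF q g U).sl t) ((ntAF q g V).sl t) j y := by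
  have hfun : (fun h : ℝ => uT (NN q g (tAdd U h V)) j (t, y))
      = fun h : ℝ => ntF ((ntCF q g).sl t) (ntPs q (tAdd U h V) t) (sl (e1F q (tAdd U h V)) t)
          ((ntAF q g (tAdd U h V)).sl t) j y :=
    funext fun h => nt_struct hq hg (hU.tAdd h hV) ht y j
  obtain ⟨hA, hv, hp⟩ := hi_nl_atoms_hasDerivAt (q := q) (g := g) hU hV ht y
  have hD := nt_F_hasDerivAt (c := fun _ => (ntCF q g).sl t) (cd := hnlZ)
    (Ps := fun h => ntPs q (tAdd U h V) t) (Pd := fun m => sl (hnlPd q U V m) t)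
    (e := fun h => sl (e1F q (tAdd U h V)) t) (ed := sl (hnlC ntMdE (h1F q) U V) t)
    (a := fun h => (ntAF q g (tAdd U h V)).sl t) (ad := (ntAF q g V).sl t) (t := 0) (y := y) j
    (fun m k => hasDerivAt_const _ _) (fun m l => hasDerivAt_const _ _) (hasDerivAt_const _ _)
    (fun k l => hasDerivAt_const _ _) (fun k => hasDerivAt_const _ _) (hasDerivAt_const _ _)
    (fun m => hi_nl_Ps_hasDerivAt q U V t y m) (hi_nl_e1_hasDerivAt q U V t y) hA (hv j) hp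
  simp only [hi_nl_tAdd_zero] at hD
  show deriv (fun h : ℝ => uT (NN q g (tAdd U h V)) j (t, y)) 0 = _
  rw [hfun]
  exact hD.deriv

theorem hi_nl_Z_df : hnlZ.Df :=
  ⟨fun _ _ _ => differentiable_const _, fun _ _ _ => differentiable_const _, fun _ => differentiable_const _,
    fun _ _ _ => differentiable_const _, fun _ _ => differentiable_const _, fun _ => differentiable_const _⟩

theorem hi_nl_Z_bd (ρ y : ℝ) : hnlZ.Bd 0 1 ρ y := by
  have h0 : ntBk (fun _ => (0 : ℝ)) y = 0 := by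
    rw [ntBk_const]
    simp
  refine ⟨fun _ _ _ => ?_, fun _ _ _ => ?_, fun _ => ?_, fun _ _ _ => ?_, fun _ _ => ?_, fun _ => ?_⟩ <;>
  · show ntBk (fun _ => (0 : ℝ)) y ≤ _
    simp [h0]

/-- **N0L.** -/
theorem hi_nl_pt (hq : 100 ≤ q) (hg : BgSm g) (hc : NTCoef q g K Λ₀) (hU : SmTri U) (hV : SmTri V)
    (ht : t ∈ Ico (-Λ₀) 0) (hy : y ∈ Icc (-1 : ℝ) 1) (h1 : ntUb U t y ≤ 1) (j : Fin 3) :
    ntS2 (sl (hlinN q g U V j) t) y
      ≤ 10 ^ 12 * K ^ 2 * ((ntUb U t y + (-t) ^ 3) ^ 2 * ntAaU q g V t y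
          + (ntUb V t y) ^ 2 * ntAaU q g U t y) := by
  have ht0 : t < 0 := ht.2
  have hq1 : 1 < q := by linarith
  have hq0 : 0 ≤ q := by linarith
  have hΛ1 : Λ₀ ≤ 1 := hc.L1.trans (by rw [div_le_one (by linarith)]; exact hq)
  have hρ : 0 < rh2 q t y := rh2_pos_dom hq1 (domOK_DW hΛ1) (mem_DW ht hy)
  have hκ0 : 0 ≤ (-t) ^ 3 := pow_nonneg (by linarith) 3
  have hK0 : 0 ≤ K := by linarith [hc.K1]
  have hfun : sl (hlinN q g U V j) t
      = ntDF ((ntCF q g).sl t) hnlZ (ntPs q U t) (fun m => sl (hnlPd q U V m) t)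
          (sl (e1F q U) t) (sl (hnlC ntMdE (h1F q) U V) t) ((ntAF q g U).sl t) ((ntAF q g V).sl t) j :=
    funext fun z => hi_nl_struct hq1 hg hU hV ht0 j z
  rw [hfun]
  obtain ⟨m1, m3⟩ := nt_mult_bound (y := y) hq0 hU ht0 h1
  obtain ⟨m2, m4⟩ := hi_nl_mult_bd (y := y) hq0 hU hV ht0 h1
  have key := nt_DF_bound ((nt_sm_CF hq1 hg).df ht0) hi_nl_Z_df
    (nt_Ps_differentiable q hU ht0) (fun m => nt_sl_differentiable (sm_hnlPd hq0 hU hV m) ht0)
    (nt_sl_differentiable (sm_e1F q hU) ht0)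
    (nt_sl_differentiable (sm_hnlC nt_md_E (nt_md_lin1 hq0) hU hV) ht0)
    ((nt_sm_AF hq1 hg hU).df ht0) ((nt_sm_AF hq1 hg hV).df ht0) hy hρ hK0 le_rfl hκ0
    (by norm_num : (1 : ℝ) ≤ 50) (ntUb_nonneg U t y) h1 (ntUb_nonneg V t y)
    (hc.bd t ht y hy) (hi_nl_Z_bd _ _) m1 m2 m3 m4 (nt_Xp_le q g hU ht0 hy)
    (nt_Xp_le q g hV ht0 hy) j
  refine key.trans ?_
  have hA := ntAaU_nonneg q g U t y
  have hB := ntAaU_nonneg q g V t y
  have e : 10 ^ 8 * (50 : ℝ) ^ 2 * (((0 : ℝ) ^ 2 + K ^ 2 * (ntUb V t y) ^ 2) * ntAa (rh2 q t y) ((ntAF q g U).sl t) y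
        + K ^ 2 * (ntUb U t y + (-t) ^ 3) ^ 2 * ntAa (rh2 q t y) ((ntAF q g V).sl t) y)
      = 250000000000 * (K ^ 2 * ((ntUb U t y + (-t) ^ 3) ^ 2 * ntAaU q g V t y
          + (ntUb V t y) ^ 2 * ntAaU q g U t y)) := by
    unfold ntAaU
    ring
  rw [e]
  have hX : 0 ≤ K ^ 2 * ((ntUb U t y + (-t) ^ 3) ^ 2 * ntAaU q g V t y + (ntUb V t y) ^ 2 * ntAaU q g U t y) := by
    positivity
  nlinarith

end

end Claimed.Agent.R324.Core
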