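/-
Row 324, module HI, file NLb (helper739, sub-architect of `hi_need_lin`):   𝕀[V₁ aa(U)] ≤ C (D0 + D1)(U)   for REAL `q ≥ 1000`
(the statement `nl_atoms` of Core/NL/Atoms.lean is for `q : ℕ`, `q ≥ 10⁶`; same proof: `nlB_point`, `w_out_jets`), in the notation `ntAaU` of Core/NT  (`nl_Aa_eq`, Core/NL/N0.lean).
-/
import Claimed.Agent.R324.Core.HI.Defs
import Claimed.Agent.R324.Core.NL.N0
import Claimed.Agent.R324.Core.NL.Atoms
import Claimed.Agent.R324.Core.W.Out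

set_option autoImplicit false

namespace Claimed.Agent.R324.Core

open Set Filter Topology MeasureTheory
open scoped ContDiff

variable {q Γ : ℝ} {g : Bg} {U : Tri} {t : ℝ}

/-- part (1): the atoms `v`. -/
theorem hi_nl_atoms_v (hq1 : 1 < q) (hg : BgSm g) (hΓ : 0 ≤ Γ) (hU : SmTri U) (ht : t < 0) :
    II (fun y => V1 q Γ t y * ∑ j, ntS2 ((nlAt q g U t).v j) y) ≤ 2 * D1 q g Γ U t := by
  have hq0 : 0 < q := by linarith
  have hv : ∀ j, SmI (slT (Lt q g U) t j) := smI_slT (sm_Lt hq1 hg hU) ht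
  have hV : CI (V1 q Γ t) := ((smS_wL 4 30 q Γ).smI ht).continuousOn
  have c1 : CI (n2 q (slT (Lt q g U) t)) := ci_n2 hv
  have c2 : CI (n2t q (slT (Lt q g U) t)) := ci_n2t hv
  unfold D1 Di
  rw [← ii_const_mul]
  refine ii_mono (hV.mul (nl_ci_sum_v hq1 hg hU ht)) (continuousOn_const.mul (hV.mul (c2.add (continuousOn_const.mul c1)))) ?_
  intro y hy
  have hV0 : 0 < V1 q Γ t y := w0_wL_pos hq1 hΓ ht hy
  have hn : 0 ≤ n2 q (slT (Lt q g U) t) y := n2_nonneg hq0 _ _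
  have key : ∑ j, ntS2 ((nlAt q g U t).v j) y
      ≤ 2 * (n2t q (slT (Lt q g U) t) y + n2 q (slT (Lt q g U) t) y) := by
    rw [n2_eq_nk, n2t_eq_nk]
    have a1 := nlB_sum_sq_le hq1.le (fun i => uV (slT (Lt q g U) t) i y)
    have a2 := nlB_sum_sq_le hq1.le (fun i => tt (uV (slT (Lt q g U) t) i) y)
    have e : ∑ j, ntS2 ((nlAt q g U t).v j) y
        = ∑ i, (uV (slT (Lt q g U) t) i y) ^ 2 + ∑ i, (tt (uV (slT (Lt q g U) t) i) y) ^ 2 := by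
      rw [← Finset.sum_add_distrib]
      rfl
    rw [e]
    linarith
  have h2 : n2 q (slT (Lt q g U) t) y ≤ q * n2 q (slT (Lt q g U) t) y := by nlinarith
  calc V1 q Γ t y * ∑ j, ntS2 ((nlAt q g U t).v j) y
      ≤ V1 q Γ t y * (2 * (n2t q (slT (Lt q g U) t) y + q * n2 q (slT (Lt q g U) t) y)) :=
        mul_le_mul_of_nonneg_left (by linarith) hV0.le
    _ = 2 * (V1 q Γ t y * (n2t q (slT (Lt q g U) t) y + q * n2 q (slT (Lt q g U) t) y)) := by ring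

/-- part (2): the atoms `A`. -/
theorem hi_nl_atoms_A (hq : 100 ≤ q) (hg : BgGood q g) :
    ∃ C Λ₀ : ℝ, 0 ≤ C ∧ 0 < Λ₀ ∧ ∀ Γ : ℝ, 0 ≤ Γ → ∀ t ∈ Ico (-Λ₀) 0, ∀ U : Tri, SmTri U →
      II (fun y => V1 q Γ t y * ((∑ k, ntS2 ((nlAt q g U t).A k) y) / (rh2 q t y) ^ 2)) ≤ C * hiD q g Γ U t := by
  have hq1 : (1 : ℝ) < q := by linarith
  obtain ⟨Λ₀, C, hΛ, _, hC, hc⟩ := wc_coefB_R hq hg
  refine ⟨60 * C ^ 4, Λ₀, by positivity, hΛ, ?_⟩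
  intro Γ hΓ t ht U hU
  have ht0 : t < 0 := ht.2
  have hL : ∀ j, Sm (Lt q g U j) := sm_Lt hq1 hg.sm hU
  have hV0 : CI (V0 q Γ t) := ((smS_wL 2 30 q Γ).smI ht0).continuousOn
  have hV1 : CI (V1 q Γ t) := ((smS_wL 4 30 q Γ).smI ht0).continuousOn
  have c0 : CI (fun y => V0 q Γ t y * (n2t q (slT U t) y + q * n2 q (slT U t) y)) :=
    hV0.mul ((ci_n2t (smI_slT hU ht0)).add (continuousOn_const.mul (ci_n2 (smI_slT hU ht0))))
  have c1 : CI (fun y => V1 q Γ t y * (n2t q (slT (Lt q g U) t) y + q * n2 q (slT (Lt q g U) t) y)) :=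
    hV1.mul ((ci_n2t (smI_slT hL ht0)).add (continuousOn_const.mul (ci_n2 (smI_slT hL ht0))))
  have c2 : CI (fun y => V0 q Γ t y * (n2t q (slT U t) y + q * n2 q (slT U t) y)
      + V1 q Γ t y * (n2t q (slT (Lt q g U) t) y + q * n2 q (slT (Lt q g U) t) y)) := c0.add c1
  have c3 : CI (fun y => 60 * C ^ 4 * (V0 q Γ t y * (n2t q (slT U t) y + q * n2 q (slT U t) y)
      + V1 q Γ t y * (n2t q (slT (Lt q g U) t) y + q * n2 q (slT (Lt q g U) t) y))) := continuousOn_const.mul c2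
  refine (ii_mono (nlB_ci hq1 g Γ hU ht0) c3 (fun y hy => nlB_point hq hC hc hΓ hU ht hy)).trans (le_of_eq ?_)
  rw [ii_const_mul, ii_add c0 c1]
  rfl

theorem hi_nl_D0_nonneg (hq1 : 1 < q) (hΓ : 0 ≤ Γ) (U : Tri) (ht : t < 0) : 0 ≤ D0 q Γ U t := by
  have hq0 : 0 < q := by linarith
  unfold D0 Di
  refine ii_nonneg fun y hy => ?_
  have hV0 : 0 < V0 q Γ t y := w0_wL_pos hq1 hΓ ht hy
  have a1 := n2_nonneg hq0 (slT U t) y
  have a2 := n2t_nonneg hq0 (slT U t) y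
  positivity

/-- **the atoms are controlled by the dissipation** (real `q`). -/
theorem hi_nl_atoms (hq : 1000 ≤ q) (hg : BgGood q g) :
    ∃ C Λ₀ : ℝ, 0 ≤ C ∧ 0 < Λ₀ ∧ ∀ Γ : ℝ, 0 ≤ Γ → ∀ t ∈ Ico (-Λ₀) 0, ∀ U : Tri, SmTri U →
      II (fun y => V1 q Γ t y * ntAaU q g U t y) ≤ C * hiD q g Γ U t := by
  have hq1 : (1 : ℝ) < q := by linarith
  obtain ⟨C₂, Λ₂, hC₂, hΛ₂, h2⟩ := hi_nl_atoms_A (by linarith : (100 : ℝ) ≤ q) hg
  obtain ⟨C₃, Λ₃, hC₃, hΛ₃, h3⟩ := w_out_jets hq hg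
  refine ⟨2 + C₂ + C₃, min Λ₂ Λ₃, by positivity, lt_min hΛ₂ hΛ₃, ?_⟩
  intro Γ hΓ t ht U hU
  have ht0 : t < 0 := ht.2
  have ht2 : t ∈ Ico (-Λ₂) 0 := ⟨by have := min_le_left Λ₂ Λ₃; linarith [ht.1], ht0⟩
  have ht3 : t ∈ Ico (-Λ₃) 0 := ⟨by have := min_le_right Λ₂ Λ₃; linarith [ht.1], ht0⟩
  have hV : CI (V1 q Γ t) := ((smS_wL 4 30 q Γ).smI ht0).continuousOn
  have cv : CI (fun y => V1 q Γ t y * ∑ j, ntS2 ((nlAt q g U t).v j) y) := hV.mul (nl_ci_sum_v hq1 hg.sm hU ht0)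
  have cA : CI (fun y => V1 q Γ t y * ((∑ k, ntS2 ((nlAt q g U t).A k) y) / (rh2 q t y) ^ 2)) :=
    hV.mul (nl_ci_sum_A hq1 g hU ht0)
  have cp : CI (fun y => V1 q Γ t y * ∑ l, ntS2 ((nlAt q g U t).p l) y) := hV.mul (nl_ci_sum_p q g hU ht0)
  have e : II (fun y => V1 q Γ t y * ntAaU q g U t y)
      = II (fun y => V1 q Γ t y * ∑ j, ntS2 ((nlAt q g U t).v j) y)
        + II (fun y => V1 q Γ t y * ((∑ k, ntS2 ((nlAt q g U t).A k) y) / (rh2 q t y) ^ 2))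
        + II (fun y => V1 q Γ t y * ∑ l, ntS2 ((nlAt q g U t).p l) y) := by
    have cvA : CI (fun y => V1 q Γ t y * ∑ j, ntS2 ((nlAt q g U t).v j) y
        + V1 q Γ t y * ((∑ k, ntS2 ((nlAt q g U t).A k) y) / (rh2 q t y) ^ 2)) := cv.add cA
    rw [← ii_add cv cA, ← ii_add cvA cp]
    refine ii_congr fun y _ => ?_
    rw [← nl_Aa_eq]
    simp only [nlAa, ntAa]
    ring
  have h1 := hi_nl_atoms_v hq1 hg.sm hΓ hU ht0
  have h2' := h2 Γ hΓ t ht2 U hU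
  have h3' : II (fun y => V1 q Γ t y * ∑ l, ntS2 ((nlAt q g U t).p l) y) ≤ C₃ * hiD q g Γ U t :=
    h3 Γ hΓ t ht3 U hU
  have hD0 := hi_nl_D0_nonneg hq1 hΓ U ht0
  have hDD : D1 q g Γ U t ≤ hiD q g Γ U t := by
    unfold hiD
    linarith
  rw [e]
  nlinarith

end Claimed.Agent.R324.Core
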