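/-
Row 324, module HI, file NLc (helper739, sub-architect of `hi_need_lin`): THE ESTIMATE OF THE LINEARISED NONLINEARITY (`HiU.lin`).
   hDYu (hlinN U V) = 𝕀[V₁ Σ κ_i ((tt s_i)² + q s_i²)],  s = hlinN U V;      Σ κ_i (..) ≤ q (q+1) Σ_i ntS2 s_i   (`hi_nl_dens`),
   `hi_nl_pt` (N0L, HI/NLa.lean):  ntS2 s_i ≤ 10¹² K² [([[u]] + Λ³)² aa(V) + [[uV]]² aa(U)],       [[u]]² ≤ 12 (n2 + n2t)(U) ≤ 12 Cs hiE U   (`nt_Ub_sq_le`, `w_out_sup`),
   `hi_nl_atoms` (HI/NLb.lean):  𝕀[V₁ aa(W)] ≤ Ca hiD W.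
   No regularity of `hlinN` in `y` is needed for the integration:  if the integrand on the left is not integrable its integral is `0` (`hi_nl_ii_le`).
-/
import Claimed.Agent.R324.Core.HI.NLa
import Claimed.Agent.R324.Core.HI.NLb

set_option autoImplicit false

namespace Claimed.Agent.R324.Core

open Set Filter Topology MeasureTheory
open scoped ContDiff

variable {q Γ : ℝ} {g : Bg} {U V : Tri} {t : ℝ}

/-- monotonicity of `𝕀` without any assumption on the smaller function. -/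
theorem hi_nl_ii_le {f k : ℝ → ℝ} (hk : CI k) (h0 : ∀ y ∈ Icc (-1 : ℝ) 1, 0 ≤ k y)
    (h : ∀ y ∈ Icc (-1 : ℝ) 1, f y ≤ k y) : II f ≤ II k := by
  by_cases hf : IntervalIntegrable (fun ϑ => f (Real.cos ϑ)) volume 0 Real.pi
  · unfold II
    exact intervalIntegral.integral_mono_on Real.pi_pos.le hf (ii_integrable hk _ _)
      (fun ϑ _ => h _ (cos_mem_Icc ϑ))
  · have e : II f = 0 := intervalIntegral.integral_undef hf
    rw [e]
    exact ii_nonneg h0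

theorem hi_nl_En_nonneg (hq : 0 < q) {W : ℝ → ℝ} (hW : ∀ y ∈ Icc (-1 : ℝ) 1, 0 ≤ W y) (u : Fin 3 → ℝ → ℝ) :
    0 ≤ En q W u := by
  unfold En
  refine ii_nonneg fun y hy => ?_
  have hX : 0 ≤ 1 - y ^ 2 := by nlinarith [hy.1, hy.2]
  exact mul_nonneg (mul_nonneg hX (hW y hy)) (n2_nonneg hq u y)

theorem hi_nl_E_nonneg (hq : 1 < q) (hΓ : 0 ≤ Γ) (g : Bg) (U : Tri) (ht : t < 0) : 0 ≤ hiE q g Γ U t :=
  add_nonneg (hi_nl_En_nonneg (by linarith) (fun _ hy => (w0_wL_pos hq hΓ ht hy).le) _)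
    (hi_nl_En_nonneg (by linarith) (fun _ hy => (w0_wL_pos hq hΓ ht hy).le) _)

theorem hi_nl_kapJ_le (hq : 1 ≤ q) (i : Fin 3) : kapJ q i ≤ q + 1 := by
  fin_cases i
  · show q + 1 ≤ q + 1
    exact le_rfl
  · show (2 : ℝ) ≤ q + 1
    linarith
  · show q / (q + 1) ≤ q + 1
    rw [div_le_iff₀ (by linarith)]
    nlinarith

/-- the density of `hDYu`. -/
theorem hi_nl_dens (hq : 1 ≤ q) (s : Tri) (t y : ℝ) :
    ∑ i, kapJ q i * ((ttF (s i) (t, y)) ^ 2 + q * (s i (t, y)) ^ 2)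
      ≤ q * (q + 1) * ∑ i, ntS2 (sl (s i) t) y := by
  rw [Finset.mul_sum]
  refine Finset.sum_le_sum fun i _ => ?_
  have h1 := hi_nl_kapJ_le hq i
  have h0 : 0 ≤ kapJ q i := (kapJ_pos (by linarith) i).le
  have e : ntS2 (sl (s i) t) y = (s i (t, y)) ^ 2 + (ttF (s i) (t, y)) ^ 2 := rfl
  rw [e]
  have a := sq_nonneg (ttF (s i) (t, y))
  have b := sq_nonneg (s i (t, y))
  have h2 : (ttF (s i) (t, y)) ^ 2 + q * (s i (t, y)) ^ 2 ≤ q * ((s i (t, y)) ^ 2 + (ttF (s i) (t, y)) ^ 2) := by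
    nlinarith
  calc kapJ q i * ((ttF (s i) (t, y)) ^ 2 + q * (s i (t, y)) ^ 2)
      ≤ (q + 1) * (q * ((s i (t, y)) ^ 2 + (ttF (s i) (t, y)) ^ 2)) :=
        mul_le_mul h1 h2 (by positivity) (by linarith)
    _ = q * (q + 1) * ((s i (t, y)) ^ 2 + (ttF (s i) (t, y)) ^ 2) := by ring

/-- scalar arithmetic. -/
theorem hi_nl_arith {A Cs ub uv κ L6 nU nV EU EV aU aV S : ℝ} (hA : 0 ≤ A) (hCs : 0 ≤ Cs) (hκ : κ ^ 2 = L6)
    (hEU : 0 ≤ EU) (hEV : 0 ≤ EV) (haU : 0 ≤ aU) (haV : 0 ≤ aV)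
    (h1 : ub ^ 2 ≤ 12 * nU) (h2 : nU ≤ Cs * EU) (h3 : uv ^ 2 ≤ 12 * nV) (h4 : nV ≤ Cs * EV)
    (hS : S ≤ A * ((ub + κ) ^ 2 * aV + uv ^ 2 * aU)) :
    S ≤ A * (24 * Cs + 2) * ((EU + L6) * aV + EV * aU) := by
  have hL : 0 ≤ L6 := by rw [← hκ]; positivity
  have e1 : (ub + κ) ^ 2 ≤ (24 * Cs + 2) * (EU + L6) := by
    have a1 : (ub + κ) ^ 2 ≤ 2 * ub ^ 2 + 2 * κ ^ 2 := by nlinarith [sq_nonneg (ub - κ)]
    have a2 : 0 ≤ Cs * L6 := mul_nonneg hCs hL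
    rw [hκ] at a1
    nlinarith
  have e2 : uv ^ 2 ≤ (24 * Cs + 2) * EV := by
    have a2 : 0 ≤ Cs * EV := mul_nonneg hCs hEV
    nlinarith
  have e3 : (ub + κ) ^ 2 * aV + uv ^ 2 * aU ≤ (24 * Cs + 2) * (EU + L6) * aV + (24 * Cs + 2) * EV * aU :=
    add_le_add (mul_le_mul_of_nonneg_right e1 haV) (mul_le_mul_of_nonneg_right e2 haU)
  calc S ≤ A * ((ub + κ) ^ 2 * aV + uv ^ 2 * aU) := hS
    _ ≤ A * ((24 * Cs + 2) * (EU + L6) * aV + (24 * Cs + 2) * EV * aU) := mul_le_mul_of_nonneg_left e3 hA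
    _ = _ := by ring

/-- **the linearised nonlinearity** (= `hi_need_lin`, `HiU.lin`). -/
theorem hi_nl_lin (hq : 1000 ≤ q) (hg : BgGood q g) : ∀ Γ : ℝ, 0 ≤ Γ → ∃ K ε₁ Λ₀ : ℝ, 0 ≤ K ∧ 0 < ε₁ ∧ 0 < Λ₀ ∧
    ∀ t ∈ Ico (-Λ₀) 0, ∀ U V : Tri, SmTri U → SmTri V → hiE q g Γ U t ≤ ε₁ ^ 2 →
      hDYu q Γ (hlinN q g U V) t
        ≤ K * ((hiE q g Γ U t + (-t) ^ 6) * hiD q g Γ V t + hiE q g Γ V t * hiD q g Γ U t) := by
  have hq100 : (100 : ℝ) ≤ q := by linarith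
  have hq1 : (1 : ℝ) < q := by linarith
  have hq0 : (0 : ℝ) < q := by linarith
  obtain ⟨K, Λ₁, hc⟩ := nt_coef_bd hq100 hg
  obtain ⟨Cs, Λ₂, hCs, hΛ₂, Hs⟩ := w_out_sup hq hg
  obtain ⟨Ca, Λ₃, hCa, hΛ₃, Ha⟩ := hi_nl_atoms hq hg
  intro Γ hΓ
  set A : ℝ := 10 ^ 12 * K ^ 2 with hA
  have hA0 : 0 ≤ A := by positivity
  set M : ℝ := q * (q + 1) * (3 * (A * (24 * Cs + 2))) with hM
  have hM0 : 0 ≤ M := by positivity
  have hε0 : 0 < 1 / (12 * Cs + 1) := by positivity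
  refine ⟨M * Ca, 1 / (12 * Cs + 1), min Λ₁ (min Λ₂ Λ₃), by positivity, hε0,
    lt_min hc.L0 (lt_min hΛ₂ hΛ₃), ?_⟩
  intro t ht U V hU hV hE
  have ht0 : t < 0 := ht.2
  have l1 : min Λ₁ (min Λ₂ Λ₃) ≤ Λ₁ := min_le_left _ _
  have l2 : min Λ₁ (min Λ₂ Λ₃) ≤ Λ₂ := (min_le_right _ _).trans (min_le_left _ _)
  have l3 : min Λ₁ (min Λ₂ Λ₃) ≤ Λ₃ := (min_le_right _ _).trans (min_le_right _ _)
  have ht1 : t ∈ Ico (-Λ₁) 0 := ⟨by linarith [ht.1], ht0⟩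
  have ht2 : t ∈ Ico (-Λ₂) 0 := ⟨by linarith [ht.1], ht0⟩
  have ht3 : t ∈ Ico (-Λ₃) 0 := ⟨by linarith [ht.1], ht0⟩
  have hEU := hi_nl_E_nonneg hq1 hΓ g U ht0
  have hEV := hi_nl_E_nonneg hq1 hΓ g V ht0
  have hL6 : 0 ≤ (-t) ^ 6 := by positivity
  -- smallness
  have hsm : 12 * (Cs * hiE q g Γ U t) ≤ 1 := by
    have a1 : (1 / (12 * Cs + 1)) ^ 2 ≤ 1 / (12 * Cs + 1) := by
      have : 1 / (12 * Cs + 1) ≤ 1 := by
        rw [div_le_one (by positivity)]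
        linarith
      nlinarith
    have a2 : Cs * hiE q g Γ U t ≤ Cs * (1 / (12 * Cs + 1)) := mul_le_mul_of_nonneg_left (hE.trans a1) hCs
    have a3 : 12 * (Cs * (1 / (12 * Cs + 1))) ≤ 1 := by
      have : 12 * (Cs * (1 / (12 * Cs + 1))) = 12 * Cs / (12 * Cs + 1) := by ring
      rw [this, div_le_one (by positivity)]
      linarith
    linarith
  have hV1c : CI (V1 q Γ t) := ((smS_wL 4 30 q Γ).smI ht0).continuousOn
  have cU : CI (fun y => V1 q Γ t y * ntAaU q g U t y) := hV1c.mul (nt_ci_aa hq1 hg.sm hU ht0)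
  have cV : CI (fun y => V1 q Γ t y * ntAaU q g V t y) := hV1c.mul (nt_ci_aa hq1 hg.sm hV ht0)
  set c₁ : ℝ := M * (hiE q g Γ U t + (-t) ^ 6) with hc₁
  set c₂ : ℝ := M * hiE q g Γ V t with hc₂
  have hc₁0 : 0 ≤ c₁ := by positivity
  have hc₂0 : 0 ≤ c₂ := by positivity
  have d1 : CI (fun y => c₁ * (V1 q Γ t y * ntAaU q g V t y)) := continuousOn_const.mul cV
  have d2 : CI (fun y => c₂ * (V1 q Γ t y * ntAaU q g U t y)) := continuousOn_const.mul cU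
  have key : hDYu q Γ (hlinN q g U V) t
      ≤ II (fun y => c₁ * (V1 q Γ t y * ntAaU q g V t y) + c₂ * (V1 q Γ t y * ntAaU q g U t y)) := by
    unfold hDYu
    refine hi_nl_ii_le (d1.add d2) (fun y hy => ?_) (fun y hy => ?_)
    · have hV1 := (w0_wL_pos (a := 4) (M := 30) hq1 hΓ ht0 hy).le
      have hV1' : 0 ≤ V1 q Γ t y := hV1
      have aU := ntAaU_nonneg q g U t y
      have aV := ntAaU_nonneg q g V t y
      positivity
    · have hV1 : 0 ≤ V1 q Γ t y := (w0_wL_pos (a := 4) (M := 30) hq1 hΓ ht0 hy).le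
      have aU := ntAaU_nonneg q g U t y
      have aV := ntAaU_nonneg q g V t y
      have u1 := nt_Ub_sq_le hq1.le U t y
      have u2 := Hs Γ hΓ t ht2 U hU y hy
      have v1 := nt_Ub_sq_le hq1.le V t y
      have v2 := Hs Γ hΓ t ht2 V hV y hy
      have hub : ntUb U t y ≤ 1 := by
        have h0 := ntUb_nonneg U t y
        have h2 : (ntUb U t y) ^ 2 ≤ 1 := by
          have : n2 q (slT U t) y + n2t q (slT U t) y ≤ Cs * hiE q g Γ U t := u2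
          linarith
        nlinarith
      have hκ : ((-t) ^ 3) ^ 2 = (-t) ^ 6 := by ring
      have S : ∀ j, ntS2 (sl (hlinN q g U V j) t) y
          ≤ A * (24 * Cs + 2) * ((hiE q g Γ U t + (-t) ^ 6) * ntAaU q g V t y
            + hiE q g Γ V t * ntAaU q g U t y) := fun j =>
        hi_nl_arith hA0 hCs hκ hEU hEV aU aV u1 u2 v1 v2 (hi_nl_pt hq100 hg.sm hc hU hV ht1 hy hub j)
      have hsum : ∑ i, ntS2 (sl (hlinN q g U V i) t) y
          ≤ 3 * (A * (24 * Cs + 2) * ((hiE q g Γ U t + (-t) ^ 6) * ntAaU q g V t y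
            + hiE q g Γ V t * ntAaU q g U t y)) := by
        rw [Fin.sum_univ_three]
        linarith [S 0, S 1, S 2]
      have hd := hi_nl_dens hq1.le (hlinN q g U V) t y
      have h5 : q * (q + 1) * ∑ i, ntS2 (sl (hlinN q g U V i) t) y
          ≤ q * (q + 1) * (3 * (A * (24 * Cs + 2) * ((hiE q g Γ U t + (-t) ^ 6) * ntAaU q g V t y
            + hiE q g Γ V t * ntAaU q g U t y))) := mul_le_mul_of_nonneg_left hsum (by positivity)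
      calc V1 q Γ t y * ∑ i, kapJ q i * ((ttF (hlinN q g U V i) (t, y)) ^ 2 + q * (hlinN q g U V i (t, y)) ^ 2)
          ≤ V1 q Γ t y * (q * (q + 1) * (3 * (A * (24 * Cs + 2) * ((hiE q g Γ U t + (-t) ^ 6) * ntAaU q g V t y
            + hiE q g Γ V t * ntAaU q g U t y)))) := mul_le_mul_of_nonneg_left (hd.trans h5) hV1
        _ = _ := by
          rw [hc₁, hc₂, hM]
          ring
  rw [ii_add d1 d2, ii_const_mul, ii_const_mul] at key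
  have aV := mul_le_mul_of_nonneg_left (Ha Γ hΓ t ht3 V hV) hc₁0
  have aU := mul_le_mul_of_nonneg_left (Ha Γ hΓ t ht3 U hU) hc₂0
  calc hDYu q Γ (hlinN q g U V) t
      ≤ c₁ * (Ca * hiD q g Γ V t) + c₂ * (Ca * hiD q g Γ U t) := by linarith
    _ = _ := by
      rw [hc₁, hc₂]
      ring

end Claimed.Agent.R324.Core
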