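/-
Row 324, module HI, file NeedMm: smallness of `𝗆𝗆 = Z e₁ / Z̃ - 1` (`hi_need_mm` of HI/Need.lean).       helper871 (subtask 10398).
   `ζ = Z/Z̃ = (1 + X B̃)/(1 + X B)`,  `ζ - 1 = X (B̃ - B) Z`;   `B̃ = B` where `chiC = 0`;  where `chiC ≠ 0` the point lies in the zone `NtZone t y` (Core/NT/CfZone.lean), where `𝔍 ≤ 2¹⁴ Λ³` (`nt_zone_JJ`);
   `|B - B̃| ≤ C 𝔍 / r̂²` (`BgGood.close`, `j = 0`),  `X ≤ (4/3) r̂²` (`w0_Xf_le_rh2`),  `1 + X B ≥ c > 0` (`wc_base`, `CoefS.low`).        Then `|ζ e^{-h} - 1| ≤ |ζ - 1| e^{-h} + |e^{-h} - 1|`, `|h| ≤ 2 δ₀`.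
-/
import Claimed.Agent.R324.Core.HI.Defs
import Claimed.Agent.R324.Core.NT.CfZone
import Claimed.Agent.R324.Core.W.CoefB2

set_option autoImplicit false

namespace Claimed.Agent.R324.Core

open Set Filter Topology MeasureTheory
open scoped ContDiff

variable {q : ℝ} {g : Bg}

/-- the support of `chiC` lies in the zone. -/
theorem hi_needMm_zone {t y : ℝ} (ht : t < 0) (h : chiC (t, y) ≠ 0) : NtZone t y := by
  refine ⟨?_, ?_, ?_⟩
  · by_contra hc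
    exact h (chiC_eq_zero_of_y t (not_le.1 hc).le)
  · by_contra hc
    exact h (chiC_eq_zero_of_X_le ht (not_le.1 hc).le)
  · by_contra hc
    exact h (chiC_eq_zero_of_le_X ht (not_le.1 hc).le)

/-- `|Z/Z̃ - 1| ≤ K Λ³`. -/
theorem hi_needMm_zeta (hq : 1000 ≤ q) (hg : BgGood q g) : ∃ K Λ₀ : ℝ, 0 ≤ K ∧ 0 < Λ₀ ∧ Λ₀ ≤ 1 ∧
    ∀ t ∈ Ico (-Λ₀) 0, ∀ y ∈ Icc (-1 : ℝ) 1, |g.Z (t, y) / (bgR q g).Z (t, y) - 1| ≤ K * (-t) ^ 3 := by
  have hq100 : (100 : ℝ) ≤ q := by linarith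
  have hq1 : (1 : ℝ) < q := by linarith
  obtain ⟨Λa, ha0, _, hca⟩ := wc_base hq100 hg.sm hg.sym hg.symT
  obtain ⟨c, hc0, hlow⟩ := hca.low
  obtain ⟨Λc, C, hΛc, hB, _, _⟩ := hg.close
  refine ⟨4 / 3 * |C| * 2 ^ 14 / c, min (min Λa Λc) 1, by positivity, lt_min (lt_min ha0 hΛc) one_pos,
    min_le_right _ _, fun t ht y hy => ?_⟩
  have l1 : min (min Λa Λc) 1 ≤ Λa := (min_le_left _ _).trans (min_le_left _ _)
  have l2 : min (min Λa Λc) 1 ≤ Λc := (min_le_left _ _).trans (min_le_right _ _)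
  have l3 : min (min Λa Λc) 1 ≤ 1 := min_le_right _ _
  have ht0 : t < 0 := ht.2
  have hL0 : 0 < -t := by linarith
  have ha : c ≤ 1 + Xf y * g.B (t, y) := hlow (t, y) ⟨⟨by linarith [ht.1], ht0⟩, hy⟩
  have ha' : 0 < 1 + Xf y * g.B (t, y) := lt_of_lt_of_le hc0 ha
  have hb' : 0 < 1 + Xf y * (bgR q g).B (t, y) := (bgR_sm hq1 hg.sm).pos t ht0 y
  have e : g.Z (t, y) / (bgR q g).Z (t, y) - 1
      = Xf y * ((bgR q g).B (t, y) - g.B (t, y)) / (1 + Xf y * g.B (t, y)) := by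
    show 1 / (1 + Xf y * g.B (t, y)) / (1 / (1 + Xf y * (bgR q g).B (t, y))) - 1 = _
    field_simp
    ring
  rw [e]
  have hK : 0 ≤ 4 / 3 * |C| * 2 ^ 14 / c * (-t) ^ 3 := by positivity
  by_cases hχ : chiC (t, y) = 0
  · have e2 : (bgR q g).B (t, y) = g.B (t, y) := by
      show (1 - chiC (t, y)) * g.B (t, y) + chiC (t, y) * (bgCone q).B (t, y) = g.B (t, y)
      rw [hχ]
      ring
    rw [e2, sub_self, mul_zero, zero_div, abs_zero]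
    exact hK
  · have hz := hi_needMm_zone ht0 hχ
    have hJ := nt_zone_JJ hq100 (t := t) ⟨by linarith [ht.1], ht0⟩ hy hz
    have hR := w0_rh2_pos hq1 ht0 hy
    have hX0 : 0 ≤ Xf y := w0_Xf_nonneg hy
    have hX := w0_Xf_le_rh2 hq1 ht0 hy
    have hd := hB t ⟨by linarith [ht.1], ht0⟩ y hy 0 (Nat.zero_le 6)
    rw [iteratedDeriv_zero, pow_zero, div_one] at hd
    have hd' : |g.B (t, y) - (bgR q g).B (t, y)| ≤ C * (JJ q t y / rh2 q t y) := hd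
    have hJ0 : 0 ≤ JJ q t y := by
      unfold JJ
      exact mul_nonneg (pow_nonneg (w0_Th_pos ht0 hy).le 8) (Real.rpow_nonneg hR.le _)
    have hr0 : 0 ≤ JJ q t y / rh2 q t y := div_nonneg hJ0 hR.le
    have hd2 : |(bgR q g).B (t, y) - g.B (t, y)| ≤ |C| * (JJ q t y / rh2 q t y) := by
      rw [abs_sub_comm]
      exact hd'.trans (mul_le_mul_of_nonneg_right (le_abs_self C) hr0)
    rw [abs_div, abs_mul, abs_of_nonneg hX0, abs_of_pos ha']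
    have h1 : Xf y * |(bgR q g).B (t, y) - g.B (t, y)| ≤ 4 / 3 * |C| * (2 ^ 14 * (-t) ^ 3) := by
      calc Xf y * |(bgR q g).B (t, y) - g.B (t, y)|
          ≤ (4 / 3 * rh2 q t y) * (|C| * (JJ q t y / rh2 q t y)) :=
            mul_le_mul hX hd2 (abs_nonneg _) (by positivity)
        _ = 4 / 3 * |C| * JJ q t y := by
            field_simp
        _ ≤ 4 / 3 * |C| * (2 ^ 14 * (-t) ^ 3) := mul_le_mul_of_nonneg_left hJ (by positivity)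
    calc Xf y * |(bgR q g).B (t, y) - g.B (t, y)| / (1 + Xf y * g.B (t, y))
        ≤ 4 / 3 * |C| * (2 ^ 14 * (-t) ^ 3) / c :=
          div_le_div₀ (by positivity) h1 hc0 ha
      _ = 4 / 3 * |C| * 2 ^ 14 / c * (-t) ^ 3 := by ring

/-- **smallness of `𝗆𝗆`.** -/
theorem hi_needMm_main (hq : 1000 ≤ q) (hg : BgGood q g) : ∃ δ₀ Λ₀ : ℝ, 0 < δ₀ ∧ 0 < Λ₀ ∧
    ∀ t ∈ Ico (-Λ₀) 0, ∀ y ∈ Icc (-1 : ℝ) 1, ∀ ξ : Fin 3 → ℝ, (∀ b, |ξ b| ≤ δ₀) →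
      |hmmG q g (t, y) ξ| ≤ 1 / 4 := by
  obtain ⟨K, Λ₁, hK, hΛ₁, hΛ₁1, H⟩ := hi_needMm_zeta hq hg
  refine ⟨1 / 40, min Λ₁ (1 / (16 * (K + 1))), by norm_num, lt_min hΛ₁ (by positivity),
    fun t ht y hy ξ hξ => ?_⟩
  have l1 : min Λ₁ (1 / (16 * (K + 1))) ≤ Λ₁ := min_le_left _ _
  have l2 : min Λ₁ (1 / (16 * (K + 1))) ≤ 1 / (16 * (K + 1)) := min_le_right _ _
  have ht0 : t < 0 := ht.2
  have hL0 : 0 < -t := by linarith
  have hL1 : -t ≤ 1 := by linarith [ht.1]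
  have hL2 : -t ≤ 1 / (16 * (K + 1)) := by linarith [ht.1]
  have hz := H t ⟨by linarith [ht.1], ht0⟩ y hy
  have hL3 : (-t) ^ 3 ≤ -t := by
    calc (-t) ^ 3 ≤ (-t) ^ 1 := pow_le_pow_of_le_one hL0.le hL1 (by norm_num)
      _ = -t := pow_one _
  have hz2 : |g.Z (t, y) / (bgR q g).Z (t, y) - 1| ≤ 1 / 16 := by
    have h1 : K * (-t) ^ 3 ≤ K * (1 / (16 * (K + 1))) := mul_le_mul_of_nonneg_left (hL3.trans hL2) hK
    have h2 : K * (1 / (16 * (K + 1))) ≤ 1 / 16 := by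
      rw [mul_one_div, div_le_div_iff₀ (by positivity) (by norm_num)]
      linarith
    linarith
  -- the exponent
  have hqq : 0 ≤ q / (q + 1) ∧ q / (q + 1) ≤ 1 := by
    constructor
    · positivity
    · rw [div_le_one (by linarith)]
      linarith
  have hh : |-(ξ 0 + q / (q + 1) * ξ 2)| ≤ 1 / 20 := by
    rw [abs_neg]
    have a0 := hξ 0
    have a2 := hξ 2
    have a3 : |q / (q + 1) * ξ 2| ≤ 1 / 40 := by
      rw [abs_mul, abs_of_nonneg hqq.1]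
      calc q / (q + 1) * |ξ 2| ≤ 1 * (1 / 40) := mul_le_mul hqq.2 a2 (abs_nonneg _) zero_le_one
        _ = 1 / 40 := one_mul _
    calc |ξ 0 + q / (q + 1) * ξ 2| ≤ |ξ 0| + |q / (q + 1) * ξ 2| := abs_add_le _ _
      _ ≤ 1 / 20 := by linarith
  have hE := Real.abs_exp_sub_one_le (x := -(ξ 0 + q / (q + 1) * ξ 2)) (hh.trans (by norm_num))
  have hE1 : |Real.exp (-(ξ 0 + q / (q + 1) * ξ 2)) - 1| ≤ 1 / 10 := by linarith
  have hE2 : Real.exp (-(ξ 0 + q / (q + 1) * ξ 2)) ≤ 11 / 10 := by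
    have := (abs_le.1 hE1).2
    linarith
  have hE0 : 0 < Real.exp (-(ξ 0 + q / (q + 1) * ξ 2)) := Real.exp_pos _
  have e : hmmG q g (t, y) ξ
      = (g.Z (t, y) / (bgR q g).Z (t, y) - 1) * Real.exp (-(ξ 0 + q / (q + 1) * ξ 2))
        + (Real.exp (-(ξ 0 + q / (q + 1) * ξ 2)) - 1) := by
    unfold hmmG
    ring
  rw [e]
  calc _ ≤ |(g.Z (t, y) / (bgR q g).Z (t, y) - 1) * Real.exp (-(ξ 0 + q / (q + 1) * ξ 2))|
        + |Real.exp (-(ξ 0 + q / (q + 1) * ξ 2)) - 1| := abs_add_le _ _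
    _ ≤ 1 / 16 * (11 / 10) + 1 / 10 := by
        rw [abs_mul, abs_of_pos hE0]
        exact add_le_add (mul_le_mul hz2 hE2 hE0.le (by norm_num)) hE1
    _ ≤ 1 / 4 := by norm_num

end Claimed.Agent.R324.Core
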