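/-
Row 324, module HI, file Need: EVERYTHING the module HI uses from the other modules of the PDE core (W, LD0, NT/NL, AP), as five separate statements; `hi_need` (the bundle `HiU q g Γ κ`) is proved from them.       Owner: helper402.
  sup   = `w_out_sup` (Core/W/Out.lean).
  jets  = `w_out_jets` (Core/W/Out.lean); `ppJ (slT U t) y` versus `Σ_c (hpp 0 U c)² + (ttF (hpp 0 U c))²` (the fifth jet of `hpp 0 U` is `0`).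
  h2    = `ld0_two30` (Core/LD0/LE1.lean): `hdef q g U = dfL q (bgR q g) U` (rfl);  core term:  `wH 3 52 ≤ Θ^{-21} wL 2 30 ≤ (-s₂)^{-21} V0` for `t ≤ s₂`
          (`w0_wH_le_wL`, `rh2 ≤ Th`, `Th ≥ -t ≥ -s₂`), so `K (-t)^20 En (wH 3 52) ≤ C' E0 ≤ C' (A E0 + E1)`.
  lin   = the term calculus Core/NT (`nt_struct`, `nt_DF_bound` with `cd = 0`) + coefficient bounds + SUP + `𝕀[V1 aa(U)] ≤ C (D0 + D1)`:     see the docstring.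
  mm    `|Z/Z̃ - 1|` small (BgClose) and `|e^{-h} - 1| ≤ 2|h|`.
-/
import Claimed.Agent.R324.Core.HI.Defs
import Claimed.Agent.R324.Core.HI.NeedMm
import Claimed.Agent.R324.Core.HI.NLc
import Claimed.Agent.R324.Core.W.Out
import Claimed.Agent.R324.Core.LD0.LE1
import Claimed.Agent.R324.Core.LD0.Int

set_option autoImplicit false

namespace Claimed.Agent.R324.Core

open Set Filter Topology MeasureTheory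
open scoped ContDiff

variable {q : ℝ} {g : Bg}

theorem hi_need_sup (hq : 1000 ≤ q) (hg : BgGood q g) : ∃ Cs Λ₀ : ℝ, 0 ≤ Cs ∧ 0 < Λ₀ ∧
    ∀ Γ : ℝ, 0 ≤ Γ → ∀ t ∈ Ico (-Λ₀) 0, ∀ U : Tri, SmTri U → ∀ y ∈ Icc (-1 : ℝ) 1,
      n2 q (slT U t) y + n2t q (slT U t) y ≤ Cs * hiE q g Γ U t :=
  w_out_sup hq hg

theorem hi_need_ppJ (U : Tri) (t y : ℝ) :
    ∑ c, ((hpp 0 U c (t, y)) ^ 2 + (ttF (hpp 0 U c) (t, y)) ^ 2) = ppJ (slT U t) y := by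
  have h4 : ttF (hpp 0 U 4) (t, y) = 0 := by
    show -(Xf y) * deriv (fun _ : ℝ => (0 : ℝ)) y = 0
    simp
  have h4' : hpp 0 U 4 (t, y) = 0 := rfl
  have e0 : (hpp 0 U 0 (t, y)) ^ 2 + (ttF (hpp 0 U 0) (t, y)) ^ 2
      = (ppS (slT U t) 0 y) ^ 2 + (tt (ppS (slT U t) 0) y) ^ 2 := rfl
  have e1 : (hpp 0 U 1 (t, y)) ^ 2 + (ttF (hpp 0 U 1) (t, y)) ^ 2
      = (ppS (slT U t) 1 y) ^ 2 + (tt (ppS (slT U t) 1) y) ^ 2 := rfl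
  have e2 : (hpp 0 U 2 (t, y)) ^ 2 + (ttF (hpp 0 U 2) (t, y)) ^ 2
      = (ppS (slT U t) 2 y) ^ 2 + (tt (ppS (slT U t) 2) y) ^ 2 := rfl
  have e3 : (hpp 0 U 3 (t, y)) ^ 2 + (ttF (hpp 0 U 3) (t, y)) ^ 2
      = (ppS (slT U t) 3 y) ^ 2 + (tt (ppS (slT U t) 3) y) ^ 2 := rfl
  unfold ppJ
  rw [Fin.sum_univ_five, Fin.sum_univ_four, h4, h4', e0, e1, e2, e3]
  ring

theorem hi_need_jets (hq : 1000 ≤ q) (hg : BgGood q g) : ∃ Cj Λ₀ : ℝ, 0 ≤ Cj ∧ 0 < Λ₀ ∧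
    ∀ Γ : ℝ, 0 ≤ Γ → ∀ t ∈ Ico (-Λ₀) 0, ∀ U : Tri, SmTri U →
      II (fun y => V1 q Γ t y * ∑ c, ((hpp 0 U c (t, y)) ^ 2 + (ttF (hpp 0 U c) (t, y)) ^ 2))
        ≤ Cj * hiD q g Γ U t := by
  obtain ⟨K, Λ₀, hK, hΛ, H⟩ := w_out_jets hq hg
  refine ⟨K, Λ₀, hK, hΛ, fun Γ hΓ t ht U hU => ?_⟩
  simp only [hi_need_ppJ]
  exact H Γ hΓ t ht U hU

theorem hi_need_h2 (hq : 1000 ≤ q) (hg : BgGood q g) : ∃ Γ₀ : ℝ, 0 ≤ Γ₀ ∧ ∀ Γ : ℝ, Γ₀ ≤ Γ →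
    ∃ A c Cu Λ₀ : ℝ, 1 ≤ A ∧ 0 < c ∧ 0 ≤ Cu ∧ 0 < Λ₀ ∧
      ∀ s₂ < 0, ∃ C' : ℝ, 0 ≤ C' ∧ ∀ U : Tri, SmTri U → ∀ t ∈ Icc (-Λ₀) s₂, ∃ e' : ℝ,
        HasDerivAt (fun s => A * E0 q Γ U s + E1 q g Γ U s) e' t ∧
          e' + c * hiD q g Γ U t ≤ C' * (A * E0 q Γ U t + E1 q g Γ U t) + Cu * DY q Γ (hdef q g U) t :=
  ld0_h2 q (by linarith) g hg

/-- **the linearised nonlinearity.**   `hlinN q g U V i (t,y) = d/dh|₀ uT (NN (U + h V)) i (t,y)`.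
By `nt_struct`, `uT (NN W) i (t,y) = ntF c (Ψ(W)) (e₁(W)) (atoms W) i y`, `c = (ntCF q g).sl t`; the atoms are linear in `W`, so for ALL `y`
   `hlinN U V i (t,y) = ntDF c 0 Ψ Ψd e₁ e₁d (atoms U) (atoms V) i y`,    `Ψd, e₁d` = derivatives of the multipliers in the direction `V`  (e.g. `e₁d = - h₁(V) e₁(U)`),
hence also `ttF (hlinN U V i) (t,y) = tt (ntDF ..) y`.     `nt_DF_bound` (`Kd = 0`, `α = C [[u]]`, `δ = C [[uV]]`):    `ntS2 (..) ≤ C ((α + Λ³)² aa(V) + δ² aa(U))`;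
SUP (`hi_need_sup` in the strong form `w7_sup_R`): `rh2^{7/2} [[u]]² ≤ C Θ^30 hiE U`, `Θ^30 ≤ C rh2^{7/2}`;     `𝕀[V1 aa(W)] ≤ C hiD W` (W3, W5: `w_out_tt2`, `w_out_jets`).      Same chain as N0 ⇒ N1a of blueprint 7.5. -/
theorem hi_need_lin (hq : 1000 ≤ q) (hg : BgGood q g) : ∀ Γ : ℝ, 0 ≤ Γ → ∃ K ε₁ Λ₀ : ℝ, 0 ≤ K ∧ 0 < ε₁ ∧ 0 < Λ₀ ∧
    ∀ t ∈ Ico (-Λ₀) 0, ∀ U V : Tri, SmTri U → SmTri V → hiE q g Γ U t ≤ ε₁ ^ 2 →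
      hDYu q Γ (hlinN q g U V) t
        ≤ K * ((hiE q g Γ U t + (-t) ^ 6) * hiD q g Γ V t + hiE q g Γ V t * hiD q g Γ U t) :=
  hi_nl_lin hq hg

/-- `hmmG = ζ e^{-h} - 1`, `ζ = Z/Z̃ = Z (1 + X B̃)`, `ζ - 1 = Z X (B̃ - B)`, `|X (B - B̃)| ≤ C 𝔍 X/rh2 ≤ C' 𝔍` (`BgGood.close`, `j = 0`; `w0_Xf_le_rh2`), `Z ≤ C` (`BgGood.sym`);
`B = B̃` unless `chiC ≠ 0`, where `Λ^{3/2} ≤ X ≤ 2 Λ^{1/2}` and `𝔍 = Θ^8 rh2^{-α/2} ≤ C Λ^{4 - 3α/4} → 0` (`2 < α < 3`);   `|h| ≤ 2 δ₀`. -/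
theorem hi_need_mm (hq : 1000 ≤ q) (hg : BgGood q g) : ∃ δ₀ Λ₀ : ℝ, 0 < δ₀ ∧ 0 < Λ₀ ∧
    ∀ t ∈ Ico (-Λ₀) 0, ∀ y ∈ Icc (-1 : ℝ) 1, ∀ ξ : Fin 3 → ℝ, (∀ b, |ξ b| ≤ δ₀) →
      |hmmG q g (t, y) ξ| ≤ 1 / 4 :=
  hi_needMm_main hq hg

/-- the universal facts. -/
theorem hi_need (q : ℕ) (hq : Odd q) (hq6 : 10 ^ 6 ≤ q) (g : Bg) (hg : BgGood q g) :
    ∃ Γ₃ : ℝ, 0 ≤ Γ₃ ∧ ∀ Γ : ℝ, Γ₃ ≤ Γ → ∃ κ : HiC, HiU q g Γ κ := by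
  have hq' : (1000 : ℝ) ≤ (q : ℝ) := by
    have : (10 ^ 6 : ℝ) ≤ (q : ℝ) := by exact_mod_cast hq6
    linarith
  obtain ⟨Cs, L1, hCs, hL1, H1⟩ := hi_need_sup hq' hg
  obtain ⟨Cj, L2, hCj, hL2, H2⟩ := hi_need_jets hq' hg
  obtain ⟨Γ₀, hΓ₀, H3⟩ := hi_need_h2 hq' hg
  obtain ⟨δ₀, L5, hδ₀, hL5, H5⟩ := hi_need_mm hq' hg
  refine ⟨Γ₀, hΓ₀, fun Γ hΓ => ?_⟩
  have hΓ0 : 0 ≤ Γ := hΓ₀.trans hΓ
  obtain ⟨A, c, Cu, L3, hA, hc, hCu, hL3, H3⟩ := H3 Γ hΓ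
  obtain ⟨K, ε₁, L4, hK, hε₁, hL4, H4⟩ := hi_need_lin hq' hg Γ hΓ0
  set L : ℝ := min L1 (min L2 (min L3 (min L4 L5))) with hL
  have l1 : L ≤ L1 := min_le_left _ _
  have l2 : L ≤ L2 := (min_le_right _ _).trans (min_le_left _ _)
  have l3 : L ≤ L3 := (min_le_right _ _).trans ((min_le_right _ _).trans (min_le_left _ _))
  have l4 : L ≤ L4 :=
    (min_le_right _ _).trans ((min_le_right _ _).trans ((min_le_right _ _).trans (min_le_left _ _)))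
  have l5 : L ≤ L5 :=
    (min_le_right _ _).trans ((min_le_right _ _).trans ((min_le_right _ _).trans (min_le_right _ _)))
  have hLpos : 0 < L := lt_min hL1 (lt_min hL2 (lt_min hL3 (lt_min hL4 hL5)))
  have sub : ∀ {L' : ℝ}, L ≤ L' → ∀ t ∈ Ico (-L) 0, t ∈ Ico (-L') 0 :=
    fun h t ht => ⟨by linarith [ht.1], ht.2⟩
  refine ⟨⟨L, Cs, Cj, A, c, Cu, K, ε₁, δ₀⟩, ?_⟩
  exact
    { hΛ := hLpos, hCs := hCs, hCj := hCj, hA := hA, hc := hc, hCu := hCu, hK := hK, hε := hε₁, hδ := hδ₀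
      sup := fun t ht U hU y hy => H1 Γ hΓ0 t (sub l1 t ht) U hU y hy
      jets := fun t ht U hU => H2 Γ hΓ0 t (sub l2 t ht) U hU
      h2 := fun s₂ hs₂ => by
        obtain ⟨C', hC', h⟩ := H3 s₂ hs₂
        exact ⟨C', hC', fun U hU t ht => h U hU t ⟨by linarith [ht.1], ht.2⟩⟩
      lin := fun t ht U V hU hV hE => H4 t (sub l4 t ht) U V hU hV hE
      mm := fun t ht y hy ξ hξ => H5 t (sub l5 t ht) y hy ξ hξ }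

end Claimed.Agent.R324.Core
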