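/-
Row 324, module HI, file StBlk (sub-architect helper13): the building blocks of the structure theorem as functions of `(p; ξ)` and of the jets `π`:
   `hstE1, hstE2, hstE3` (`e_i`), `hstP1, hstP2` (`Φ_i(ξ₂)`), `hstGg` (`𝗀`), `hstGG` (`G`), `hstMp` (`1 + 𝗆𝗆 = Z e₁/Z̃`),
   `hstH1, hstH2` (`h₁', h₂'`), `hstBP` (`bPh`), `hstDgg` (`∂_y 𝗀`);     their smoothness, and their values at `ξ = uT U p`, `π = hpp 1 U p`.
-/
import Claimed.Agent.R324.Core.HI.StGen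
import Claimed.Agent.R324.Core.PR.Jet1

set_option autoImplicit false

namespace Claimed.Agent.R324.Core

open Set Filter Topology MeasureTheory
open scoped ContDiff

noncomputable section

/-! ### definitions -/

def hstE1 (q : ℝ) : HGf := fun _ ξ => Real.exp (-(ξ 0 + q / (q + 1) * ξ 2))
def hstE2 (q : ℝ) : HGf := fun _ ξ => Real.exp (-(ξ 0 - 1 / (q + 1) * ξ 2))
def hstE3 : HGf := fun _ ξ => Real.exp (-ξ 1)
def hstP1 : HGf := fun _ ξ => Ph1 (ξ 2)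
def hstP2 : HGf := fun _ ξ => Ph2 (ξ 2)

/-- `𝗀`. -/
def hstGg (q : ℝ) (g : Bg) : HGf := fun p ξ =>
  (hstE1 q p ξ - 1) * (g.Z p) ^ 2 * g.dd p / 2 - g.Z p * g.wp p * (hstE3 p ξ - 1)

/-- `G`. -/
def hstGG (q : ℝ) (g : Bg) : HGf := fun p ξ =>
  Xf p.2 * hstGg q g p ξ + q * p.2 * g.Z p * (hstE2 q p ξ - 1)

/-- `1 + 𝗆𝗆 = Z e₁ / Z̃`. -/
def hstMp (q : ℝ) (g : Bg) : HGf := fun p ξ => g.Z p * hstE1 q p ξ / (bgR q g).Z p

/-- `h₁'`. -/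
def hstH1 (q : ℝ) : HstF := fun p _ π => π 0 + q / (q + 1) * (-2 * p.2 * π 2 + π 3)

/-- `h₂'`. -/
def hstH2 (q : ℝ) : HstF := fun p _ π => π 0 - 1 / (q + 1) * (-2 * p.2 * π 2 + π 3)

/-- `bPh = b e₂ Φ₁(X b)`. -/
def hstBP (q : ℝ) : HstF := fun p ξ π => hstE2 q p ξ * hstP1 p ξ * π 2

/-- `∂_y 𝗀`. -/
def hstDgg (q : ℝ) (g : Bg) : HstF := fun p ξ π =>
  -(hstE1 q p ξ * (g.Z p) ^ 2 * g.dd p / 2) * hstH1 q p ξ π
    + ((hstE1 q p ξ - 1) * (2 * g.Z p * dY g.Z p * g.dd p + (g.Z p) ^ 2 * dY g.dd p) / 2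
        - (dY g.Z p * g.wp p + g.Z p * g.wpp p) * (hstE3 p ξ - 1))
    + g.Z p * g.wp p * hstE3 p ξ * π 1

/-- the point `ξ = uT U p`. -/
def hstXi (U : Tri) (p : ℝ × ℝ) : Fin 3 → ℝ := fun b => uT U b p

/-- the jets `π = hpp 1 U p`. -/
def hstPi (U : Tri) (p : ℝ × ℝ) : Fin 5 → ℝ := fun c => hpp 1 U c p

/-! ### smoothness -/

theorem hst_sm_E1 (q : ℝ) : HGSm (hstE1 q) :=
  hst_exp (hst_neg (hst_add (hst_xi 0) (hst_mul (hst_const _) (hst_xi 2))))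

theorem hst_sm_E2 (q : ℝ) : HGSm (hstE2 q) :=
  hst_exp (hst_neg (hst_sub (hst_xi 0) (hst_mul (hst_const _) (hst_xi 2))))

theorem hst_sm_E3 : HGSm hstE3 := hst_exp (hst_neg (hst_xi 1))

theorem hst_sm_P1 : HGSm hstP1 := hst_comp ph1_contDiff (hst_xi 2)

theorem hst_sm_P2 : HGSm hstP2 := hst_comp ph2_contDiff (hst_xi 2)

variable {q : ℝ} {g : Bg} {U : Tri} {t : ℝ}

theorem hst_sm_Gg (q : ℝ) (hg : BgSm g) : HGSm (hstGg q g) :=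
  hst_sub (hst_div_const (hst_mul (hst_mul (hst_sub (hst_sm_E1 q) (hst_const 1)) (hst_of_sm (hg.smZ.pow 2)))
    (hst_of_sm hg.smdd)) 2) (hst_mul (hst_of_sm (hg.smZ.mul hg.smwp)) (hst_sub hst_sm_E3 (hst_const 1)))

theorem hst_sm_GG (q : ℝ) (hg : BgSm g) : HGSm (hstGG q g) :=
  hst_add (hst_mul (hst_of_sm sm_Xf) (hst_sm_Gg q hg))
    (hst_mul (hst_of_sm ((sm_snd.const_mul q).mul hg.smZ)) (hst_sub (hst_sm_E2 q) (hst_const 1)))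

theorem hst_sm_Mp (hq : 1 < q) (hg : BgSm g) : HGSm (hstMp q g) :=
  hst_div (hst_mul (hst_of_sm hg.smZ) (hst_sm_E1 q)) (bgR_sm hq hg).smZ
    (fun t ht y => ((bgR_sm hq hg).Z_pos ht y).ne')

theorem hst_sm_mm (hq : 1 < q) (hg : BgSm g) : HGSm (hmmG q g) :=
  hst_sub (hst_sm_Mp hq hg) (hst_const 1)

theorem hst_q1_H1 (q : ℝ) : HstQ1 (hstH1 q) :=
  hst_q1_add (hst_q1_coord 0) (hst_q1_smul (hst_const _)
    (hst_q1_add (hst_q1_smul (hst_of_sm (sm_snd.const_mul (-2))) (hst_q1_coord 2)) (hst_q1_coord 3)))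

theorem hst_q1_H2 (q : ℝ) : HstQ1 (hstH2 q) :=
  hst_q1_sub (hst_q1_coord 0) (hst_q1_smul (hst_const _)
    (hst_q1_add (hst_q1_smul (hst_of_sm (sm_snd.const_mul (-2))) (hst_q1_coord 2)) (hst_q1_coord 3)))

theorem hst_q1_BP (q : ℝ) : HstQ1 (hstBP q) :=
  hst_q1_smul (hst_mul (hst_sm_E2 q) hst_sm_P1) (hst_q1_coord 2)

theorem hst_q1_Dgg (q : ℝ) (hg : BgSm g) : HstQ1 (hstDgg q g) := by
  refine hst_q1_add (hst_q1_add (hst_q1_smul (hst_neg (hst_div_const (hst_mul (hst_mul (hst_sm_E1 q)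
    (hst_of_sm (hg.smZ.pow 2))) (hst_of_sm hg.smdd)) 2)) (hst_q1_H1 q)) (hst_q1_of ?_))
    (hst_q1_smul (hst_mul (hst_of_sm (hg.smZ.mul hg.smwp)) hst_sm_E3) (hst_q1_coord 1))
  refine hst_sub (hst_div_const (hst_mul (hst_sub (hst_sm_E1 q) (hst_const 1)) (hst_of_sm ?_)) 2)
    (hst_mul (hst_of_sm ?_) (hst_sub hst_sm_E3 (hst_const 1)))
  · exact (((hg.smZ.const_mul 2).mul hg.smZ.dY).mul hg.smdd).add ((hg.smZ.pow 2).mul hg.smdd.dY)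
  · exact (hg.smZ.dY.mul hg.smwp).add (hg.smZ.mul hg.smwpp)

/-! ### values at `ξ = uT U p`, `π = hpp 1 U p` -/

theorem hst_xi0 (U : Tri) (p : ℝ × ℝ) : hstXi U p 0 = U 0 p := by simp [hstXi, uT]
theorem hst_xi1 (U : Tri) (p : ℝ × ℝ) : hstXi U p 1 = U 1 p := by simp [hstXi, uT]
theorem hst_xi2 (U : Tri) (p : ℝ × ℝ) : hstXi U p 2 = Xf p.2 * U 2 p := by simp [hstXi, uT]
theorem hst_pi0 (U : Tri) (p : ℝ × ℝ) : hstPi U p 0 = dY (U 0) p := by simp [hstPi, hpp]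
theorem hst_pi1 (U : Tri) (p : ℝ × ℝ) : hstPi U p 1 = dY (U 1) p := by simp [hstPi, hpp]
theorem hst_pi2 (U : Tri) (p : ℝ × ℝ) : hstPi U p 2 = U 2 p := by simp [hstPi, hpp]
theorem hst_pi3 (U : Tri) (p : ℝ × ℝ) : hstPi U p 3 = Xf p.2 * dY (U 2) p := by simp [hstPi, hpp]
theorem hst_pi4 (U : Tri) (p : ℝ × ℝ) : hstPi U p 4 = 1 := by simp [hstPi, hpp]

theorem hst_val_E1 (q : ℝ) (U : Tri) (p : ℝ × ℝ) : hstE1 q p (hstXi U p) = e1F q U p := by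
  unfold hstE1 e1F h1F
  rw [hst_xi0, hst_xi2]

theorem hst_val_E2 (q : ℝ) (U : Tri) (p : ℝ × ℝ) : hstE2 q p (hstXi U p) = e2F q U p := by
  unfold hstE2 e2F h2F
  rw [hst_xi0, hst_xi2]

theorem hst_val_E3 (U : Tri) (p : ℝ × ℝ) : hstE3 p (hstXi U p) = e3F U p := by
  unfold hstE3 e3F
  rw [hst_xi1]

theorem hst_val_P1 (U : Tri) (p : ℝ × ℝ) : hstP1 p (hstXi U p) = Ph1 (beF U p) := by
  unfold hstP1 beF
  rw [hst_xi2]

theorem hst_val_P2 (U : Tri) (p : ℝ × ℝ) : hstP2 p (hstXi U p) = Ph2 (beF U p) := by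
  unfold hstP2 beF
  rw [hst_xi2]

theorem hst_val_Gg (q : ℝ) (g : Bg) (U : Tri) (p : ℝ × ℝ) : hstGg q g p (hstXi U p) = ggF q g U p := by
  unfold hstGg ggF
  rw [hst_val_E1, hst_val_E3]

theorem hst_val_GG (q : ℝ) (g : Bg) (U : Tri) (p : ℝ × ℝ) : hstGG q g p (hstXi U p) = GGF q g U p := by
  unfold hstGG GGF
  rw [hst_val_Gg, hst_val_E2]

theorem hst_val_mm (q : ℝ) (g : Bg) (ξ : Fin 3 → ℝ) (p : ℝ × ℝ) : hmmG q g p ξ = hstMp q g p ξ - 1 := rfl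

theorem hst_val_Mp (hq : 1 < q) (hg : BgSm g) (U : Tri) (ht : t < 0) (y : ℝ) :
    hstMp q g (t, y) (hstXi U (t, y)) * (bgR q g).Z (t, y) = g.Z (t, y) * e1F q U (t, y) := by
  unfold hstMp
  rw [hst_val_E1, div_mul_cancel₀ _ ((bgR_sm hq hg).Z_pos ht y).ne']

theorem hst_val_H1 (q : ℝ) (hU : SmTri U) (ht : t < 0) (y : ℝ) :
    hstH1 q (t, y) (hstXi U (t, y)) (hstPi U (t, y)) = dY (h1F q U) (t, y) := by
  unfold hstH1
  rw [dY_h1F q hU ht y, hst_pi0, hst_pi2, hst_pi3]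

theorem hst_val_H2 (q : ℝ) (hU : SmTri U) (ht : t < 0) (y : ℝ) :
    hstH2 q (t, y) (hstXi U (t, y)) (hstPi U (t, y)) = dY (h2F q U) (t, y) := by
  unfold hstH2
  rw [dY_h2F q hU ht y, hst_pi0, hst_pi2, hst_pi3]

theorem hst_val_BP (q : ℝ) (U : Tri) (p : ℝ × ℝ) : hstBP q p (hstXi U p) (hstPi U p) = bPh q U p := by
  unfold hstBP bPh
  rw [hst_val_E2, hst_val_P1, hst_pi2]
  ring

theorem hst_val_Dgg (q : ℝ) (hg : BgSm g) (hU : SmTri U) (ht : t < 0) (y : ℝ) :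
    hstDgg q g (t, y) (hstXi U (t, y)) (hstPi U (t, y)) = dY (ggF q g U) (t, y) := by
  unfold hstDgg
  rw [dY_ggF q hg hU ht y, dY_e1F q hU ht y, dY_e3F hU ht y, hst_val_H1 q hU ht y, hst_val_E1, hst_val_E3, hst_pi1]
  ring

/-- hygiene. -/
theorem hst_blk_hygiene : True := by
  have := @hstE1.eq_1
  have := @hstE2.eq_1
  have := @hstE3.eq_1
  have := @hstP1.eq_1
  have := @hstP2.eq_1
  have := @hstGg.eq_1
  have := @hstGG.eq_1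
  have := @hstMp.eq_1
  have := @hstH1.eq_1
  have := @hstH2.eq_1
  have := @hstBP.eq_1
  have := @hstDgg.eq_1
  have := @hstXi.eq_1
  have := @hstPi.eq_1
  trivial

end

end Claimed.Agent.R324.Core
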