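/-
Row 324, module HI, file St1 (sub-architect helper13): the structure theorem, component `j = 1` (`h₃`).
   `NN_1 = 𝗆𝗆 (L̃ U)_1 + A0_1(p;u) + X Q_1(p;u;π)`.
-/
import Claimed.Agent.R324.Core.HI.StBlk

set_option autoImplicit false

namespace Claimed.Agent.R324.Core

open Set Filter Topology MeasureTheory
open scoped ContDiff

noncomputable section

/-- the zeroth order part of `(L̃ U)_j`, `j = 0, 1`:   `Σ_k c̃_jk ξ_k`. -/
def hstLin (q : ℝ) (g : Bg) (j : Fin 3) : HGf := fun p ξ =>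
  (bgR q g).cf q j 0 p * ξ 0 + (bgR q g).cf q j 1 p * ξ 1 + (bgR q g).cf q j 2 p * ξ 2

/-- the drift coefficient `w₁ - 𝗀 - (1 + 𝗆𝗆) w̃₁`. -/
def hstDr (q : ℝ) (g : Bg) : HGf := fun p ξ => g.w1 p - hstGg q g p ξ - hstMp q g p ξ * (bgR q g).w1 p

/-- `A0_1`. -/
def hstA1 (q : ℝ) (g : Bg) : HGf := fun p ξ =>
  g.Z p * DD g.w p * (hstE1 q p ξ - 1) - 2 * Real.exp (-g.w p) * (hstE3 p ξ - 1) - hstGG q g p ξ * g.wp p
    - hstMp q g p ξ * hstLin q g 1 p ξ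

/-- `Q_1`. -/
def hstQ1f (q : ℝ) (g : Bg) : HstF := fun p ξ π =>
  -(q * p.2 * g.Z p) * (hstBP q p ξ π * π 1) + hstDr q g p ξ * π 1

variable {q : ℝ} {g : Bg} {U : Tri} {t : ℝ}

theorem hst_sm_Lin (hq : 1 < q) (hg : BgSm g) (j : Fin 3) : HGSm (hstLin q g j) :=
  hst_add (hst_add (hst_mul (hst_of_sm ((bgR_sm hq hg).smcf q j 0)) (hst_xi 0))
    (hst_mul (hst_of_sm ((bgR_sm hq hg).smcf q j 1)) (hst_xi 1)))
    (hst_mul (hst_of_sm ((bgR_sm hq hg).smcf q j 2)) (hst_xi 2))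

theorem hst_sm_Dr (hq : 1 < q) (hg : BgSm g) : HGSm (hstDr q g) :=
  hst_sub (hst_sub (hst_of_sm hg.smw1) (hst_sm_Gg q hg))
    (hst_mul (hst_sm_Mp hq hg) (hst_of_sm (bgR_sm hq hg).smw1))

theorem hst_sm_A1 (hq : 1 < q) (hg : BgSm g) : HGSm (hstA1 q g) :=
  hst_sub (hst_sub (hst_sub (hst_mul (hst_of_sm (hg.smZ.mul hg.smw.DD)) (hst_sub (hst_sm_E1 q) (hst_const 1)))
    (hst_mul (hst_of_sm (hg.smw.neg.exp.const_mul 2)) (hst_sub hst_sm_E3 (hst_const 1))))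
    (hst_mul (hst_sm_GG q hg) (hst_of_sm hg.smwp))) (hst_mul (hst_sm_Mp hq hg) (hst_sm_Lin hq hg 1))

theorem hst_q2_Q1f (hq : 1 < q) (hg : BgSm g) : HstQ2 (hstQ1f q g) :=
  hst_q2_add (hst_q2_smul (hst_of_sm ((sm_snd.const_mul q).mul hg.smZ).neg) (hst_q2_mul (hst_q1_BP q) (hst_q1_coord 1)))
    (hst_q2_of_q1 (hst_q1_smul (hst_sm_Dr hq hg) (hst_q1_coord 1)))

/-- the zeroth order part of `(L̃ U)_j`, `j = 0, 1`. -/
theorem hst_val_Lin (q : ℝ) (g : Bg) (U : Tri) (p : ℝ × ℝ) (j : Fin 3) (hj : j ≠ 2) :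
    ∑ k, facJ j k p.2 * (bgR q g).cf q j k p * U k p = hstLin q g j p (hstXi U p) := by
  unfold hstLin
  rw [hst_xi0, hst_xi1, hst_xi2, Fin.sum_univ_three]
  simp [facJ, hj, Xf]
  ring

theorem hst_eq1 (hq : 1 < q) (hg : BgSm g) (hU : SmTri U) (ht : t < 0) (y : ℝ) :
    NN q g U 1 (t, y) = hmmG q g (t, y) (hstXi U (t, y)) * Lt q g U 1 (t, y) + hstA1 q g (t, y) (hstXi U (t, y))
      + Xf y * hstQ1f q g (t, y) (hstXi U (t, y)) (hstPi U (t, y)) := by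
  have hq1 : q + 1 ≠ 0 := by linarith
  have hX := X_mul_bPh hq1 U (t, y)
  have hM := hst_val_Mp hq hg U ht y
  have hL := hst_val_Lin q g U (t, y) 1 (by decide)
  have e : NN q g U 1 (t, y) = R3F q g U (t, y) - Lt q g U 1 (t, y) := rfl
  rw [e, hst_val_mm]
  unfold hstA1 hstQ1f hstDr Lt Lop R3F
  rw [hL, hst_val_E1, hst_val_E3, hst_val_GG, hst_val_Gg, hst_val_BP, hst_pi1]
  unfold DD GGF Bg.w0 dimJ
  simp only [] at hX hM ⊢
  rw [if_neg (by decide)]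
  linear_combination (q * y * g.Z (t, y) * dY (U 1) (t, y)) * hX
    - (Xf y * dY (dY (U 1)) (t, y) - (q + 1) * y * dY (U 1) (t, y)) * hM

/-- hygiene. -/
theorem hst_one_hygiene : True := by
  have := @hstLin.eq_1
  have := @hstDr.eq_1
  have := @hstA1.eq_1
  have := @hstQ1f.eq_1
  trivial

end

end Claimed.Agent.R324.Core
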