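/-
Row 324, module HI, file St2 (sub-architect helper13): the structure theorem, component `j = 2` (`b`).
   `NN_2 = 𝗆𝗆 (L̃ U)_2 + Q_2(p;u;π)`.
-/
import Claimed.Agent.R324.Core.HI.St1

set_option autoImplicit false

namespace Claimed.Agent.R324.Core

open Set Filter Topology MeasureTheory
open scoped ContDiff

noncomputable section

/-- the gradient terms `-a' h₁' - h₁'²/2 + (q/2) h₂'² + 2 w' h₃' + h₃'²`. -/
def hstGr (q : ℝ) (g : Bg) : HstF := fun p ξ π =>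
  -(g.ap p * hstH1 q p ξ π) - 1 / 2 * hstH1 q p ξ π ^ 2 + q / 2 * hstH2 q p ξ π ^ 2 + 2 * g.wp p * π 1 + π 1 ^ 2

/-- `Q_2`. -/
def hstQ2f (q : ℝ) (g : Bg) : HstF := fun p ξ π =>
  -(2 * g.Z p * hstE1 q p ξ * π 2)
    - q * p.2 * g.Z p * (hstBP q p ξ π * π 3) + hstDr q g p ξ * π 3
    + 2 * p.2 * (hstGg q g p ξ - g.w1 p) * π 2
    + g.Z p * hstE2 q p ξ * (π 2 * (-2 - 2 * p.2 ^ 2 * hstP1 p ξ * π 2 + (2 * q * p.2 ^ 2 + 2) * hstP2 p ξ * π 2))
    + g.Z p * hstE1 q p ξ * hstGr q g p ξ π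
    + 2 * q * p.2 * g.Z p * (hstBP q p ξ π * hstH2 q p ξ π)
    + g.Z p * (hstE1 q p ξ - 1) * (g.app p - (g.ap p) ^ 2 / 2 + (g.wp p) ^ 2)
    + (q - 1) * (g.Z p) ^ 2 * (2 * g.B p * (g.B p + 1) + p.2 * g.Bp p) * (hstE2 q p ξ - 1)
    + p.2 * (g.Z p) ^ 2 * g.dd p * hstBP q p ξ π - hstGg q g p ξ * g.Z p * g.dd p - 2 * hstDgg q g p ξ π
    - hstMp q g p ξ * ((bgR q g).cf q 2 0 p * ξ 0 + (bgR q g).cf q 2 1 p * ξ 1 + (bgR q g).cf q 2 2 p * π 2)

variable {q : ℝ} {g : Bg} {U : Tri} {t : ℝ}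

set_option linter.unusedTactic false in
set_option linter.unreachableTactic false in
theorem hst_q2_Gr (q : ℝ) (hg : BgSm g) : HstQ2 (hstGr q g) := by
  unfold hstGr
  repeat' first
    | exact hst_q1_coord _ | exact hst_q1_H1 q | exact hst_q1_H2 q
    | exact hst_q2_of_q1 (hst_q1_H1 q) | exact hst_q2_of_q1 (hst_q1_H2 q)
    | exact hst_const _ | exact hst_of_sm hg.smap | exact hst_of_sm hg.smwp
    | apply hst_mul
    | apply hst_q2_add | apply hst_q2_sub | apply hst_q2_neg | apply hst_q2_sq | apply hst_q2_smul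
    | apply hst_q2_of_q1

theorem hst_val_Gr (q : ℝ) (g : Bg) (hU : SmTri U) (ht : t < 0) (y : ℝ) :
    hstGr q g (t, y) (hstXi U (t, y)) (hstPi U (t, y))
      = -g.ap (t, y) * dY (h1F q U) (t, y) - (dY (h1F q U) (t, y)) ^ 2 / 2
        + q / 2 * (dY (h2F q U) (t, y)) ^ 2 + 2 * g.wp (t, y) * dY (U 1) (t, y) + (dY (U 1) (t, y)) ^ 2 := by
  unfold hstGr
  rw [hst_val_H1 q hU ht y, hst_val_H2 q hU ht y, hst_pi1]
  ring

set_option linter.unusedTactic false in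
set_option linter.unreachableTactic false in
theorem hst_q2_Q2f (hq : 1 < q) (hg : BgSm g) : HstQ2 (hstQ2f q g) := by
  unfold hstQ2f
  repeat' first
    | exact hst_q1_coord _ | exact hst_q1_H1 q | exact hst_q1_H2 q | exact hst_q1_BP q | exact hst_q1_Dgg q hg
    | exact hst_q2_Gr q hg
    | exact hst_q2_of_q1 (hst_q1_H1 q) | exact hst_q2_of_q1 (hst_q1_H2 q) | exact hst_q2_of_q1 (hst_q1_BP q)
    | exact hst_q2_of_q1 (hst_q1_Dgg q hg)
    | exact hst_const _ | exact hst_xi _ | exact hst_of_sm sm_snd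
    | exact hst_sm_E1 q | exact hst_sm_E2 q | exact hst_sm_E3 | exact hst_sm_P1 | exact hst_sm_P2
    | exact hst_sm_Gg q hg | exact hst_sm_Mp hq hg | exact hst_sm_Dr hq hg
    | exact hst_of_sm hg.smZ | exact hst_of_sm hg.smap | exact hst_of_sm hg.smwp | exact hst_of_sm hg.smapp
    | exact hst_of_sm hg.smB | exact hst_of_sm hg.smBp | exact hst_of_sm hg.smdd | exact hst_of_sm hg.smw1
    | exact hst_of_sm ((bgR_sm hq hg).smcf q _ _)
    | apply hst_add | apply hst_sub | apply hst_mul | apply hst_neg | apply hst_pow | apply hst_div_const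
    | apply hst_q1_add | apply hst_q1_sub | apply hst_q1_neg | apply hst_q1_of | apply hst_q1_smul
    | apply hst_q2_of
    | apply hst_q2_add | apply hst_q2_sub | apply hst_q2_neg | apply hst_q2_sq | apply hst_q2_smul | apply hst_q2_mul
    | apply hst_q2_of_q1

theorem hst_eq2 (hq : 1 < q) (hg : BgSm g) (hU : SmTri U) (ht : t < 0) (y : ℝ) :
    NN q g U 2 (t, y) = hmmG q g (t, y) (hstXi U (t, y)) * Lt q g U 2 (t, y)
      + hstQ2f q g (t, y) (hstXi U (t, y)) (hstPi U (t, y)) := by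
  have hq1 : q + 1 ≠ 0 := by linarith
  have hX := X_mul_bPh hq1 U (t, y)
  have hM := hst_val_Mp hq hg U ht y
  have e : NN q g U 2 (t, y) = RbF q g U (t, y) - Lt q g U 2 (t, y) := rfl
  rw [e, hst_val_mm]
  unfold hstQ2f hstDr Lt Lop RbF
  rw [hst_val_E1, hst_val_E2, hst_val_Gg, hst_val_BP, hst_val_P1, hst_val_P2, hst_val_Gr q g hU ht y,
    hst_val_H2 q hU ht y, hst_val_Dgg q hg hU ht y, hst_pi2, hst_pi3, hst_xi0, hst_xi1, Fin.sum_univ_three]
  unfold GGF Bg.w0 dimJ facJ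
  simp only [] at hX hM ⊢
  simp only [if_true, ne_eq, not_true_eq_false, and_false, if_false, one_mul]
  linear_combination (q * y * g.Z (t, y) * dY (U 2) (t, y)) * hX
    - (Xf y * dY (dY (U 2)) (t, y) - (q + 5) * y * dY (U 2) (t, y)) * hM

/-- hygiene. -/
theorem hst_two_hygiene : True := by
  have := @hstGr.eq_1
  have := @hstQ2f.eq_1
  trivial

end

end Claimed.Agent.R324.Core
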