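/-
Row 324, module HI, file St0 (sub-architect helper13): the structure theorem, component `j = 0` (`σ`).
   `NN_0 = 𝗆𝗆 (L̃ U)_0 + A0_0(p;u) + X Q_0(p;u;π)`.
-/
import Claimed.Agent.R324.Core.HI.St2

set_option autoImplicit false

namespace Claimed.Agent.R324.Core

open Set Filter Topology MeasureTheory
open scoped ContDiff

noncomputable section

/-- `(q+1) A0_0 + (q+1) (1+𝗆𝗆) Σ c̃_0k ξ_k`. -/
def hstA0a (q : ℝ) (g : Bg) : HGf := fun p ξ =>
  g.Z p * (hstE1 q p ξ - 1) * (Xf p.2 * g.app p - p.2 * g.ap p - Xf p.2 * (g.ap p) ^ 2 / 2 + Xf p.2 * (g.wp p) ^ 2)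
    - hstGG q g p ξ * g.ap p + 2 * p.2 * hstGg q g p ξ - 2 * q * g.Z p * (hstE2 q p ξ - 1)
    - 2 * q * p.2 * dY g.Z p * (hstE2 q p ξ - 1)
    + q * (-(g.Z p * (hstE2 q p ξ - 1) * (2 * (q - 1) * g.B p + 2 * q)) + 2 * p.2 * hstGg q g p ξ)

/-- `A0_0`. -/
def hstA0 (q : ℝ) (g : Bg) : HGf := fun p ξ => hstA0a q g p ξ / (q + 1) - hstMp q g p ξ * hstLin q g 0 p ξ

/-- the part of `(q+1) Q_0` which comes from `R1F + q R2F`. -/
def hstQ0a (q : ℝ) (g : Bg) : HstF := fun p ξ π =>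
  g.Z p * hstE1 q p ξ * hstGr q g p ξ π + 2 * q * g.Z p * hstBP q p ξ π - 2 * hstDgg q g p ξ π
    + 2 * q * p.2 * g.Z p * (hstBP q p ξ π * hstH2 q p ξ π)

/-- `Q_0`. -/
def hstQ0f (q : ℝ) (g : Bg) : HstF := fun p ξ π =>
  1 / (q + 1) * hstQ0a q g p ξ π - q * p.2 * g.Z p * (hstBP q p ξ π * π 0) + hstDr q g p ξ * π 0

variable {q : ℝ} {g : Bg} {U : Tri} {t : ℝ}

set_option linter.unusedTactic false in
set_option linter.unreachableTactic false in
theorem hst_sm_A0 (hq : 1 < q) (hg : BgSm g) : HGSm (hstA0 q g) := by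
  unfold hstA0 hstA0a
  repeat' first
    | exact hst_const _ | exact hst_xi _ | exact hst_of_sm sm_snd | exact hst_of_sm sm_Xf
    | exact hst_sm_E1 q | exact hst_sm_E2 q | exact hst_sm_E3
    | exact hst_sm_Gg q hg | exact hst_sm_GG q hg | exact hst_sm_Mp hq hg | exact hst_sm_Lin hq hg 0
    | exact hst_of_sm hg.smZ | exact hst_of_sm hg.smap | exact hst_of_sm hg.smwp | exact hst_of_sm hg.smapp
    | exact hst_of_sm hg.smB | exact hst_of_sm hg.smZ.dY
    | apply hst_add | apply hst_sub | apply hst_mul | apply hst_neg | apply hst_pow | apply hst_div_const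

set_option linter.unusedTactic false in
set_option linter.unreachableTactic false in
theorem hst_q2_Q0f (hq : 1 < q) (hg : BgSm g) : HstQ2 (hstQ0f q g) := by
  unfold hstQ0f hstQ0a
  repeat' first
    | exact hst_q1_coord _ | exact hst_q1_H1 q | exact hst_q1_H2 q | exact hst_q1_BP q | exact hst_q1_Dgg q hg
    | exact hst_q2_Gr q hg
    | exact hst_q2_of_q1 (hst_q1_H1 q) | exact hst_q2_of_q1 (hst_q1_H2 q) | exact hst_q2_of_q1 (hst_q1_BP q)
    | exact hst_q2_of_q1 (hst_q1_Dgg q hg)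
    | exact hst_const _ | exact hst_of_sm sm_snd
    | exact hst_sm_E1 q | exact hst_sm_Dr hq hg
    | exact hst_of_sm hg.smZ
    | apply hst_mul
    | apply hst_q2_add | apply hst_q2_sub | apply hst_q2_neg | apply hst_q2_smul | apply hst_q2_mul
    | apply hst_q2_of_q1

theorem hst_eq0 (hq : 1 < q) (hg : BgSm g) (hU : SmTri U) (ht : t < 0) (y : ℝ) :
    NN q g U 0 (t, y) = hmmG q g (t, y) (hstXi U (t, y)) * Lt q g U 0 (t, y) + hstA0 q g (t, y) (hstXi U (t, y))
      + Xf y * hstQ0f q g (t, y) (hstXi U (t, y)) (hstPi U (t, y)) := by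
  have hq1 : q + 1 ≠ 0 := by linarith
  have hX := X_mul_bPh hq1 U (t, y)
  have hM := hst_val_Mp hq hg U ht y
  have hL := hst_val_Lin q g U (t, y) 0 (by decide)
  have hA : dY (h1F q U) (t, y) + q * dY (h2F q U) (t, y) = (q + 1) * dY (U 0) (t, y) := by
    rw [dY_h1F q hU ht y, dY_h2F q hU ht y]
    field_simp
    ring
  have hB : dY (dY (h1F q U)) (t, y) + q * dY (dY (h2F q U)) (t, y) = (q + 1) * dY (dY (U 0)) (t, y) := by
    rw [dY_dY_h1F q hU ht y, dY_dY_h2F q hU ht y]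
    field_simp
    ring
  -- the identity without denominators
  have key : R1F q g U (t, y) + q * R2F q g U (t, y)
      = hstA0a q g (t, y) (hstXi U (t, y)) + Xf y * hstQ0a q g (t, y) (hstXi U (t, y)) (hstPi U (t, y))
        + (q + 1) * (g.Z (t, y) * e1F q U (t, y) * (Xf y * dY (dY (U 0)) (t, y) - y * dY (U 0) (t, y))
          - (q * y * g.Z (t, y) * e2F q U (t, y) - Xf y * g.w1 (t, y) + Xf y * ggF q g U (t, y)) * dY (U 0) (t, y)) := by
    unfold hstA0a hstQ0a R1F R2F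
    rw [hst_val_E1, hst_val_E2, hst_val_GG, hst_val_Gg, hst_val_BP, hst_val_Gr q g hU ht y,
      hst_val_H2 q hU ht y, hst_val_Dgg q hg hU ht y, dY_GGF q hg hU ht y, dY_e2F q hU ht y]
    unfold DD GGF Bg.w0
    simp only [] at hX ⊢
    have hXf : Xf y = 1 - y ^ 2 := rfl
    linear_combination (g.Z (t, y) * e1F q U (t, y) * Xf y) * hB
      + (-(g.Z (t, y) * e1F q U (t, y) * y) - (q * y * g.Z (t, y) - Xf y * g.w1 (t, y) + Xf y * ggF q g U (t, y)
          + q * y * g.Z (t, y) * (e2F q U (t, y) - 1))) * hA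
      - (2 * q * y * g.Z (t, y) * dY (h2F q U) (t, y)) * hX - (2 * q * g.Z (t, y) * bPh q U (t, y)) * hXf
  have e : NN q g U 0 (t, y) = (R1F q g U (t, y) + q * R2F q g U (t, y)) / (q + 1) - Lt q g U 0 (t, y) := rfl
  rw [e, hst_val_mm, key]
  unfold hstA0 hstQ0f hstDr Lt Lop
  rw [hL, hst_val_Gg, hst_val_BP, hst_pi0]
  unfold dimJ
  simp only [] at hX hM ⊢
  rw [if_neg (by decide)]
  generalize hstA0a q g (t, y) (hstXi U (t, y)) = a
  generalize hstQ0a q g (t, y) (hstXi U (t, y)) (hstPi U (t, y)) = s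
  have hdiv : ∀ T : ℝ, (a + Xf y * s + (q + 1) * T) / (q + 1) = a / (q + 1) + Xf y * (1 / (q + 1) * s) + T := by
    intro T
    field_simp
  rw [hdiv]
  linear_combination (q * y * g.Z (t, y) * dY (U 0) (t, y)) * hX
    - (Xf y * dY (dY (U 0)) (t, y) - (q + 1) * y * dY (U 0) (t, y)) * hM

/-- hygiene. -/
theorem hst_zero_hygiene : True := by
  have := @hstA0a.eq_1
  have := @hstA0.eq_1
  have := @hstQ0a.eq_1
  have := @hstQ0f.eq_1
  trivial

end

end Claimed.Agent.R324.Core
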