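/-
Row 324, module HI, file Struct: the STRUCTURE THEOREM of the nonlinearity (blueprint 7.5, (S1)-(S3); only algebra and smoothness, no estimates).
       `NN_j(U) = M(p;u) (L̃ U)_j + A0_j(p;u) + xr_j Σ_{c,c'} A2_{j c c'}(p;u) π_c π_c'`,      `u = uT U = (σ, h₃, X b)`,  `π = hpp 1 U = (σ', h₃', b, X b', 1)`,  `xr = (X, X, 1)`,
with `M = hmmG q g` (`= Z e₁/Z̃ - 1`) and coefficients which are smooth functions of `(t,y) ∈ {t<0} × ℝ` and `ξ ∈ ℝ³` (`HGSm`).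
Sub-architect: see the subtask.    Files HI/St*.lean, names `hst_*`.
HOW.  (S1) `Rhs_j = Z e₁ DJ_j(U_j) + X (w₁ - gg - q y Z bPh) U_j' + ZZ_j(U)`,  (S2) `NN_j = mm (L̃ U)_j + QQ_j`,
  `QQ_j = X[(w₁-w̃₁) - mm w̃₁ - gg - q y Z bPh] U_j' + ZZ_j - Σ_k fac c̃_jk U_k - mm Σ_k fac c̃_jk U_k`.
Everything in `QQ_j` is a polynomial of degree ≤ 2 in `π` whose coefficients are functions of `(p; u)`:
  `e₁ = exp(-(ξ₀ + c ξ₂))`, `e₂ = exp(-(ξ₀ - c' ξ₂))`, `e₃ = exp(-ξ₁)`, `Φ_i(ξ₂)`, `bPh = π₂ e₂ Φ₁(ξ₂)`, `e₂ - e₁ = X bPh`,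
  `h₁' = π₀ + c (π₃ - 2 y π₂)`, `h₂' = π₀ - c' (π₃ - 2 y π₂)`, `h₃' = π₁`,  `X U_j' · π = X π_j π` (j = 0,1),  `X b' = π₃`,  `fac_j2 U_2 = ξ₂` (j ≠ 2), `U_2 = π₂`,
  `dY (ggF)`, `dY (GGF)`: product and chain rule, `e_i' = - h_i' e_i`.
For `j = 0, 1` every term which contains a jet `π_c`, `c < 4`, has the factor `X` (7.5, T4/T5:  `2 q y Z (e₂-e₁) h₂' = X · 2 q y Z e₂ Φ₁ π₂ h₂'`).
-/
import Claimed.Agent.R324.Core.HI.St0

set_option autoImplicit false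

namespace Claimed.Agent.R324.Core

open Set Filter Topology MeasureTheory
open scoped ContDiff

/-- **Structure theorem.** -/
theorem hi_struct {q : ℝ} (hq : 1 < q) {g : Bg} (hg : BgSm g) : ∃ S : HNSt, HNStOK q g S := by
  obtain ⟨A0, hA0, e0⟩ := hst_q2_Q0f hq hg
  obtain ⟨A1, hA1, e1⟩ := hst_q2_Q1f hq hg
  obtain ⟨A2, hA2, e2⟩ := hst_q2_Q2f hq hg
  refine ⟨⟨hmmG q g, ![hstA0 q g, hstA1 q g, fun _ _ => 0], ![A0, A1, A2]⟩,
    ⟨hst_sm_mm hq hg, ?_, ?_⟩, rfl, ?_⟩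
  · intro i
    fin_cases i
    · exact hst_sm_A0 hq hg
    · exact hst_sm_A1 hq hg
    · exact hst_const 0
  · intro i
    fin_cases i
    · exact hA0
    · exact hA1
    · exact hA2
  · intro U hU j t ht y
    fin_cases j
    · have h := e0 (t, y) (hstXi U (t, y)) (hstPi U (t, y)) (hst_pi4 U (t, y))
      have h' := hst_eq0 hq hg hU ht y
      rw [h] at h'
      exact h'
    · have h := e1 (t, y) (hstXi U (t, y)) (hstPi U (t, y)) (hst_pi4 U (t, y))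
      have h' := hst_eq1 hq hg hU ht y
      rw [h] at h'
      exact h'
    · have h := e2 (t, y) (hstXi U (t, y)) (hstPi U (t, y)) (hst_pi4 U (t, y))
      have h' := hst_eq2 hq hg hU ht y
      rw [h] at h'
      refine h'.trans ?_
      show _ = _ + 0 + 1 * _
      rw [add_zero, one_mul]
      rfl

end Claimed.Agent.R324.Core
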