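/-
Row 324, module HI: `hi_regularity` = the statement of `regularity` (Core/Nonlin.lean), from `hi_need`, `hi_struct`, and the three parts E, S, L.
-/
import Claimed.Agent.R324.Core.HI.Need
import Claimed.Agent.R324.Core.HI.Struct
import Claimed.Agent.R324.Core.HI.Limit

set_option autoImplicit false

namespace Claimed.Agent.R324.Core

open Set Filter Topology MeasureTheory
open scoped ContDiff

/-- choice of `ε₀`, `τ₁`.    With `a := 4 Cu K (1/c + 1) ≥ 0`:  `ε₀² ≤ min (ε₁²/2, δ₀²/(4 Cs + 1), 1/(4 a + 4))`,  e.g. `ε₀ = min (ε₁/2) (min (δ₀/(4 Cs + 2)) ..)`;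
`-(tOf τs) = exp (-τs) ≤ exp (-τ₁) ≤ min Λ₀ (1/(2 a + 2))` and `x⁶ ≤ x` for `0 ≤ x ≤ 1`. -/
theorem hi_choose {q : ℝ} {g : Bg} {Γ : ℝ} {κ : HiC} (hU : HiU q g Γ κ) : ∃ ε₀ : ℝ, 0 < ε₀ ∧ ∃ τ₁ : ℝ,
    ∀ ε τs : ℝ, 0 < ε → ε ≤ ε₀ → τ₁ ≤ τs →
      -κ.Λ₀ ≤ tOf τs ∧ 2 * ε ^ 2 ≤ κ.ε₁ ^ 2 ∧ 4 * κ.Cs * ε ^ 2 ≤ κ.δ₀ ^ 2 ∧
        4 * κ.Cu * κ.K * (1 / κ.c + 1) * (2 * ε ^ 2 + (-(tOf τs)) ^ 6) ≤ 1 := by
  have hΛ := hU.hΛ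
  have hCs := hU.hCs
  have hc := hU.hc
  have hCu := hU.hCu
  have hK := hU.hK
  have hε1 := hU.hε
  have hδ := hU.hδ
  obtain ⟨a, ha⟩ : ∃ a : ℝ, a = 4 * κ.Cu * κ.K * (1 / κ.c + 1) := ⟨_, rfl⟩
  have ha0 : 0 ≤ a := by rw [ha]; positivity
  obtain ⟨m, hm⟩ : ∃ m : ℝ, m = min 1 (min κ.Λ₀ (1 / (2 * a + 2))) := ⟨_, rfl⟩
  have hm0 : 0 < m := by rw [hm]; positivity
  have hm1 : m ≤ 1 := by rw [hm]; exact min_le_left _ _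
  have hm2 : m ≤ κ.Λ₀ := by rw [hm]; exact (min_le_right _ _).trans (min_le_left _ _)
  have hm3 : m ≤ 1 / (2 * a + 2) := by rw [hm]; exact (min_le_right _ _).trans (min_le_right _ _)
  obtain ⟨e0, he0⟩ : ∃ e0 : ℝ, e0 = min 1 (min (κ.ε₁ / 2)
      (min (κ.δ₀ ^ 2 / (4 * κ.Cs + 1)) (1 / (4 * a + 4)))) := ⟨_, rfl⟩
  have he00 : 0 < e0 := by rw [he0]; positivity
  have he1 : e0 ≤ 1 := by rw [he0]; exact min_le_left _ _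
  have he2 : e0 ≤ κ.ε₁ / 2 := by rw [he0]; exact (min_le_right _ _).trans (min_le_left _ _)
  have he3 : e0 ≤ κ.δ₀ ^ 2 / (4 * κ.Cs + 1) := by
    rw [he0]; exact (min_le_right _ _).trans ((min_le_right _ _).trans (min_le_left _ _))
  have he4 : e0 ≤ 1 / (4 * a + 4) := by
    rw [he0]; exact (min_le_right _ _).trans ((min_le_right _ _).trans (min_le_right _ _))
  refine ⟨e0, he00, -Real.log m, fun ε τs hε hεe hτ => ?_⟩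
  have hx : Real.exp (-τs) ≤ m := by
    calc Real.exp (-τs) ≤ Real.exp (Real.log m) := Real.exp_le_exp.2 (by linarith)
      _ = m := Real.exp_log hm0
  have hx0 : 0 < Real.exp (-τs) := Real.exp_pos _
  have hsq : ε ^ 2 ≤ ε := by nlinarith
  have e1 : -(tOf τs) = Real.exp (-τs) := by unfold tOf; ring
  rw [e1, ← ha]
  refine ⟨by unfold tOf; linarith, by nlinarith, ?_, ?_⟩
  · have h1 : ε ^ 2 * (4 * κ.Cs + 1) ≤ κ.δ₀ ^ 2 := by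
      rw [← le_div_iff₀ (by positivity)]
      linarith
    nlinarith [sq_nonneg ε]
  · have h1 : ε ^ 2 * (4 * a + 4) ≤ 1 := by
      rw [← le_div_iff₀ (by positivity)]
      linarith
    have h2 : Real.exp (-τs) * (2 * a + 2) ≤ 1 := by
      rw [← le_div_iff₀ (by positivity)]
      linarith
    have h3 : Real.exp (-τs) ^ 6 ≤ Real.exp (-τs) := by
      have := pow_le_of_le_one hx0.le (by linarith : Real.exp (-τs) ≤ 1) (n := 6) (by norm_num)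
      exact this
    have h4 : a * Real.exp (-τs) ^ 6 ≤ a * Real.exp (-τs) := mul_le_mul_of_nonneg_left h3 ha0
    nlinarith [sq_nonneg ε]

/-- Module HI. -/
theorem hi_regularity (q : ℕ) (hq : Odd q) (hq6 : 10 ^ 6 ≤ q) (g : Bg) (hg : BgGood q g) :
    ∃ Γ₃ : ℝ, ∀ Γ : ℝ, Γ₃ ≤ Γ → ∃ ε₀ : ℝ, 0 < ε₀ ∧ ∃ τ₁ : ℝ,
    ∀ (ε τs Δ : ℝ) (N : ℕ) (Ac : Fin N → Tri) (U : ℕ → Tri)
      (β : ℕ → ℝ → EuclideanSpace ℝ (Fin N)), 0 < ε → ε ≤ ε₀ → τ₁ ≤ τs → 0 < Δ → (∀ i j, Sm (Ac i j)) →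
      Iter q g Γ ε τs Δ N Ac U β →
      ∃ W : Tri, (∀ j, Sm (W j)) ∧ NLU q g (tOf (τs + Δ + 1)) W ∧ XB q g Γ (tOf (τs + Δ + 1)) ε W := by
  obtain ⟨Γ₃, hΓ₃, H⟩ := hi_need q hq hq6 g hg
  refine ⟨Γ₃, fun Γ hΓ => ?_⟩
  obtain ⟨κ, hκ⟩ := H Γ hΓ
  have hq1 : (1 : ℝ) < (q : ℝ) := by
    have : (10 ^ 6 : ℝ) ≤ (q : ℝ) := by exact_mod_cast hq6
    linarith
  obtain ⟨S, hS⟩ := hi_struct hq1 hg.sm
  obtain ⟨ε₀, hε₀, τ₁, hch⟩ := hi_choose hκ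
  refine ⟨ε₀, hε₀, τ₁, fun ε τs Δ N Ac U β hε hεε hτ hΔ hAc hit => ?_⟩
  obtain ⟨c1, c2, c3, c4⟩ := hch ε τs hε hεε hτ
  have hm : ∃ m : ℕ, (q : ℝ) = 2 * (m : ℝ) + 1 := by
    obtain ⟨m, hm⟩ := hq
    exact ⟨m, by rw [hm]; push_cast; ring⟩
  have C : HiCtx q g Γ κ S ε τs Δ N Ac U β :=
    { hq := hq1, hm := hm, hg := hg, hΓ := hΓ₃.trans hΓ, hU := hκ, hS := hS, hε := hε, hts := c1, hε1 := c2,
      hεδ := c3, hη := c4, hΔ := hΔ, hAc := hAc, it := hit }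
  exact hi_limit C (fun s₂ h₁₂ h₂ I r j => hi_sup C h₁₂ h₂ I r j)

end Claimed.Agent.R324.Core
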