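/-
Row 324, module HI, PART L, file LE2 (E2 world, `x ∈ [0,1]`): the limit of a sequence with bounded derivatives which is uniformly Cauchy; all derivatives converge uniformly.
Port of R325/Core/HI/Lim.lean (pack R325/Pk56.lean).
-/
import Claimed.Agent.R324.E2.Lim
import Claimed.Agent.R324.E2.Ext

set_option autoImplicit false

namespace Claimed.Agent.R324.Core

open Set Filter Topology MeasureTheory
open scoped ContDiff

/-- `e2_limit_fam` (R324/E2/Lim.lean) with the additional information that `G i j` is the pointwise limit of the derivatives. -/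
theorem hi_Le_limit_fam {T s₀ : ℝ} {u : ℕ → ℝ × ℝ → ℝ} (h₀ : s₀ < T) (hsm : ∀ N, E2Sm T (u N))
    (hub : ∀ s₂ < T, ∀ I, E2UB s₀ s₂ I u) (hc : ∀ s₂ < T, E2UC s₀ s₂ u) :
    ∃ G : ℕ → ℕ → ℝ × ℝ → ℝ, E2Fam s₀ T G ∧
      ∀ i j : ℕ, ∀ t : ℝ, s₀ ≤ t → t < T → ∀ x ∈ Icc (0 : ℝ) 1,
        Tendsto (fun N => e2Pd i j (u N) (t, x)) atTop (𝓝 (G i j (t, x))) := by
  refine ⟨fun i j q => limUnder atTop (fun N => e2Pd i j (u N) q), ⟨?_, ?_, ?_⟩, ?_⟩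
  · intro i j t ht x hx
    obtain ⟨s₂, hs₂, hs₂T⟩ := exists_between ht.2
    obtain ⟨K, hK⟩ := hub s₂ hs₂T (i + 2) (i + 2) le_rfl j
    have := e2_limit_deriv (h := fun N s => e2Pd i j (u N) (s, x))
      (h' := fun N s => e2Pd (i + 1) j (u N) (s, x))
      (h'' := fun N s => e2Pd (i + 2) j (u N) (s, x))
      (H := fun s => limUnder atTop (fun N => e2Pd i j (u N) (s, x)))
      (H' := fun s => limUnder atTop (fun N => e2Pd (i + 1) j (u N) (s, x)))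
      (α := s₀) (β := s₂) (K := K)
      (fun n y hy => (hsm n).pd_hasDerivAt_t i j (lt_of_le_of_lt hy.2 hs₂T) x)
      (fun n y hy => (hsm n).pd_hasDerivAt_t (i + 1) j (lt_of_le_of_lt hy.2 hs₂T) x)
      (fun n y hy => hK n y hy x hx)
      (fun y hy => e2_lim_tendsto h₀ hsm hub hc i j hy.1 (lt_of_le_of_lt hy.2 hs₂T) hx)
      (fun y hy => e2_lim_tendsto h₀ hsm hub hc (i + 1) j hy.1 (lt_of_le_of_lt hy.2 hs₂T) hx)
      t ⟨ht.1.le, hs₂.le⟩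
    exact this.hasDerivAt (Icc_mem_nhds ht.1 hs₂)
  · intro i j t ht x hx
    obtain ⟨K, hK⟩ := hub t ht.2 i i le_rfl (j + 2)
    exact e2_limit_deriv (h := fun N y => e2Pd i j (u N) (t, y))
      (h' := fun N y => e2Pd i (j + 1) (u N) (t, y))
      (h'' := fun N y => e2Pd i (j + 2) (u N) (t, y))
      (H := fun y => limUnder atTop (fun N => e2Pd i j (u N) (t, y)))
      (H' := fun y => limUnder atTop (fun N => e2Pd i (j + 1) (u N) (t, y)))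
      (α := 0) (β := 1) (K := K)
      (fun n y _ => (hsm n).pd_hasDerivAt_x i j ht.2 y)
      (fun n y _ => (hsm n).pd_hasDerivAt_x i (j + 1) ht.2 y)
      (fun n y hy => hK n t ⟨ht.1.le, le_rfl⟩ y hy)
      (fun y hy => e2_lim_tendsto h₀ hsm hub hc i j ht.1.le ht.2 hy)
      (fun y hy => e2_lim_tendsto h₀ hsm hub hc i (j + 1) ht.1.le ht.2 hy)
      x hx
  · intro i j s₁ s₂ hs₁ hs₂
    obtain ⟨C, hC⟩ := hub s₂ hs₂ i i le_rfl j
    refine ⟨C, fun t ht x hx => ?_⟩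
    have hlim := e2_lim_tendsto h₀ hsm hub hc i j (hs₁.le.trans ht.1) (lt_of_le_of_lt ht.2 hs₂) hx
    exact le_of_tendsto hlim.abs
      (Eventually.of_forall fun N => hC N t ⟨hs₁.le.trans ht.1, ht.2⟩ x hx)
  · intro i j t ht₀ ht x hx
    exact e2_lim_tendsto h₀ hsm hub hc i j ht₀ ht hx

/-- a smooth function which coincides with `G 0 0` on `(ts,0) × [0,1]` has the derivatives `G i j` there. -/
theorem hi_Le_fam_pd {s₀ ts : ℝ} {G : ℕ → ℕ → ℝ × ℝ → ℝ} {W : ℝ × ℝ → ℝ} (hG : E2Fam s₀ 0 G)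
    (hW' : E2Sm 0 W) (hts : s₀ ≤ ts)
    (e : ∀ t ∈ Ioo ts 0, ∀ x ∈ Icc (0 : ℝ) 1, W (t, x) = G 0 0 (t, x)) (i j : ℕ) :
    ∀ t ∈ Ioo ts 0, ∀ x ∈ Icc (0 : ℝ) 1, e2Pd i j W (t, x) = G i j (t, x) := by
  have hi : ∀ i : ℕ, ∀ t ∈ Ioo ts 0, ∀ x ∈ Icc (0 : ℝ) 1, e2Pd i 0 W (t, x) = G i 0 (t, x) := by
    intro i
    induction i with
    | zero => exact e
    | succ i ih =>
      intro t ht x hx
      have h1 := hW'.pd_hasDerivAt_t i 0 ht.2 x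
      have h2 := hG.dt i 0 t ⟨lt_of_le_of_lt hts ht.1, ht.2⟩ x hx
      have heq : (fun s => G i 0 (s, x)) =ᶠ[𝓝 t] fun s => e2Pd i 0 W (s, x) := by
        filter_upwards [Ioo_mem_nhds ht.1 ht.2] with s hs
        exact (ih s hs x hx).symm
      exact (h1.congr_of_eventuallyEq heq).unique h2
  induction j with
  | zero => exact hi i
  | succ j ih =>
    intro t ht x hx
    have h1 := (hW'.pd_hasDerivAt_x i j ht.2 x).hasDerivWithinAt (s := Icc (0 : ℝ) 1)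
    have h2 := hG.dx i j t ⟨lt_of_le_of_lt hts ht.1, ht.2⟩ x hx
    have h3 : HasDerivWithinAt (fun y => e2Pd i j W (t, y)) (G i (j + 1) (t, x)) (Icc (0 : ℝ) 1) x :=
      h2.congr (fun y hy => ih t ht y hy) (ih t ht x hx)
    exact (uniqueDiffOn_Icc zero_lt_one x hx).eq_deriv _ h1 h3

/-- **The limit** (E2 world). -/
theorem hi_Le_exists {w : ℕ → ℝ × ℝ → ℝ} (hsm' : ∀ k, E2Sm 0 (w k)) {ts : ℝ} (hts : ts < 0)
    (hv : ∀ k, ∀ t ≤ ts, ∀ x ∈ Icc (0 : ℝ) 1, w k (t, x) = 0) (hub : ∀ s₂ < 0, ∀ I, E2UB (ts - 1) s₂ I w)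
    (hc : ∀ s₂ < 0, E2UC (ts - 1) s₂ w) :
    ∃ W : ℝ × ℝ → ℝ, E2Sm 0 W ∧ ∀ s₁ s₂ : ℝ, ts < s₁ → s₂ < 0 → ∀ i j : ℕ, ∀ ε > 0, ∃ N₀ : ℕ, ∀ n ≥ N₀,
      ∀ t ∈ Icc s₁ s₂, ∀ x ∈ Icc (0 : ℝ) 1, |e2Pd i j (w n) (t, x) - e2Pd i j W (t, x)| ≤ ε := by
  obtain ⟨G, hG, hlim⟩ := hi_Le_limit_fam (T := 0) (s₀ := ts - 1) (u := w) (by linarith) hsm' hub hc
  have h0 : ∀ t ∈ Ioc (ts - 1) ts, ∀ x ∈ Icc (0 : ℝ) 1, G 0 0 (t, x) = 0 := by
    intro t ht x hx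
    have h1 := hlim 0 0 t ht.1.le (lt_of_le_of_lt ht.2 hts) x hx
    have h2 : (fun N => e2Pd 0 0 (w N) (t, x)) = fun _ => (0 : ℝ) := by
      funext N
      exact hv N t ht.2 x hx
    rw [h2] at h1
    exact tendsto_nhds_unique h1 tendsto_const_nhds
  obtain ⟨W, hW, _, hWG⟩ := e2_extend ts 0 (G 0 0) hG.contDiffOn h0
  refine ⟨W, hW, ?_⟩
  intro s₁ s₂ h1 h2 i j ε hε
  by_cases h12 : s₁ ≤ s₂
  · have huc := e2_uc_all (s₀ := ts - 1) (s₂ := s₂) (T := 0) (by linarith) h2 hsm' (hub s₂ h2)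
      (hc s₂ h2) i j
    obtain ⟨N₀, hN₀⟩ := huc ε hε
    refine ⟨N₀, fun n hn t ht x hx => ?_⟩
    have ht0 : t < 0 := lt_of_le_of_lt ht.2 h2
    have hts' : ts < t := lt_of_lt_of_le h1 ht.1
    rw [hi_Le_fam_pd hG hW (by linarith) hWG i j t ⟨hts', ht0⟩ x hx, abs_sub_comm]
    have hl := ((hlim i j t (by linarith) ht0 x hx).sub_const (e2Pd i j (w n) (t, x))).abs
    refine le_of_tendsto hl ?_
    filter_upwards [eventually_ge_atTop n] with M hM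
    exact hN₀ n hn M hM t ⟨by linarith, ht.2⟩ x hx
  · refine ⟨0, fun n _ t ht => ?_⟩
    exact absurd (ht.1.trans ht.2) h12

end Claimed.Agent.R324.Core
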