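/-
Row 324, module HI, PART L, file LO: calculus of the classes `HiLO` (all derivatives tend to `0`, uniformly on `[s₁,s₂] × [-1,1]`), `HiLT` (uniform convergence), `HiLB` (bounded).
Port of R325/Core/HI/BdO.lean (pack R325/Pk56.lean); the multipliers are FIXED smooth functions.       `dY^[j] (dT^[i] f) = e2Pd i j f` by `rfl`.
-/
import Claimed.Agent.R324.Core.HI.LDefs

set_option autoImplicit false

namespace Claimed.Agent.R324.Core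

open Set Filter Topology MeasureTheory
open scoped ContDiff

variable {s₁ s₂ : ℝ} {𝓕 𝓖 : ℕ → Fn} {f g : Fn}

theorem hi_L_pd_eq (i j : ℕ) (f : Fn) : dY^[j] (dT^[i] f) = e2Pd i j f := rfl

/-! ### the class `HiLO` -/

/-- congruence (equality for `t < 0` and all `y`). -/
theorem HiLO.congr (h₂ : s₂ < 0) (h : HiLO s₁ s₂ 𝓕) (e : ∀ n, ∀ t < 0, ∀ y, 𝓖 n (t, y) = 𝓕 n (t, y)) :
    HiLO s₁ s₂ 𝓖 := by
  intro i j ε hε
  obtain ⟨N₀, hN⟩ := h i j ε hε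
  refine ⟨N₀, fun n hn t ht x hx => ?_⟩
  have h1 : dY^[j] (dT^[i] (𝓖 n)) (t, x) = dY^[j] (dT^[i] (𝓕 n)) (t, x) :=
    e2Pd_congr (T := 0) (e n) i j t (ht.2.trans_lt h₂) x
  rw [h1]
  exact hN n hn t ht x hx

theorem HiLO.shift (h : HiLO s₁ s₂ 𝓕) : HiLO s₁ s₂ (fun n => 𝓕 (n + 1)) := by
  intro i j ε hε
  obtain ⟨N₀, hN⟩ := h i j ε hε
  exact ⟨N₀, fun n hn t ht x hx => hN (n + 1) (le_trans hn (Nat.le_succ n)) t ht x hx⟩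

theorem HiLO.add (h₂ : s₂ < 0) (hf : ∀ n, Sm (𝓕 n)) (hg : ∀ n, Sm (𝓖 n))
    (h : HiLO s₁ s₂ 𝓕) (h' : HiLO s₁ s₂ 𝓖) : HiLO s₁ s₂ (fun n q => 𝓕 n q + 𝓖 n q) := by
  intro i j ε hε
  obtain ⟨N₀, hN⟩ := h i j (ε / 2) (by positivity)
  obtain ⟨N₁, hN'⟩ := h' i j (ε / 2) (by positivity)
  refine ⟨max N₀ N₁, fun n hn t ht x hx => ?_⟩
  show |e2Pd i j (fun q => 𝓕 n q + 𝓖 n q) (t, x)| ≤ ε
  rw [e2Pd_add (T := 0) (hf n) (hg n) i j t (ht.2.trans_lt h₂) x]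
  have a1 : |e2Pd i j (𝓕 n) (t, x)| ≤ ε / 2 := hN n (le_trans (le_max_left _ _) hn) t ht x hx
  have a2 : |e2Pd i j (𝓖 n) (t, x)| ≤ ε / 2 := hN' n (le_trans (le_max_right _ _) hn) t ht x hx
  exact (abs_add_le _ _).trans (by linarith)

theorem HiLO.neg (h₂ : s₂ < 0) (hf : ∀ n, Sm (𝓕 n)) (h : HiLO s₁ s₂ 𝓕) :
    HiLO s₁ s₂ (fun n q => - 𝓕 n q) := by
  intro i j ε hε
  obtain ⟨N₀, hN⟩ := h i j ε hε
  refine ⟨N₀, fun n hn t ht x hx => ?_⟩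
  show |e2Pd i j (fun q => - 𝓕 n q) (t, x)| ≤ ε
  rw [e2Pd_neg (T := 0) (hf n) i j t (ht.2.trans_lt h₂) x, abs_neg]
  exact hN n hn t ht x hx

theorem HiLO.sub (h₂ : s₂ < 0) (hf : ∀ n, Sm (𝓕 n)) (hg : ∀ n, Sm (𝓖 n))
    (h : HiLO s₁ s₂ 𝓕) (h' : HiLO s₁ s₂ 𝓖) : HiLO s₁ s₂ (fun n q => 𝓕 n q - 𝓖 n q) := by
  intro i j ε hε
  obtain ⟨N₀, hN⟩ := h i j (ε / 2) (by positivity)
  obtain ⟨N₁, hN'⟩ := h' i j (ε / 2) (by positivity)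
  refine ⟨max N₀ N₁, fun n hn t ht x hx => ?_⟩
  show |e2Pd i j (fun q => 𝓕 n q - 𝓖 n q) (t, x)| ≤ ε
  rw [e2Pd_sub (T := 0) (hf n) (hg n) i j t (ht.2.trans_lt h₂) x]
  have a1 : |e2Pd i j (𝓕 n) (t, x)| ≤ ε / 2 := hN n (le_trans (le_max_left _ _) hn) t ht x hx
  have a2 : |e2Pd i j (𝓖 n) (t, x)| ≤ ε / 2 := hN' n (le_trans (le_max_right _ _) hn) t ht x hx
  exact (abs_sub _ _).trans (by linarith)

theorem HiLO.dT (h : HiLO s₁ s₂ 𝓕) : HiLO s₁ s₂ (fun n => dT (𝓕 n)) := by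
  intro i j ε hε
  obtain ⟨N₀, hN⟩ := h (i + 1) j ε hε
  refine ⟨N₀, fun n hn t ht x hx => ?_⟩
  have h1 : |e2Pd (i + 1) j (𝓕 n) (t, x)| ≤ ε := hN n hn t ht x hx
  rw [← e2Pd_pdt] at h1
  exact h1

theorem HiLO.dY (h₂ : s₂ < 0) (hf : ∀ n, Sm (𝓕 n)) (h : HiLO s₁ s₂ 𝓕) :
    HiLO s₁ s₂ (fun n => dY (𝓕 n)) := by
  intro i j ε hε
  obtain ⟨N₀, hN⟩ := h i (j + 1) ε hε
  refine ⟨N₀, fun n hn t ht x hx => ?_⟩
  show |e2Pd i j (e2Pdx (𝓕 n)) (t, x)| ≤ ε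
  rw [E2Sm.pd_pdx (T := 0) (hf n) i j t (ht.2.trans_lt h₂) x]
  exact hN n hn t ht x hx

/-- null times a fixed smooth function is null, no time derivative. -/
theorem hi_L_mul_fix_zero (h₂ : s₂ < 0) (j : ℕ) : ∀ (𝓕 : ℕ → Fn) (g : Fn), (∀ n, Sm (𝓕 n)) →
    Sm g → HiLO s₁ s₂ 𝓕 →
    ∀ ε > 0, ∃ N₀ : ℕ, ∀ n ≥ N₀, ∀ t ∈ Icc s₁ s₂, ∀ x ∈ Icc (-1 : ℝ) 1,
      |e2Pd 0 j (fun q => 𝓕 n q * g q) (t, x)| ≤ ε := by
  induction j with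
  | zero =>
    intro 𝓕 g _ hg h ε hε
    obtain ⟨C, hC0, hC⟩ := hg.bdd s₁ h₂ (-1) 1
    obtain ⟨N₀, hN⟩ := h 0 0 (ε / (C + 1)) (by positivity)
    refine ⟨N₀, fun n hn t ht x hx => ?_⟩
    have h1 : |𝓕 n (t, x)| ≤ ε / (C + 1) := hN n hn t ht x hx
    have h2 : |g (t, x)| ≤ C + 1 := (hC t ht x hx).trans (by linarith)
    show |𝓕 n (t, x) * g (t, x)| ≤ ε
    rw [abs_mul]
    calc |𝓕 n (t, x)| * |g (t, x)| ≤ ε / (C + 1) * (C + 1) :=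
          mul_le_mul h1 h2 (abs_nonneg _) (by positivity)
      _ = ε := by field_simp
  | succ j ih =>
    intro 𝓕 g hf hg h ε hε
    obtain ⟨N₀, hN⟩ := ih (fun n => e2Pdx (𝓕 n)) g (fun n => E2Sm.pdx (T := 0) (hf n)) hg
      (HiLO.dY h₂ hf h) (ε / 2) (by positivity)
    obtain ⟨N₁, hN'⟩ := ih 𝓕 (e2Pdx g) hf (E2Sm.pdx (T := 0) hg) h (ε / 2) (by positivity)
    refine ⟨max N₀ N₁, fun n hn t ht x hx => ?_⟩
    rw [e2Pd_zero_succ_mul (T := 0) (hf n) hg j t (ht.2.trans_lt h₂) x]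
    have a1 := hN n (le_trans (le_max_left _ _) hn) t ht x hx
    have a2 := hN' n (le_trans (le_max_right _ _) hn) t ht x hx
    exact (abs_add_le _ _).trans (by linarith)

/-- null times a fixed smooth function is null. -/
theorem HiLO.mul_fix (h₂ : s₂ < 0) (hf : ∀ n, Sm (𝓕 n)) (hg : Sm g)
    (h : HiLO s₁ s₂ 𝓕) : HiLO s₁ s₂ (fun n q => 𝓕 n q * g q) := by
  intro i
  induction i generalizing 𝓕 g with
  | zero => exact fun j => hi_L_mul_fix_zero h₂ j 𝓕 g hf hg h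
  | succ i ih =>
    intro j ε hε
    obtain ⟨N₀, hN⟩ := ih (𝓕 := fun n => e2Pdt (𝓕 n)) (g := g)
      (fun n => E2Sm.pdt (T := 0) (hf n)) hg (HiLO.dT h) j (ε / 2) (by positivity)
    obtain ⟨N₁, hN'⟩ := ih (𝓕 := 𝓕) (g := e2Pdt g) hf (E2Sm.pdt (T := 0) hg) h j (ε / 2)
      (by positivity)
    refine ⟨max N₀ N₁, fun n hn t ht x hx => ?_⟩
    show |e2Pd (i + 1) j (fun q => 𝓕 n q * g q) (t, x)| ≤ ε
    rw [e2Pd_succ_mul (T := 0) (hf n) hg i j t (ht.2.trans_lt h₂) x]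
    have a1 : |e2Pd i j (fun q => e2Pdt (𝓕 n) q * g q) (t, x)| ≤ ε / 2 :=
      hN n (le_trans (le_max_left _ _) hn) t ht x hx
    have a2 : |e2Pd i j (fun q => 𝓕 n q * e2Pdt g q) (t, x)| ≤ ε / 2 :=
      hN' n (le_trans (le_max_right _ _) hn) t ht x hx
    exact (abs_add_le _ _).trans (by linarith)

/-- a fixed smooth function times null is null. -/
theorem HiLO.fix_mul (h₂ : s₂ < 0) (hg : Sm g) (hf : ∀ n, Sm (𝓕 n))
    (h : HiLO s₁ s₂ 𝓕) : HiLO s₁ s₂ (fun n q => g q * 𝓕 n q) := by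
  have e : (fun (n : ℕ) (q : ℝ × ℝ) => g q * 𝓕 n q) = fun n q => 𝓕 n q * g q := by
    funext n q
    ring
  rw [e]
  exact HiLO.mul_fix h₂ hf hg h

theorem hiLO_zero : HiLO s₁ s₂ (fun _ _ => 0) := by
  intro i j ε hε
  refine ⟨0, fun n _ t _ x _ => ?_⟩
  show |e2Pd i j (fun _ => (0 : ℝ)) (t, x)| ≤ ε
  rw [e2_PdB_pd_zero]
  simpa using hε.le

theorem hiLO_sum (h₂ : s₂ < 0) {ι : Type} (s : Finset ι) {𝓗 : ι → ℕ → Fn}
    (hf : ∀ a ∈ s, ∀ n, Sm (𝓗 a n)) (h : ∀ a ∈ s, HiLO s₁ s₂ (𝓗 a)) :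
    HiLO s₁ s₂ (fun n q => ∑ a ∈ s, 𝓗 a n q) := by
  classical
  induction s using Finset.induction_on with
  | empty =>
    simp only [Finset.sum_empty]
    exact hiLO_zero
  | insert a s ha ih =>
    have h1 : (fun (n : ℕ) (q : ℝ × ℝ) => ∑ b ∈ insert a s, 𝓗 b n q)
        = fun n q => 𝓗 a n q + ∑ b ∈ s, 𝓗 b n q := by
      funext n q
      exact Finset.sum_insert ha
    rw [h1]
    exact HiLO.add h₂ (hf a (Finset.mem_insert_self a s))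
      (fun n => sm_sum s (fun b hb => hf b (Finset.mem_insert_of_mem hb) n))
      (h a (Finset.mem_insert_self a s))
      (ih (fun b hb => hf b (Finset.mem_insert_of_mem hb)) (fun b hb => h b (Finset.mem_insert_of_mem hb)))

/-! ### from `HiLO` of the difference to convergence of the derivatives -/

/-- uniform convergence of the derivatives. -/
theorem HiLO.tendsU (h₂ : s₂ < 0) (hf : ∀ n, Sm (𝓕 n)) (hg : Sm g)
    (h : HiLO s₁ s₂ (fun n q => 𝓕 n q - g q)) (i j : ℕ) :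
    HiLT s₁ s₂ (fun n => Core.dY^[j] (Core.dT^[i] (𝓕 n))) (Core.dY^[j] (Core.dT^[i] g)) := by
  intro ε hε
  obtain ⟨N₀, hN⟩ := h i j ε hε
  refine ⟨N₀, fun n hn t ht x hx => ?_⟩
  have h1 : |e2Pd i j (fun q => 𝓕 n q - g q) (t, x)| ≤ ε := hN n hn t ht x hx
  rw [e2Pd_sub (T := 0) (hf n) hg i j t (ht.2.trans_lt h₂) x] at h1
  exact h1

/-- pointwise convergence. -/
theorem HiLT.tendsto (h : HiLT s₁ s₂ 𝓕 f) {t y : ℝ} (ht : t ∈ Icc s₁ s₂) (hy : y ∈ Icc (-1 : ℝ) 1) :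
    Tendsto (fun n => 𝓕 n (t, y)) atTop (𝓝 (f (t, y))) := by
  rw [Metric.tendsto_atTop]
  intro ε hε
  obtain ⟨N₀, hN⟩ := h (ε / 2) (by positivity)
  refine ⟨N₀, fun n hn => ?_⟩
  have h1 := hN n hn t ht y hy
  rw [Real.dist_eq]
  linarith

/-! ### the classes `HiLB`, `HiLT` -/

theorem Sm.hiLB (h₂ : s₂ < 0) (hf : Sm f) : HiLB s₁ s₂ f := by
  obtain ⟨C, _, hC⟩ := hf.bdd s₁ h₂ (-1) 1
  exact ⟨C, hC⟩

/-- continuous on the closed strip. -/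
theorem hiLB_of_contOn (h₂ : s₂ < 0) (hf : ContinuousOn f (Iio (0 : ℝ) ×ˢ Icc (-1 : ℝ) 1)) : HiLB s₁ s₂ f := by
  have hK : IsCompact (Icc s₁ s₂ ×ˢ Icc (-1 : ℝ) 1) := isCompact_Icc.prod isCompact_Icc
  have hc : ContinuousOn f (Icc s₁ s₂ ×ˢ Icc (-1 : ℝ) 1) :=
    hf.mono (fun p hp => ⟨lt_of_le_of_lt hp.1.2 h₂, hp.2⟩)
  obtain ⟨C, hC⟩ := hK.exists_bound_of_continuousOn hc
  refine ⟨C, fun t ht y hy => ?_⟩
  have := hC (t, y) ⟨ht, hy⟩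
  rwa [Real.norm_eq_abs] at this

theorem hiLT_const (f : Fn) : HiLT s₁ s₂ (fun _ => f) f := by
  intro ε hε
  refine ⟨0, fun n _ t _ y _ => ?_⟩
  simpa using hε.le

theorem HiLT.congr (h : HiLT s₁ s₂ 𝓕 f) (e : ∀ n, ∀ t ∈ Icc s₁ s₂, ∀ y ∈ Icc (-1 : ℝ) 1, 𝓖 n (t, y) = 𝓕 n (t, y))
    (e' : ∀ t ∈ Icc s₁ s₂, ∀ y ∈ Icc (-1 : ℝ) 1, g (t, y) = f (t, y)) : HiLT s₁ s₂ 𝓖 g := by
  intro ε hε
  obtain ⟨N₀, hN⟩ := h ε hε
  refine ⟨N₀, fun n hn t ht y hy => ?_⟩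
  rw [e n t ht y hy, e' t ht y hy]
  exact hN n hn t ht y hy

theorem HiLT.add (h : HiLT s₁ s₂ 𝓕 f) (h' : HiLT s₁ s₂ 𝓖 g) :
    HiLT s₁ s₂ (fun n q => 𝓕 n q + 𝓖 n q) (fun q => f q + g q) := by
  intro ε hε
  obtain ⟨N₀, hN⟩ := h (ε / 2) (by positivity)
  obtain ⟨N₁, hN'⟩ := h' (ε / 2) (by positivity)
  refine ⟨max N₀ N₁, fun n hn t ht y hy => ?_⟩
  have a1 := hN n (le_trans (le_max_left _ _) hn) t ht y hy
  have a2 := hN' n (le_trans (le_max_right _ _) hn) t ht y hy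
  have e : 𝓕 n (t, y) + 𝓖 n (t, y) - (f (t, y) + g (t, y))
      = (𝓕 n (t, y) - f (t, y)) + (𝓖 n (t, y) - g (t, y)) := by ring
  rw [e]
  exact (abs_add_le _ _).trans (by linarith)

/-- products of uniformly convergent sequences with bounded limits. -/
theorem HiLT.mul (h : HiLT s₁ s₂ 𝓕 f) (h' : HiLT s₁ s₂ 𝓖 g) (hf : HiLB s₁ s₂ f) (hg : HiLB s₁ s₂ g) :
    HiLT s₁ s₂ (fun n q => 𝓕 n q * 𝓖 n q) (fun q => f q * g q) := by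
  obtain ⟨A, hA⟩ := hf
  obtain ⟨B, hB⟩ := hg
  intro ε hε
  have hK : 0 < |A| + |B| + 2 := by positivity
  have hη : 0 < min 1 (ε / (|A| + |B| + 2)) := lt_min one_pos (by positivity)
  obtain ⟨N₀, hN⟩ := h _ hη
  obtain ⟨N₁, hN'⟩ := h' _ hη
  refine ⟨max N₀ N₁, fun n hn t ht y hy => ?_⟩
  have a1 := hN n (le_trans (le_max_left _ _) hn) t ht y hy
  have a2 := hN' n (le_trans (le_max_right _ _) hn) t ht y hy
  have b1 : |f (t, y)| ≤ |A| := (hA t ht y hy).trans (le_abs_self A)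
  have b2 : |g (t, y)| ≤ |B| := (hB t ht y hy).trans (le_abs_self B)
  have c1 : min 1 (ε / (|A| + |B| + 2)) ≤ 1 := min_le_left _ _
  have c2 : min 1 (ε / (|A| + |B| + 2)) ≤ ε / (|A| + |B| + 2) := min_le_right _ _
  generalize min 1 (ε / (|A| + |B| + 2)) = η at hη a1 a2 c1 c2
  rw [le_div_iff₀ hK] at c2
  have e : 𝓕 n (t, y) * 𝓖 n (t, y) - f (t, y) * g (t, y)
      = (𝓕 n (t, y) - f (t, y)) * (𝓖 n (t, y) - g (t, y)) + (𝓕 n (t, y) - f (t, y)) * g (t, y)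
        + f (t, y) * (𝓖 n (t, y) - g (t, y)) := by ring
  rw [e]
  have d1 : |(𝓕 n (t, y) - f (t, y)) * (𝓖 n (t, y) - g (t, y))| ≤ η * 1 := by
    rw [abs_mul]
    exact mul_le_mul a1 (a2.trans c1) (abs_nonneg _) hη.le
  have d2 : |(𝓕 n (t, y) - f (t, y)) * g (t, y)| ≤ η * |B| := by
    rw [abs_mul]
    exact mul_le_mul a1 b2 (abs_nonneg _) hη.le
  have d3 : |f (t, y) * (𝓖 n (t, y) - g (t, y))| ≤ |A| * η := by
    rw [abs_mul]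
    exact mul_le_mul b1 a2 (abs_nonneg _) (abs_nonneg _)
  have d4 := abs_add_le ((𝓕 n (t, y) - f (t, y)) * (𝓖 n (t, y) - g (t, y)) + (𝓕 n (t, y) - f (t, y)) * g (t, y))
    (f (t, y) * (𝓖 n (t, y) - g (t, y)))
  have d5 := abs_add_le ((𝓕 n (t, y) - f (t, y)) * (𝓖 n (t, y) - g (t, y))) ((𝓕 n (t, y) - f (t, y)) * g (t, y))
  nlinarith

theorem HiLT.const_mul (c : ℝ) (h : HiLT s₁ s₂ 𝓕 f) :
    HiLT s₁ s₂ (fun n q => c * 𝓕 n q) (fun q => c * f q) := by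
  intro ε hε
  obtain ⟨N₀, hN⟩ := h (ε / (|c| + 1)) (by positivity)
  refine ⟨N₀, fun n hn t ht y hy => ?_⟩
  have a1 := hN n hn t ht y hy
  rw [← mul_sub, abs_mul]
  calc |c| * |𝓕 n (t, y) - f (t, y)| ≤ (|c| + 1) * (ε / (|c| + 1)) :=
        mul_le_mul (by linarith) a1 (abs_nonneg _) (by positivity)
    _ = ε := by field_simp

/-- a fixed bounded function times a uniformly convergent sequence. -/
theorem HiLT.fix_mul (hg : HiLB s₁ s₂ g) (h : HiLT s₁ s₂ 𝓕 f) (hf : HiLB s₁ s₂ f) :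
    HiLT s₁ s₂ (fun n q => g q * 𝓕 n q) (fun q => g q * f q) :=
  HiLT.mul (hiLT_const g) h hg hf

theorem HiLT.sq (h : HiLT s₁ s₂ 𝓕 f) (hf : HiLB s₁ s₂ f) :
    HiLT s₁ s₂ (fun n q => (𝓕 n q) ^ 2) (fun q => (f q) ^ 2) := by
  have := HiLT.mul h h hf hf
  simpa only [pow_two] using this

theorem HiLB.add (hf : HiLB s₁ s₂ f) (hg : HiLB s₁ s₂ g) : HiLB s₁ s₂ (fun q => f q + g q) := by
  obtain ⟨A, hA⟩ := hf
  obtain ⟨B, hB⟩ := hg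
  exact ⟨A + B, fun t ht y hy => (abs_add_le _ _).trans (add_le_add (hA t ht y hy) (hB t ht y hy))⟩

theorem HiLB.mul (hf : HiLB s₁ s₂ f) (hg : HiLB s₁ s₂ g) : HiLB s₁ s₂ (fun q => f q * g q) := by
  obtain ⟨A, hA⟩ := hf
  obtain ⟨B, hB⟩ := hg
  refine ⟨|A| * |B|, fun t ht y hy => ?_⟩
  rw [abs_mul]
  exact mul_le_mul ((hA t ht y hy).trans (le_abs_self A)) ((hB t ht y hy).trans (le_abs_self B))
    (abs_nonneg _) (abs_nonneg _)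

end Claimed.Agent.R324.Core
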