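/-
Row 324, module HI, PART L, file LAff (L2): the affine change `y = 2x-1` between `[-1,1]` and `[0,1]`, and the existence of the limit on `[-1,1]`.
`hiLa f (t,x) = f (t,2x-1)`, `hiLb γ (t,y) = γ (t,(y+1)/2)`.     `e2Pd i j (hiLa f) = 2^j hiLa (∂_y^j ∂_t^i f)`  (no hypothesis on `f`).
-/
import Claimed.Agent.R324.Core.HI.LE2
import Claimed.Agent.R324.Core.HI.LO
import Claimed.Agent.R324.Core.HI.Strip

set_option autoImplicit false

namespace Claimed.Agent.R324.Core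

open Set Filter Topology MeasureTheory
open scoped ContDiff

variable {f : Fn} {γ : ℝ × ℝ → ℝ} {ts : ℝ}

theorem hi_La_Lb (γ : ℝ × ℝ → ℝ) : hiLa (hiLb γ) = γ := by
  funext p
  show γ (p.1, (2 * p.2 - 1 + 1) / 2) = γ p
  have : (2 * p.2 - 1 + 1) / 2 = p.2 := by ring
  rw [this]

theorem hi_La_dt (f : Fn) : e2Pdt (hiLa f) = hiLa (dT f) := rfl

theorem hi_La_dx (f : Fn) : e2Pdx (hiLa f) = fun p => 2 * hiLa (dY f) p := by
  funext p
  show deriv (fun y => f (p.1, 2 * y - 1)) p.2 = 2 * deriv (fun z => f (p.1, z)) (2 * p.2 - 1)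
  have h1 := deriv_comp_mul_left (2 : ℝ) (fun v => f (p.1, v - 1)) p.2
  have h2 := deriv_comp_sub_const (fun z => f (p.1, z)) (1 : ℝ) (2 * p.2)
  rw [h1, h2, smul_eq_mul]

theorem hi_La_dt_iter (f : Fn) (i : ℕ) : e2Pdt^[i] (hiLa f) = hiLa (dT^[i] f) := by
  induction i with
  | zero => rfl
  | succ i ih => rw [Function.iterate_succ_apply', Function.iterate_succ_apply', ih, hi_La_dt]

theorem hi_La_dx_iter (f : Fn) (j : ℕ) : e2Pdx^[j] (hiLa f) = fun p => 2 ^ j * hiLa (dY^[j] f) p := by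
  induction j with
  | zero =>
    funext p
    simp
  | succ j ih =>
    rw [Function.iterate_succ_apply', Function.iterate_succ_apply', ih]
    funext p
    show deriv (fun y => 2 ^ j * hiLa (dY^[j] f) (p.1, y)) p.2 = 2 ^ (j + 1) * hiLa (dY (dY^[j] f)) p
    rw [deriv_const_mul_field]
    have h1 : deriv (fun y => hiLa (dY^[j] f) (p.1, y)) p.2 = 2 * hiLa (dY (dY^[j] f)) p :=
      congrFun (hi_La_dx (dY^[j] f)) p
    rw [h1]
    ring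

/-- the derivatives after the affine change. -/
theorem hi_La_pd (f : Fn) (i j : ℕ) : e2Pd i j (hiLa f) = fun p => 2 ^ j * hiLa (dY^[j] (dT^[i] f)) p := by
  unfold e2Pd
  rw [hi_La_dt_iter, hi_La_dx_iter]

theorem hi_La_sm (hf : Sm f) : E2Sm 0 (hiLa f) := by
  have hm : ContDiff ℝ ∞ (fun p : ℝ × ℝ => ((p.1, 2 * p.2 - 1) : ℝ × ℝ)) :=
    contDiff_fst.prodMk ((contDiff_const.mul contDiff_snd).sub contDiff_const)
  exact ContDiffOn.comp hf hm.contDiffOn (fun p hp => ⟨hp.1, mem_univ _⟩)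

theorem hi_Lb_sm (hγ : E2Sm 0 γ) : Sm (hiLb γ) := by
  have hm : ContDiff ℝ ∞ (fun p : ℝ × ℝ => ((p.1, (p.2 + 1) / 2) : ℝ × ℝ)) :=
    contDiff_fst.prodMk ((contDiff_snd.add contDiff_const).div_const 2)
  exact ContDiffOn.comp hγ hm.contDiffOn (fun p hp => ⟨hp.1, mem_univ _⟩)

/-- all derivatives vanish for `t ≤ ts`. -/
theorem hi_L_pd_van (hf : Sm f) (hts : ts < 0) (h : HiVan ts f) (i j : ℕ) : HiVan ts (dY^[j] (dT^[i] f)) := by
  induction j with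
  | zero => exact hi_dT_iter_van hf hts h i
  | succ j ih =>
    rw [Function.iterate_succ_apply']
    exact hi_dY_van ((hf.dT_iter i).dY_iter j) hts ih

/-- **The limit** on `[-1,1]`. -/
theorem hi_L_W_exists {w : ℕ → Fn} (hsm : ∀ k, Sm (w k)) (hts : ts < 0) (hv : ∀ k, HiVan ts (w k))
    (hub : ∀ s₂ : ℝ, ts ≤ s₂ → s₂ < 0 → ∀ I r : ℕ, HiW hw0 ts s₂ I r w)
    (hc : ∀ s₂ : ℝ, ts ≤ s₂ → s₂ < 0 → HiLC ts s₂ w) :
    ∃ W : Fn, Sm W ∧ ∀ s₁ s₂ : ℝ, ts < s₁ → s₂ < 0 → HiLO s₁ s₂ (fun k p => w k p - W p) := by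
  have hmem : ∀ x ∈ Icc (0 : ℝ) 1, 2 * x - 1 ∈ Icc (-1 : ℝ) 1 := fun x hx =>
    ⟨by linarith [hx.1], by linarith [hx.2]⟩
  have hsm' : ∀ k, E2Sm 0 (hiLa (w k)) := fun k => hi_La_sm (hsm k)
  have hv' : ∀ k, ∀ t ≤ ts, ∀ x ∈ Icc (0 : ℝ) 1, hiLa (w k) (t, x) = 0 := fun k t ht x hx =>
    hv k t ht _ (hmem x hx)
  have hub' : ∀ s₂ < 0, ∀ I, E2UB (ts - 1) s₂ I (fun k => hiLa (w k)) := by
    intro s₂ hs₂ I i _ j
    obtain ⟨C, hC⟩ := hub (max s₂ ts) (le_max_right _ _) (max_lt hs₂ hts) i j i le_rfl j le_rfl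
    refine ⟨2 ^ j * |C|, fun n t ht x hx => ?_⟩
    rw [hi_La_pd]
    show |2 ^ j * (dY^[j] (dT^[i] (w n))) (t, 2 * x - 1)| ≤ 2 ^ j * |C|
    rw [abs_mul, abs_of_pos (by positivity : (0 : ℝ) < 2 ^ j)]
    apply mul_le_mul_of_nonneg_left _ (by positivity)
    rcases le_total t ts with h | h
    · rw [hi_L_pd_van (hsm n) hts (hv n) i j t h _ (hmem x hx), abs_zero]
      exact abs_nonneg _
    · have := hC n t ⟨h, ht.2.trans (le_max_left _ _)⟩ _ (hmem x hx)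
      unfold hw0 at this
      rw [one_mul] at this
      exact this.trans (le_abs_self C)
  have hc' : ∀ s₂ < 0, E2UC (ts - 1) s₂ (fun k => hiLa (w k)) := by
    intro s₂ hs₂ e he
    obtain ⟨N₀, hN⟩ := hc (max s₂ ts) (le_max_right _ _) (max_lt hs₂ hts) e he
    refine ⟨N₀, fun n hn m hm t ht x hx => ?_⟩
    show |hiLa (w m) (t, x) - hiLa (w n) (t, x)| ≤ e
    rcases le_total t ts with h | h
    · rw [hv' m t h x hx, hv' n t h x hx, sub_zero, abs_zero]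
      exact he.le
    · exact hN n hn m hm t ⟨h, ht.2.trans (le_max_left _ _)⟩ _ (hmem x hx)
  obtain ⟨γ, hγ, hconv⟩ := hi_Le_exists hsm' hts hv' hub' hc'
  have hW : Sm (hiLb γ) := hi_Lb_sm hγ
  refine ⟨hiLb γ, hW, ?_⟩
  intro s₁ s₂ h1 h2 i j e he
  obtain ⟨N₀, hN⟩ := hconv s₁ s₂ h1 h2 i j e he
  refine ⟨N₀, fun n hn t ht y hy => ?_⟩
  have hx : (y + 1) / 2 ∈ Icc (0 : ℝ) 1 := ⟨by linarith [hy.1], by linarith [hy.2]⟩
  have hxy : 2 * ((y + 1) / 2) - 1 = y := by ring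
  have h3 := hN n hn t ht _ hx
  have h4 : e2Pd i j γ = fun p => 2 ^ j * hiLa (dY^[j] (dT^[i] (hiLb γ))) p := by
    rw [← hi_La_pd, hi_La_Lb]
  rw [hi_La_pd, h4] at h3
  have h5 : |2 ^ j * (dY^[j] (dT^[i] (w n))) (t, 2 * ((y + 1) / 2) - 1)
      - 2 ^ j * (dY^[j] (dT^[i] (hiLb γ))) (t, 2 * ((y + 1) / 2) - 1)| ≤ e := h3
  rw [hxy, ← mul_sub, abs_mul, abs_of_pos (by positivity : (0 : ℝ) < 2 ^ j)] at h5
  have h6 : dY^[j] (dT^[i] (fun p => w n p - hiLb γ p)) (t, y)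
      = dY^[j] (dT^[i] (w n)) (t, y) - dY^[j] (dT^[i] (hiLb γ)) (t, y) :=
    e2Pd_sub (T := 0) (hsm n) hW i j t (ht.2.trans_lt h2) y
  rw [h6]
  have h7 : (1 : ℝ) ≤ 2 ^ j := one_le_pow₀ (by norm_num)
  have h8 := abs_nonneg (dY^[j] (dT^[i] (w n)) (t, y) - dY^[j] (dT^[i] (hiLb γ)) (t, y))
  nlinarith

end Claimed.Agent.R324.Core
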