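/-
Row 324, module HI, part E, file Ty: the three TYPES of terms of the nonlinearity (`G : HGf` generic, `HGSm G`), in u-form:
   type 0  `hcmp G u`,      type 1  `hty1 = G(p;u) v_i`,      type 2  `hty2 = G(p;u) X π_c π_c'`        (`u = uT U`, `v = hvT U`, `π = hpp 1 U`)
and their linearisations   `hcmpL G u (uT V)`,  `hly1`,  `hly2`   at `U` in the direction `V` (jets of the direction: `hpp 0 V`).
This file: smoothness, the chain rule in `t` (b), the derivative in `h` of `ty (U + h V)` (d).   All identities for `t < 0` and all real `y`.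
Tools: HI/Gen.lean (`hi_dT_hcmp`, `hi_G_hasDerivAt`, `sm_hcmp`, `sm_hcmpL`), HI/Ops.lean (`hi_dT_uT`, `hi_dT_pp`, `hi_uT_tAdd`, `hi_hvT_tAdd`, `hi_pp_tAdd`), HI/LtT.lean (`hi_dT_hvT`), Core/PR/Sm.lean (`dT_mul`, `dT_y_mul`).
-/
import Claimed.Agent.R324.Core.HI.Gen
import Claimed.Agent.R324.Core.HI.LtT

set_option autoImplicit false

namespace Claimed.Agent.R324.Core

open Set Filter Topology MeasureTheory
open scoped ContDiff

variable {q : ℝ} {g : Bg} {G : HGf} {U V : Tri} {t : ℝ}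

/-! ### smoothness -/

theorem sm_hty1 (hq : 1 < q) (hg : BgSm g) (hG : HGSm G) (hU : SmTri U) (i : Fin 3) : Sm (hty1 q g G U i) :=
  (sm_hcmp hG hU.uT).mul (hU.hvT hq hg i)

theorem sm_hty2 (hG : HGSm G) (hU : SmTri U) (c c' : Fin 5) : Sm (hty2 G U c c') :=
  (sm_hcmp hG hU.uT).mul (sm_Xf.mul ((sm_hpp 1 hU c).mul (sm_hpp 1 hU c')))

theorem sm_hly1 (hq : 1 < q) (hg : BgSm g) (hG : HGSm G) (hU : SmTri U) (hV : SmTri V) (i : Fin 3) :
    Sm (hly1 q g G U V i) :=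
  ((sm_hcmp hG hU.uT).mul (hV.hvT hq hg i)).add ((sm_hcmpL hG hU.uT hV.uT).mul (hU.hvT hq hg i))

theorem sm_hly2 (hG : HGSm G) (hU : SmTri U) (hV : SmTri V) (c c' : Fin 5) : Sm (hly2 G U V c c') :=
  ((sm_hcmp hG hU.uT).mul (sm_Xf.mul (((sm_hpp 1 hU c).mul (sm_hpp 0 hV c')).add
    ((sm_hpp 0 hV c).mul (sm_hpp 1 hU c'))))).add
    ((sm_hcmpL hG hU.uT hV.uT).mul (sm_Xf.mul ((sm_hpp 1 hU c).mul (sm_hpp 1 hU c'))))

/-! ### (b) chain rule in `t` -/

theorem hi_dT_ty0 (hG : HGSm G) (hU : SmTri U) (ht : t < 0) (y : ℝ) :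
    dT (hcmp G (uT U)) (t, y) = hcmpL G (uT U) (uT (dT3 U)) (t, y) + hcmp (hgDt G) (uT U) (t, y) := by
  rw [hi_dT_hcmp hG hU.uT ht y, add_comm]
  congr 1
  unfold hcmpL
  refine Finset.sum_congr rfl (fun b _ => ?_)
  have h : dT3 (uT U) b (t, y) = uT (dT3 U) b (t, y) := hi_dT_uT hU b ht y
  rw [h]

theorem hi_dT_ty1 (hq : 1 < q) (hg : BgSm g) (hG : HGSm G) (hU : SmTri U) (i : Fin 3) (ht : t < 0) (y : ℝ) :
    dT (hty1 q g G U i) (t, y) = hly1 q g G U (dT3 U) i (t, y) + hty1 q g (hgDt G) U i (t, y)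
      + hcmp G (uT U) (t, y) * uT (hLtT q g U) i (t, y) := by
  have h : dT (hty1 q g G U i) (t, y) = dT (hcmp G (uT U)) (t, y) * hvT q g U i (t, y)
      + hcmp G (uT U) (t, y) * dT (hvT q g U i) (t, y) :=
    dT_mul (sm_hcmp hG hU.uT) (hU.hvT hq hg i) ht y
  rw [h, hi_dT_ty0 hG hU ht y, hi_dT_hvT hq hg hU i ht y]
  unfold hly1 hty1
  ring

theorem hi_dT_ty2 (hG : HGSm G) (hU : SmTri U) (c c' : Fin 5) (ht : t < 0) (y : ℝ) :
    dT (hty2 G U c c') (t, y) = hly2 G U (dT3 U) c c' (t, y) + hty2 (hgDt G) U c c' (t, y) := by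
  have h : dT (hty2 G U c c') (t, y)
      = dT (hcmp G (uT U)) (t, y) * (Xf y * (hpp 1 U c (t, y) * hpp 1 U c' (t, y)))
      + hcmp G (uT U) (t, y) * dT (fun p => Xf p.2 * (hpp 1 U c p * hpp 1 U c' p)) (t, y) :=
    dT_mul (sm_hcmp hG hU.uT) (sm_Xf.mul ((sm_hpp 1 hU c).mul (sm_hpp 1 hU c'))) ht y
  rw [h, hi_dT_ty0 hG hU ht y, dT_y_mul Xf ((sm_hpp 1 hU c).mul (sm_hpp 1 hU c')) ht y,
    dT_mul (sm_hpp 1 hU c) (sm_hpp 1 hU c') ht y, hi_dT_pp 1 hU c ht y, hi_dT_pp 1 hU c' ht y]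
  unfold hly2 hty2
  ring

/-! ### (d) derivative in `h` -/

theorem hi_ty0_hasDerivAt (hG : HGSm G) (U V : Tri) (ht : t < 0) (y : ℝ) :
    HasDerivAt (fun h : ℝ => hcmp G (uT (tAdd U h V)) (t, y)) (hcmpL G (uT U) (uT V) (t, y)) 0 := by
  have h := hi_G_hasDerivAt hG ht y (fun b => uT U b (t, y)) (fun b => uT V b (t, y))
  have e : (fun h : ℝ => hcmp G (uT (tAdd U h V)) (t, y))
      = fun h : ℝ => G (t, y) (fun b => uT U b (t, y) + h * uT V b (t, y)) := by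
    funext h
    unfold hcmp
    simp only [hi_uT_tAdd]
  rw [e]
  exact h

theorem hi_ty1_hasDerivAt (hG : HGSm G) (hU : SmTri U) (hV : SmTri V) (i : Fin 3) (ht : t < 0) (y : ℝ) :
    HasDerivAt (fun h : ℝ => hty1 q g G (tAdd U h V) i (t, y)) (hly1 q g G U V i (t, y)) 0 := by
  have h0 := hi_ty0_hasDerivAt hG U V ht y
  have h1 : HasDerivAt (fun h : ℝ => hvT q g U i (t, y) + h * hvT q g V i (t, y))
      (hvT q g V i (t, y)) 0 := by
    simpa using ((hasDerivAt_id (0 : ℝ)).mul_const (hvT q g V i (t, y))).const_add (hvT q g U i (t, y))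
  have h2 := h0.fun_mul h1
  have e : (fun h : ℝ => hty1 q g G (tAdd U h V) i (t, y))
      = fun h : ℝ => hcmp G (uT (tAdd U h V)) (t, y)
          * (hvT q g U i (t, y) + h * hvT q g V i (t, y)) := by
    funext h
    unfold hty1
    rw [hi_hvT_tAdd hU hV h i ht y]
  have e0 : hcmp G (uT (tAdd U 0 V)) (t, y) = hcmp G (uT U) (t, y) := by
    unfold hcmp
    simp only [hi_uT_tAdd, zero_mul, add_zero]
  have hv : hly1 q g G U V i (t, y)
      = hcmpL G (uT U) (uT V) (t, y) * (hvT q g U i (t, y) + 0 * hvT q g V i (t, y))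
        + hcmp G (uT (tAdd U 0 V)) (t, y) * hvT q g V i (t, y) := by
    rw [e0]
    unfold hly1
    ring
  rw [e, hv]
  exact h2

theorem hi_ty2_hasDerivAt (hG : HGSm G) (hU : SmTri U) (hV : SmTri V) (c c' : Fin 5) (ht : t < 0) (y : ℝ) :
    HasDerivAt (fun h : ℝ => hty2 G (tAdd U h V) c c' (t, y)) (hly2 G U V c c' (t, y)) 0 := by
  have h0 := hi_ty0_hasDerivAt hG U V ht y
  have hc : ∀ d : Fin 5, HasDerivAt (fun h : ℝ => hpp 1 U d (t, y) + h * hpp 0 V d (t, y))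
      (hpp 0 V d (t, y)) 0 := by
    intro d
    simpa using ((hasDerivAt_id (0 : ℝ)).mul_const (hpp 0 V d (t, y))).const_add (hpp 1 U d (t, y))
  have h2 := h0.fun_mul (((hc c).fun_mul (hc c')).const_mul (Xf y))
  have e : (fun h : ℝ => hty2 G (tAdd U h V) c c' (t, y))
      = fun h : ℝ => hcmp G (uT (tAdd U h V)) (t, y)
          * (Xf y * ((hpp 1 U c (t, y) + h * hpp 0 V c (t, y))
            * (hpp 1 U c' (t, y) + h * hpp 0 V c' (t, y)))) := by
    funext h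
    unfold hty2
    rw [hi_pp_tAdd 1 hU hV h c ht y, hi_pp_tAdd 1 hU hV h c' ht y]
  have e0 : hcmp G (uT (tAdd U 0 V)) (t, y) = hcmp G (uT U) (t, y) := by
    unfold hcmp
    simp only [hi_uT_tAdd, zero_mul, add_zero]
  have hv : hly2 G U V c c' (t, y)
      = hcmpL G (uT U) (uT V) (t, y)
          * (Xf y * ((hpp 1 U c (t, y) + 0 * hpp 0 V c (t, y)) * (hpp 1 U c' (t, y) + 0 * hpp 0 V c' (t, y))))
        + hcmp G (uT (tAdd U 0 V)) (t, y)
          * (Xf y * (hpp 0 V c (t, y) * (hpp 1 U c' (t, y) + 0 * hpp 0 V c' (t, y))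
            + (hpp 1 U c (t, y) + 0 * hpp 0 V c (t, y)) * hpp 0 V c' (t, y))) := by
    rw [e0]
    unfold hly2
    ring
  rw [e, hv]
  exact h2

end Claimed.Agent.R324.Core
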