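/-
Row 324, module HI, part E, file TyA: the types of terms and their linearisations in the classes.      `K : HiK ..`;  `U, V : ℕ → Tri` families of smooth triples.
 (a) `HiX n U` (and `HiX n V`)  ⇒  types and linearisations are in `HiA n` (type 0: `HiB n`);
 (c) COMMUTATORS:  `HiX (n+1) U`, `HiX n V`  ⇒  `∂_t (ly(U)[V]) - ly(U)[∂_t V] ∈ HiA n`.
Explicit formulas of the commutators (product rule; `u = uT U`, `uV = uT V`, `π = hpp 1 U`, `πV = hpp 0 V`, `∂_t π = hpp 0 (dT3 U)`, `∂_t uV = uT (dT3 V)`, `∂_t πV = hpp 0 (dT3 V)`, `∂_t v(V) = v(dT3 V) + uT (L̃_T V)`):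
  type 0:  `Σ_b ∂_t(G_{ξb}(u)) uV_b`;
  type 1:  `∂_t(G(u)) v_i(V) + G(u) uT(L̃_T V)_i + Σ_b [∂_t(G_{ξb}(u)) uV_b v_i(U) + G_{ξb}(u) uV_b ∂_t(v_i(U))]`;
  type 2:  `∂_t(G(u)) X(π_c πV_c' + πV_c π_c') + G(u) X(∂_tπ_c πV_c' + πV_c ∂_tπ_c') + Σ_b [∂_t(G_{ξb}(u)) uV_b X π_c π_c' + G_{ξb}(u) uV_b X(∂_tπ_c π_c' + π_c ∂_tπ_c')]`.
Every factor is in a class:  `G(u) ∈ HiB (n+1)` (`HiX.cmp_B`), so `∂_t(G(u)) ∈ HiB n` (`HiB.dT`);  `uV ∈ HiB n`;  `v(V), uT(L̃_T V) ∈ HiA n`;  `v(U) ∈ HiA (n+1)`;  `π, ∂_tπ, πV ∈ HiP n` (`HiX.pp_P`, `HiX.dT3`), `HiP.XPP`.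
Then `HiA.mulB`, `HiA.add`, `hiA_sum`, `HiA.congr`.
-/
import Claimed.Agent.R324.Core.HI.Ty
import Claimed.Agent.R324.Core.HI.ClsX

set_option autoImplicit false

namespace Claimed.Agent.R324.Core

open Set Filter Topology MeasureTheory
open scoped ContDiff

variable {q Γ : ℝ} {g : Bg} {κ : HiC} {s₁ s₂ : ℝ} {n : ℕ} {U V : ℕ → Tri} {G : HGf}

/-! ### (a) membership -/

theorem hi_ty1_A (K : HiK q g Γ κ s₁ s₂) (hU : ∀ k, SmTri (U k)) (h : HiX q g Γ s₁ s₂ n U) (hG : HGSm G)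
    (i : Fin 3) : HiA s₁ s₂ n (fun k => hty1 q g G (U k) i) :=
  HiA.mulB K.h₁₂ K.h₂ (fun k => sm_hcmp hG (hU k).uT) (fun k => (hU k).hvT K.hq K.hg i)
    (h.cmp_B K hU hG) (h.v_A K hU i)

theorem hi_ty2_A (K : HiK q g Γ κ s₁ s₂) (hU : ∀ k, SmTri (U k)) (h : HiX q g Γ s₁ s₂ n U) (hG : HGSm G)
    (c c' : Fin 5) : HiA s₁ s₂ n (fun k => hty2 G (U k) c c') :=
  HiA.mulB K.h₁₂ K.h₂ (fun k => sm_hcmp hG (hU k).uT)
    (fun k => sm_Xf.mul ((sm_hpp 1 (hU k) c).mul (sm_hpp 1 (hU k) c')))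
    (h.cmp_B K hU hG)
    (HiP.XPP K.h₁₂ K.h₂ (fun k => sm_hpp 1 (hU k) c) (fun k => sm_hpp 1 (hU k) c')
      (h.pp_P K hU 1 c) (h.pp_P K hU 1 c'))

theorem hi_ly0_B (K : HiK q g Γ κ s₁ s₂) (hU : ∀ k, SmTri (U k)) (hV : ∀ k, SmTri (V k))
    (h : HiX q g Γ s₁ s₂ n U) (h' : HiX q g Γ s₁ s₂ n V) (hG : HGSm G) :
    HiB s₁ s₂ n (fun k => hcmpL G (uT (U k)) (uT (V k))) :=
  hiB_cmpL K.h₂ (fun k => (hU k).uT) (fun k => (hV k).uT) (fun b => h.u_B K hU b) (fun b => h'.u_B K hV b) hG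

theorem hi_ly1_A (K : HiK q g Γ κ s₁ s₂) (hU : ∀ k, SmTri (U k)) (hV : ∀ k, SmTri (V k))
    (h : HiX q g Γ s₁ s₂ n U) (h' : HiX q g Γ s₁ s₂ n V) (hG : HGSm G) (i : Fin 3) :
    HiA s₁ s₂ n (fun k => hly1 q g G (U k) (V k) i) :=
  HiA.add K.h₁₂ K.h₂
    (fun k => (sm_hcmp hG (hU k).uT).mul ((hV k).hvT K.hq K.hg i))
    (fun k => (sm_hcmpL hG (hU k).uT (hV k).uT).mul ((hU k).hvT K.hq K.hg i))
    (HiA.mulB K.h₁₂ K.h₂ (fun k => sm_hcmp hG (hU k).uT) (fun k => (hV k).hvT K.hq K.hg i)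
      (h.cmp_B K hU hG) (h'.v_A K hV i))
    (HiA.mulB K.h₁₂ K.h₂ (fun k => sm_hcmpL hG (hU k).uT (hV k).uT) (fun k => (hU k).hvT K.hq K.hg i)
      (hi_ly0_B K hU hV h h' hG) (h.v_A K hU i))

theorem hi_ly2_A (K : HiK q g Γ κ s₁ s₂) (hU : ∀ k, SmTri (U k)) (hV : ∀ k, SmTri (V k))
    (h : HiX q g Γ s₁ s₂ n U) (h' : HiX q g Γ s₁ s₂ n V) (hG : HGSm G) (c c' : Fin 5) :
    HiA s₁ s₂ n (fun k => hly2 G (U k) (V k) c c') := by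
  have sU : ∀ (c : Fin 5) k, Sm (hpp 1 (U k) c) := fun c k => sm_hpp 1 (hU k) c
  have sV : ∀ (c : Fin 5) k, Sm (hpp 0 (V k) c) := fun c k => sm_hpp 0 (hV k) c
  have pU : ∀ c : Fin 5, HiP s₁ s₂ n (fun k => hpp 1 (U k) c) := fun c => h.pp_P K hU 1 c
  have pV : ∀ c : Fin 5, HiP s₁ s₂ n (fun k => hpp 0 (V k) c) := fun c => h'.pp_P K hV 0 c
  have a1 := HiP.XPP K.h₁₂ K.h₂ (sU c) (sV c') (pU c) (pV c')
  have a2 := HiP.XPP K.h₁₂ K.h₂ (sV c) (sU c') (pV c) (pU c')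
  have a3 := HiP.XPP K.h₁₂ K.h₂ (sU c) (sU c') (pU c) (pU c')
  have s1 : ∀ k, Sm (fun p : ℝ × ℝ => Xf p.2 * (hpp 1 (U k) c p * hpp 0 (V k) c' p)) :=
    fun k => sm_Xf.mul ((sU c k).mul (sV c' k))
  have s2 : ∀ k, Sm (fun p : ℝ × ℝ => Xf p.2 * (hpp 0 (V k) c p * hpp 1 (U k) c' p)) :=
    fun k => sm_Xf.mul ((sV c k).mul (sU c' k))
  have s3 : ∀ k, Sm (fun p : ℝ × ℝ => Xf p.2 * (hpp 1 (U k) c p * hpp 1 (U k) c' p)) :=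
    fun k => sm_Xf.mul ((sU c k).mul (sU c' k))
  have s12 : ∀ k, Sm (fun p : ℝ × ℝ => Xf p.2 * (hpp 1 (U k) c p * hpp 0 (V k) c' p
      + hpp 0 (V k) c p * hpp 1 (U k) c' p)) :=
    fun k => sm_Xf.mul (((sU c k).mul (sV c' k)).add ((sV c k).mul (sU c' k)))
  have a12 : HiA s₁ s₂ n (fun k p => Xf p.2 * (hpp 1 (U k) c p * hpp 0 (V k) c' p
      + hpp 0 (V k) c p * hpp 1 (U k) c' p)) :=
    HiA.congr K.h₁₂ K.h₂ (fun k => (s1 k).add (s2 k)) s12 (HiA.add K.h₁₂ K.h₂ s1 s2 a1 a2)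
      (fun k t _ y _ => by ring)
  exact HiA.add K.h₁₂ K.h₂
    (fun k => (sm_hcmp hG (hU k).uT).mul (s12 k))
    (fun k => (sm_hcmpL hG (hU k).uT (hV k).uT).mul (s3 k))
    (HiA.mulB K.h₁₂ K.h₂ (fun k => sm_hcmp hG (hU k).uT) s12 (h.cmp_B K hU hG) a12)
    (HiA.mulB K.h₁₂ K.h₂ (fun k => sm_hcmpL hG (hU k).uT (hV k).uT) s3 (hi_ly0_B K hU hV h h' hG) a3)

/-! ### (c) commutators -/

/-- product rule for `hcmpL`. -/
theorem hi222_dT_hcmpL {u u' : Tri} (hG : HGSm G) (hu : SmTri u) (hu' : SmTri u') {t : ℝ} (ht : t < 0) (y : ℝ) :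
    dT (hcmpL G u u') (t, y)
      = ∑ b, (dT (hcmp (hgDx b G) u) (t, y) * u' b (t, y) + hcmp (hgDx b G) u (t, y) * dT (u' b) (t, y)) := by
  have h : ∀ b ∈ (Finset.univ : Finset (Fin 3)), HasDerivAt (fun s => hcmp (hgDx b G) u (s, y) * u' b (s, y))
      (dT (hcmp (hgDx b G) u) (t, y) * u' b (t, y) + hcmp (hgDx b G) u (t, y) * dT (u' b) (t, y)) t :=
    fun b _ => ((sm_hcmp (hG.dx b) hu).hasDerivAt_t ht y).mul ((hu' b).hasDerivAt_t ht y)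
  exact (HasDerivAt.fun_sum h).deriv

/-- the commutator of type 0, pointwise. -/
theorem hi222_ly0_comm_eq {W Z : Tri} (hG : HGSm G) (hW : SmTri W) (hZ : SmTri Z) {t : ℝ} (ht : t < 0) (y : ℝ) :
    dT (hcmpL G (uT W) (uT Z)) (t, y) - hcmpL G (uT W) (uT (dT3 Z)) (t, y)
      = ∑ b, dT (hcmp (hgDx b G) (uT W)) (t, y) * uT Z b (t, y) := by
  rw [hi222_dT_hcmpL hG hW.uT hZ.uT ht y]
  unfold hcmpL
  rw [← Finset.sum_sub_distrib]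
  refine Finset.sum_congr rfl fun b _ => ?_
  rw [hi_dT_uT hZ b ht y]
  ring

/-- the commutator of type 1, pointwise. -/
theorem hi222_ly1_comm_eq {W Z : Tri} (hq : 1 < q) (hg : BgSm g) (hG : HGSm G) (hW : SmTri W) (hZ : SmTri Z)
    (i : Fin 3) {t : ℝ} (ht : t < 0) (y : ℝ) :
    dT (hly1 q g G W Z i) (t, y) - hly1 q g G W (dT3 Z) i (t, y)
      = dT (hcmp G (uT W)) (t, y) * hvT q g Z i (t, y) + hcmp G (uT W) (t, y) * uT (hLtT q g Z) i (t, y)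
        + (dT (hcmpL G (uT W) (uT Z)) (t, y) - hcmpL G (uT W) (uT (dT3 Z)) (t, y)) * hvT q g W i (t, y)
        + hcmpL G (uT W) (uT Z) (t, y) * dT (hvT q g W i) (t, y) := by
  have e : dT (hly1 q g G W Z i) (t, y)
      = (dT (hcmp G (uT W)) (t, y) * hvT q g Z i (t, y) + hcmp G (uT W) (t, y) * dT (hvT q g Z i) (t, y))
        + (dT (hcmpL G (uT W) (uT Z)) (t, y) * hvT q g W i (t, y)
          + hcmpL G (uT W) (uT Z) (t, y) * dT (hvT q g W i) (t, y)) := by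
    unfold hly1
    rw [dT_add ((sm_hcmp hG hW.uT).mul (hZ.hvT hq hg i)) ((sm_hcmpL hG hW.uT hZ.uT).mul (hW.hvT hq hg i)) ht y,
      dT_mul (sm_hcmp hG hW.uT) (hZ.hvT hq hg i) ht y, dT_mul (sm_hcmpL hG hW.uT hZ.uT) (hW.hvT hq hg i) ht y]
  rw [e, hi_dT_hvT hq hg hZ i ht y]
  unfold hly1
  ring

theorem hi_ly0_comm_B (K : HiK q g Γ κ s₁ s₂) (hU : ∀ k, SmTri (U k)) (hV : ∀ k, SmTri (V k))
    (h : HiX q g Γ s₁ s₂ (n + 1) U) (h' : HiX q g Γ s₁ s₂ n V) (hG : HGSm G) :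
    HiB s₁ s₂ n (fun k p => dT (hcmpL G (uT (U k)) (uT (V k))) p - hcmpL G (uT (U k)) (uT (dT3 (V k))) p) := by
  have sA : ∀ (b : Fin 3) (k : ℕ), Sm (hcmp (hgDx b G) (uT (U k))) := fun b k => sm_hcmp (hG.dx b) (hU k).uT
  have hR : HiB s₁ s₂ n (fun k p => ∑ b, dT (hcmp (hgDx b G) (uT (U k))) p * uT (V k) b p) :=
    hiB_sum K.h₂ Finset.univ (𝓗 := fun b k p => dT (hcmp (hgDx b G) (uT (U k))) p * uT (V k) b p)
      (fun b _ k => (sA b k).dT.mul ((hV k).uT b))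
      (fun b _ => HiB.mul K.h₂ (fun k => (sA b k).dT) (fun k => (hV k).uT b)
        (HiB.dT K.h₂ (sA b) (h.cmp_B K hU (hG.dx b))) (h'.u_B K hV b))
  refine HiB.congr K.h₂
    (fun k => sm_sum Finset.univ (F := fun b p => dT (hcmp (hgDx b G) (uT (U k))) p * uT (V k) b p)
      (fun b _ => (sA b k).dT.mul ((hV k).uT b)))
    (fun k => (sm_hcmpL hG (hU k).uT (hV k).uT).dT.sub (sm_hcmpL hG (hU k).uT (hV k).dT3.uT)) hR ?_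
  intro k t ht y _
  exact hi222_ly0_comm_eq hG (hU k) (hV k) ht y

theorem hi_ly1_comm_A (K : HiK q g Γ κ s₁ s₂) (hU : ∀ k, SmTri (U k)) (hV : ∀ k, SmTri (V k))
    (h : HiX q g Γ s₁ s₂ (n + 1) U) (h' : HiX q g Γ s₁ s₂ n V) (hG : HGSm G) (i : Fin 3) :
    HiA s₁ s₂ n (fun k p => dT (hly1 q g G (U k) (V k) i) p - hly1 q g G (U k) (dT3 (V k)) i p) := by
  have h12 := K.h₁₂
  have h2 := K.h₂
  have hn : HiX q g Γ s₁ s₂ n U := h.mono (Nat.le_succ n)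
  have sG : ∀ k, Sm (hcmp G (uT (U k))) := fun k => sm_hcmp hG (hU k).uT
  have sL : ∀ k, Sm (hcmpL G (uT (U k)) (uT (V k))) := fun k => sm_hcmpL hG (hU k).uT (hV k).uT
  have sC : ∀ k, Sm (fun p => dT (hcmpL G (uT (U k)) (uT (V k))) p - hcmpL G (uT (U k)) (uT (dT3 (V k))) p) :=
    fun k => (sL k).dT.sub (sm_hcmpL hG (hU k).uT (hV k).dT3.uT)
  have svU : ∀ k, Sm (hvT q g (U k) i) := fun k => (hU k).hvT K.hq K.hg i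
  have svV : ∀ k, Sm (hvT q g (V k) i) := fun k => (hV k).hvT K.hq K.hg i
  have sLt : ∀ k, Sm (uT (hLtT q g (V k)) i) := fun k => ((hV k).hLtT K.hq K.hg).uT i
  have t1 : HiA s₁ s₂ n (fun k p => dT (hcmp G (uT (U k))) p * hvT q g (V k) i p) :=
    HiA.mulB h12 h2 (fun k => (sG k).dT) svV (HiB.dT h2 sG (h.cmp_B K hU hG)) (h'.v_A K hV i)
  have t2 : HiA s₁ s₂ n (fun k p => hcmp G (uT (U k)) p * uT (hLtT q g (V k)) i p) :=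
    HiA.mulB h12 h2 sG sLt (hn.cmp_B K hU hG) (h'.LtT_A K hV i)
  have t3 : HiA s₁ s₂ n (fun k p => (dT (hcmpL G (uT (U k)) (uT (V k))) p
      - hcmpL G (uT (U k)) (uT (dT3 (V k))) p) * hvT q g (U k) i p) :=
    HiA.mulB (μ := fun k p => dT (hcmpL G (uT (U k)) (uT (V k))) p - hcmpL G (uT (U k)) (uT (dT3 (V k))) p)
      h12 h2 sC svU (hi_ly0_comm_B K hU hV h h' hG) (hn.v_A K hU i)
  have t4 : HiA s₁ s₂ n (fun k p => hcmpL G (uT (U k)) (uT (V k)) p * dT (hvT q g (U k) i) p) :=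
    HiA.mulB h12 h2 sL (fun k => (svU k).dT) (hi_ly0_B K hU hV hn h' hG) (h.v_A K hU i).dT
  have s1 : ∀ k, Sm (fun p => dT (hcmp G (uT (U k))) p * hvT q g (V k) i p) := fun k => (sG k).dT.mul (svV k)
  have s2 : ∀ k, Sm (fun p => hcmp G (uT (U k)) p * uT (hLtT q g (V k)) i p) := fun k => (sG k).mul (sLt k)
  have s3 : ∀ k, Sm (fun p => (dT (hcmpL G (uT (U k)) (uT (V k))) p
      - hcmpL G (uT (U k)) (uT (dT3 (V k))) p) * hvT q g (U k) i p) := fun k => (sC k).mul (svU k)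
  have s4 : ∀ k, Sm (fun p => hcmpL G (uT (U k)) (uT (V k)) p * dT (hvT q g (U k) i) p) :=
    fun k => (sL k).mul (svU k).dT
  have t12 := HiA.add h12 h2 s1 s2 t1 t2
  have t123 := HiA.add h12 h2 (fun k => (s1 k).add (s2 k)) s3 t12 t3
  have t1234 := HiA.add h12 h2 (fun k => ((s1 k).add (s2 k)).add (s3 k)) s4 t123 t4
  refine HiA.congr h12 h2 (fun k => (((s1 k).add (s2 k)).add (s3 k)).add (s4 k))
    (fun k => (sm_hly1 K.hq K.hg hG (hU k) (hV k) i).dT.sub (sm_hly1 K.hq K.hg hG (hU k) (hV k).dT3 i)) t1234 ?_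
  intro k t ht y _
  exact hi222_ly1_comm_eq K.hq K.hg hG (hU k) (hV k) i ht y

/-- (aux) pointwise formula of the type 2 commutator. -/
theorem hi_ly2_comm_eq {U V : Tri} {t : ℝ} (hG : HGSm G) (hU : SmTri U) (hV : SmTri V) (c c' : Fin 5) (ht : t < 0)
    (y : ℝ) :
    dT (hly2 G U V c c') (t, y) - hly2 G U (dT3 V) c c' (t, y)
      = dT (hcmp G (uT U)) (t, y) * (Xf y * (hpp 1 U c (t, y) * hpp 0 V c' (t, y)))
      + dT (hcmp G (uT U)) (t, y) * (Xf y * (hpp 0 V c (t, y) * hpp 1 U c' (t, y)))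
      + hcmp G (uT U) (t, y) * (Xf y * (hpp 0 (dT3 U) c (t, y) * hpp 0 V c' (t, y)))
      + hcmp G (uT U) (t, y) * (Xf y * (hpp 0 V c (t, y) * hpp 0 (dT3 U) c' (t, y)))
      + (dT (hcmpL G (uT U) (uT V)) (t, y) - hcmpL G (uT U) (uT (dT3 V)) (t, y))
          * (Xf y * (hpp 1 U c (t, y) * hpp 1 U c' (t, y)))
      + hcmpL G (uT U) (uT V) (t, y) * (Xf y * (hpp 0 (dT3 U) c (t, y) * hpp 1 U c' (t, y)))
      + hcmpL G (uT U) (uT V) (t, y) * (Xf y * (hpp 1 U c (t, y) * hpp 0 (dT3 U) c' (t, y))) := by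
  have hA := (sm_hcmp hG hU.uT).hasDerivAt_t ht y
  have hL := (sm_hcmpL hG hU.uT hV.uT).hasDerivAt_t ht y
  have hP := (sm_hpp 1 hU c).hasDerivAt_t ht y
  have hP' := (sm_hpp 1 hU c').hasDerivAt_t ht y
  have hQ := (sm_hpp 0 hV c).hasDerivAt_t ht y
  have hQ' := (sm_hpp 0 hV c').hasDerivAt_t ht y
  rw [hi_dT_pp 1 hU c ht y] at hP
  rw [hi_dT_pp 1 hU c' ht y] at hP'
  rw [hi_dT_pp 0 hV c ht y] at hQ
  rw [hi_dT_pp 0 hV c' ht y] at hQ'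
  have h1 := (hA.mul (((hP.mul hQ').add (hQ.mul hP')).const_mul (Xf y))).add
    (hL.mul ((hP.mul hP').const_mul (Xf y)))
  have e := dT_of_hasDerivAt (f := hly2 G U V c c') h1
  rw [e]
  unfold hly2
  simp only [Pi.mul_apply, Pi.add_apply]
  ring

/-- (aux) `μ ∈ HiB`, `P, P' ∈ HiP`  ⇒  `μ X P P' ∈ HiA` (with smoothness). -/
theorem hi_c2_mulB_XPP {μ P P' : ℕ → Fn} (h₁₂ : s₁ ≤ s₂) (h₂ : s₂ < 0) (hμ : ∀ k, Sm (μ k)) (hP : ∀ k, Sm (P k))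
    (hP' : ∀ k, Sm (P' k)) (h : HiB s₁ s₂ n μ) (hp : HiP s₁ s₂ n P) (hp' : HiP s₁ s₂ n P') :
    (∀ k, Sm (fun p => μ k p * (Xf p.2 * (P k p * P' k p)))) ∧
      HiA s₁ s₂ n (fun k p => μ k p * (Xf p.2 * (P k p * P' k p))) :=
  ⟨fun k => (hμ k).mul (sm_Xf.mul ((hP k).mul (hP' k))),
    HiA.mulB h₁₂ h₂ hμ (fun k => sm_Xf.mul ((hP k).mul (hP' k))) h (HiP.XPP h₁₂ h₂ hP hP' hp hp')⟩

/-- (aux) sums, with smoothness. -/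
theorem hi_c2_smA_add {F F' : ℕ → Fn} (h₁₂ : s₁ ≤ s₂) (h₂ : s₂ < 0) (h : (∀ k, Sm (F k)) ∧ HiA s₁ s₂ n F)
    (h' : (∀ k, Sm (F' k)) ∧ HiA s₁ s₂ n F') :
    (∀ k, Sm (fun p => F k p + F' k p)) ∧ HiA s₁ s₂ n (fun k p => F k p + F' k p) :=
  ⟨fun k => (h.1 k).add (h'.1 k), HiA.add h₁₂ h₂ h.1 h'.1 h.2 h'.2⟩

theorem hi_ly2_comm_A (K : HiK q g Γ κ s₁ s₂) (hU : ∀ k, SmTri (U k)) (hV : ∀ k, SmTri (V k))
    (h : HiX q g Γ s₁ s₂ (n + 1) U) (h' : HiX q g Γ s₁ s₂ n V) (hG : HGSm G) (c c' : Fin 5) :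
    HiA s₁ s₂ n (fun k p => dT (hly2 G (U k) (V k) c c') p - hly2 G (U k) (dT3 (V k)) c c' p) := by
  have h0 : HiX q g Γ s₁ s₂ n U := h.mono (Nat.le_succ n)
  have hdU : ∀ k, SmTri (dT3 (U k)) := fun k => (hU k).dT3
  have hdV : ∀ k, SmTri (dT3 (V k)) := fun k => (hV k).dT3
  -- smoothness of the factors
  have sA : ∀ k, Sm (hcmp G (uT (U k))) := fun k => sm_hcmp hG (hU k).uT
  have sL : ∀ k, Sm (hcmpL G (uT (U k)) (uT (V k))) := fun k => sm_hcmpL hG (hU k).uT (hV k).uT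
  have sL' : ∀ k, Sm (hcmpL G (uT (U k)) (uT (dT3 (V k)))) := fun k => sm_hcmpL hG (hU k).uT (hdV k).uT
  have sP : ∀ c, ∀ k, Sm (hpp 1 (U k) c) := fun c k => sm_hpp 1 (hU k) c
  have sQ : ∀ c, ∀ k, Sm (hpp 0 (V k) c) := fun c k => sm_hpp 0 (hV k) c
  have sR : ∀ c, ∀ k, Sm (hpp 0 (dT3 (U k)) c) := fun c k => sm_hpp 0 (hdU k) c
  -- classes of the factors
  have bA : HiB s₁ s₂ n (fun k => hcmp G (uT (U k))) := h0.cmp_B K hU hG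
  have bdA : HiB s₁ s₂ n (fun k => dT (hcmp G (uT (U k)))) := HiB.dT K.h₂ sA (h.cmp_B K hU hG)
  have bL : HiB s₁ s₂ n (fun k => hcmpL G (uT (U k)) (uT (V k))) := hi_ly0_B K hU hV h0 h' hG
  have bC := hi_ly0_comm_B K hU hV h h' hG
  have pP : ∀ c, HiP s₁ s₂ n (fun k => hpp 1 (U k) c) := fun c => h0.pp_P K hU 1 c
  have pQ : ∀ c, HiP s₁ s₂ n (fun k => hpp 0 (V k) c) := fun c => h'.pp_P K hV 0 c
  have pR : ∀ c, HiP s₁ s₂ n (fun k => hpp 0 (dT3 (U k)) c) := fun c => (HiX.dT3 h).pp_P K hdU 0 c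
  have T1 := hi_c2_mulB_XPP K.h₁₂ K.h₂ (fun k => (sA k).dT) (sP c) (sQ c') bdA (pP c) (pQ c')
  have T2 := hi_c2_mulB_XPP K.h₁₂ K.h₂ (fun k => (sA k).dT) (sQ c) (sP c') bdA (pQ c) (pP c')
  have T3 := hi_c2_mulB_XPP K.h₁₂ K.h₂ sA (sR c) (sQ c') bA (pR c) (pQ c')
  have T4 := hi_c2_mulB_XPP K.h₁₂ K.h₂ sA (sQ c) (sR c') bA (pQ c) (pR c')
  have T5 := hi_c2_mulB_XPP K.h₁₂ K.h₂ (fun k => (sL k).dT.sub (sL' k)) (sP c) (sP c') bC (pP c) (pP c')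
  have T6 := hi_c2_mulB_XPP K.h₁₂ K.h₂ sL (sR c) (sP c') bL (pR c) (pP c')
  have T7 := hi_c2_mulB_XPP K.h₁₂ K.h₂ sL (sP c) (sR c') bL (pP c) (pR c')
  have S := hi_c2_smA_add K.h₁₂ K.h₂ (hi_c2_smA_add K.h₁₂ K.h₂ (hi_c2_smA_add K.h₁₂ K.h₂ (hi_c2_smA_add K.h₁₂ K.h₂
    (hi_c2_smA_add K.h₁₂ K.h₂ (hi_c2_smA_add K.h₁₂ K.h₂ T1 T2) T3) T4) T5) T6) T7
  refine HiA.congr K.h₁₂ K.h₂ S.1 (fun k => (sm_hly2 hG (hU k) (hV k) c c').dT.sub (sm_hly2 hG (hU k) (hdV k) c c'))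
    S.2 (fun k t ht y _ => ?_)
  exact hi_ly2_comm_eq hG (hU k) (hV k) c c' ht y

end Claimed.Agent.R324.Core
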