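/-
Row 324, module HI, part E, file Lin: the structured operator `S.uf` (u-form of `NN`), its linearisation `S.lin`, its explicit time derivative `S.ut`.
   `S.uf U i = hty1 S.M U i + hxu i · hcmp (S.A0 i) u + Σ_{c,c'} hty2 (S.A2 i c c') U c c'`       (`hi_uf_types`),
   `uT (NN U) = S.uf U`  (`hi_uf_eq`),      `hlinN U V = S.lin U V`  (`hi_lin_eq`),      `∂_t (S.uf U) = S.lin U (∂_t U) + S.ut U`  (`hi_dT_uf`),
and the class statements, all by summing the statements of HI/Ty.lean, HI/TyA.lean over the terms (`hiA_sum`, `HiA.add`, `HiA.mulB` with `hiB_const .. (sm_hxu i)`, `hiA_of_B`).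
-/
import Claimed.Agent.R324.Core.HI.TyA

set_option autoImplicit false

namespace Claimed.Agent.R324.Core

open Set Filter Topology MeasureTheory
open scoped ContDiff

noncomputable section

/-- the explicit time derivative of `S.uf`. -/
def HNSt.ut (S : HNSt) (q : ℝ) (g : Bg) (U : Tri) : Tri := fun i p =>
  hty1 q g (hgDt S.M) U i p + hcmp S.M (uT U) p * uT (hLtT q g U) i p + hxu i p * hcmp (hgDt (S.A0 i)) (uT U) p
    + ∑ c, ∑ c', hty2 (hgDt (S.A2 i c c')) U c c' p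

variable {q Γ : ℝ} {g : Bg} {κ : HiC} {S : HNSt} {s₁ s₂ t : ℝ} {n : ℕ}

section single

variable {U V : Tri}

theorem hi_uf_types (S : HNSt) (q : ℝ) (g : Bg) (U : Tri) (i : Fin 3) (p : ℝ × ℝ) :
    S.uf q g U i p = hty1 q g S.M U i p + hxu i p * hcmp (S.A0 i) (uT U) p
      + ∑ c, ∑ c', hty2 (S.A2 i c c') U c c' p := by
  unfold HNSt.uf HNSt.quad hty1 hty2
  rw [Finset.mul_sum]
  congr 1
  refine Finset.sum_congr rfl (fun c _ => ?_)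
  rw [Finset.mul_sum]
  refine Finset.sum_congr rfl (fun c' _ => ?_)
  ring

theorem sm_uf (hq : 1 < q) (hg : BgSm g) (hS : S.IsSm) (hU : SmTri U) (i : Fin 3) : Sm (S.uf q g U i) := by
  have h : Sm (fun p => hty1 q g S.M U i p + hxu i p * hcmp (S.A0 i) (uT U) p
      + ∑ c, ∑ c', hty2 (S.A2 i c c') U c c' p) :=
    ((sm_hty1 hq hg hS.1 hU i).add ((sm_hxu i).mul (sm_hcmp (hS.2.1 i) hU.uT))).add
      (sm_sum Finset.univ (fun c _ => sm_sum Finset.univ (fun c' _ => sm_hty2 (hS.2.2 i c c') hU c c')))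
  exact h.congr (fun t _ y => hi_uf_types S q g U i (t, y))

theorem sm_lin (hq : 1 < q) (hg : BgSm g) (hS : S.IsSm) (hU : SmTri U) (hV : SmTri V) (i : Fin 3) :
    Sm (S.lin q g U V i) :=
  ((sm_hly1 hq hg hS.1 hU hV i).add ((sm_hxu i).mul (sm_hcmpL (hS.2.1 i) hU.uT hV.uT))).add
    (sm_sum Finset.univ (fun c _ => sm_sum Finset.univ (fun c' _ => sm_hly2 (hS.2.2 i c c') hU hV c c')))

theorem sm_ut (hq : 1 < q) (hg : BgSm g) (hS : S.IsSm) (hU : SmTri U) (i : Fin 3) : Sm (S.ut q g U i) :=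
  (((sm_hty1 hq hg hS.1.dt hU i).add ((sm_hcmp hS.1 hU.uT).mul ((hU.hLtT hq hg).uT i))).add
    ((sm_hxu i).mul (sm_hcmp (hS.2.1 i).dt hU.uT))).add
    (sm_sum Finset.univ (fun c _ => sm_sum Finset.univ (fun c' _ => sm_hty2 (hS.2.2 i c c').dt hU c c')))

/-- `uT` multiplies the third component by `X`;  `hxr`, `hxu`  (`fin_cases i`). -/
theorem hi_uf_eq (hS : HNStOK q g S) (hU : SmTri U) (i : Fin 3) (ht : t < 0) (y : ℝ) :
    uT (NN q g U) i (t, y) = S.uf q g U i (t, y) := by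
  fin_cases i
  · simp only [uT, HNSt.uf, hvT, hxu, hS.eq U hU _ t ht y, HNSt.raw, hxr]
    simp
  · simp only [uT, HNSt.uf, hvT, hxu, hS.eq U hU _ t ht y, HNSt.raw, hxr]
    simp
  · simp only [uT, HNSt.uf, hvT, hxu, hS.eq U hU _ t ht y, HNSt.raw, hxr]
    simp
    ring

/-- `hlinN` is the derivative at `h = 0` of `uT (NN (U + h V)) = S.uf (U + h V)`: sum of `hi_ty?_hasDerivAt`; `HasDerivAt.deriv`. -/
theorem hi_lin_eq (hS : HNStOK q g S) (hU : SmTri U) (hV : SmTri V) (i : Fin 3) (ht : t < 0) (y : ℝ) :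
    hlinN q g U V i (t, y) = S.lin q g U V i (t, y) := by
  have e : (fun h : ℝ => uT (NN q g (tAdd U h V)) i (t, y)) =
      fun h : ℝ => hty1 q g S.M (tAdd U h V) i (t, y)
        + hxu i (t, y) * hcmp (S.A0 i) (uT (tAdd U h V)) (t, y)
        + ∑ c, ∑ c', hty2 (S.A2 i c c') (tAdd U h V) c c' (t, y) := by
    funext h
    rw [hi_uf_eq hS (hU.tAdd h hV) i ht y, hi_uf_types]
  have hd : HasDerivAt (fun h : ℝ => hty1 q g S.M (tAdd U h V) i (t, y)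
        + hxu i (t, y) * hcmp (S.A0 i) (uT (tAdd U h V)) (t, y)
        + ∑ c, ∑ c', hty2 (S.A2 i c c') (tAdd U h V) c c' (t, y))
      (hly1 q g S.M U V i (t, y) + hxu i (t, y) * hcmpL (S.A0 i) (uT U) (uT V) (t, y)
        + ∑ c, ∑ c', hly2 (S.A2 i c c') U V c c' (t, y)) 0 :=
    ((hi_ty1_hasDerivAt hS.sm.1 hU hV i ht y).add
      ((hi_ty0_hasDerivAt (hS.sm.2.1 i) U V ht y).const_mul (hxu i (t, y)))).add
      (HasDerivAt.fun_sum (fun c _ => HasDerivAt.fun_sum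
        (fun c' _ => hi_ty2_hasDerivAt (hS.sm.2.2 i c c') hU hV c c' ht y)))
  show deriv (fun h : ℝ => uT (NN q g (tAdd U h V)) i (t, y)) 0 = _
  rw [e, hd.deriv]
  rfl

theorem hi_dT_uf (hq : 1 < q) (hg : BgSm g) (hS : S.IsSm) (hU : SmTri U) (i : Fin 3) (ht : t < 0) (y : ℝ) :
    dT (S.uf q g U i) (t, y) = S.lin q g U (dT3 U) i (t, y) + S.ut q g U i (t, y) := by
  have e : (fun s : ℝ => S.uf q g U i (s, y)) =
      fun s : ℝ => hty1 q g S.M U i (s, y) + hxu i (t, y) * hcmp (S.A0 i) (uT U) (s, y)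
        + ∑ c, ∑ c', hty2 (S.A2 i c c') U c c' (s, y) := by
    funext s
    rw [hi_uf_types]
    rfl
  have hd : HasDerivAt (fun s : ℝ => hty1 q g S.M U i (s, y) + hxu i (t, y) * hcmp (S.A0 i) (uT U) (s, y)
        + ∑ c, ∑ c', hty2 (S.A2 i c c') U c c' (s, y))
      (dT (hty1 q g S.M U i) (t, y) + hxu i (t, y) * dT (hcmp (S.A0 i) (uT U)) (t, y)
        + ∑ c, ∑ c', dT (hty2 (S.A2 i c c') U c c') (t, y)) t :=
    (((sm_hty1 hq hg hS.1 hU i).hasDerivAt_t ht y).add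
      (((sm_hcmp (hS.2.1 i) hU.uT).hasDerivAt_t ht y).const_mul (hxu i (t, y)))).add
      (HasDerivAt.fun_sum (fun c _ => HasDerivAt.fun_sum
        (fun c' _ => (sm_hty2 (hS.2.2 i c c') hU c c').hasDerivAt_t ht y)))
  show deriv (fun s : ℝ => S.uf q g U i (s, y)) t = _
  rw [e, hd.deriv, hi_dT_ty1 hq hg hS.1 hU i ht y, hi_dT_ty0 (hS.2.1 i) hU ht y]
  simp only [hi_dT_ty2 (hS.2.2 i _ _) hU _ _ ht y, Finset.sum_add_distrib]
  unfold HNSt.lin HNSt.ut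
  ring

end single

variable {U V : ℕ → Tri}

/-- `∂_t` of a finite sum. -/
theorem hi498_dT_sum {ι : Type} (s : Finset ι) {F : ι → Fn} (h : ∀ a ∈ s, Sm (F a)) (ht : t < 0) (y : ℝ) :
    dT (fun p => ∑ a ∈ s, F a p) (t, y) = ∑ a ∈ s, dT (F a) (t, y) :=
  (HasDerivAt.fun_sum fun a ha => (h a ha).hasDerivAt_t ht y).deriv

/-- double sums over the jets of families in `HiA`. -/
theorem hi498_sum2_A (h₁₂ : s₁ ≤ s₂) (h₂ : s₂ < 0) {𝓗 : Fin 5 → Fin 5 → ℕ → Fn}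
    (hf : ∀ c c' k, Sm (𝓗 c c' k)) (h : ∀ c c', HiA s₁ s₂ n (𝓗 c c')) :
    HiA s₁ s₂ n (fun k p => ∑ c, ∑ c', 𝓗 c c' k p) :=
  hiA_sum h₁₂ h₂ Finset.univ (𝓗 := fun c k p => ∑ c', 𝓗 c c' k p)
    (fun c _ k => sm_sum Finset.univ fun c' _ => hf c c' k)
    (fun c _ => hiA_sum h₁₂ h₂ Finset.univ (𝓗 := fun c' => 𝓗 c c') (fun c' _ k => hf c c' k) (fun c' _ => h c c'))

theorem hi_uf_A (K : HiK q g Γ κ s₁ s₂) (hS : S.IsSm) (hU : ∀ k, SmTri (U k)) (h : HiX q g Γ s₁ s₂ n U)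
    (i : Fin 3) : HiA s₁ s₂ n (fun k => S.uf q g (U k) i) := by
  have e : (fun k => S.uf q g (U k) i) = fun k p =>
      (hty1 q g S.M (U k) i p + hxu i p * hcmp (S.A0 i) (uT (U k)) p)
        + ∑ c, ∑ c', hty2 (S.A2 i c c') (U k) c c' p := by
    funext k p
    exact hi_uf_types S q g (U k) i p
  rw [e]
  have s1 : ∀ k, Sm (hty1 q g S.M (U k) i) := fun k => sm_hty1 K.hq K.hg hS.1 (hU k) i
  have s2 : ∀ k, Sm (hcmp (S.A0 i) (uT (U k))) := fun k => sm_hcmp (hS.2.1 i) (hU k).uT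
  have s3 : ∀ c c' k, Sm (hty2 (S.A2 i c c') (U k) c c') := fun c c' k => sm_hty2 (hS.2.2 i c c') (hU k) c c'
  refine HiA.add K.h₁₂ K.h₂ (fun k => (s1 k).add ((sm_hxu i).mul (s2 k)))
    (fun k => sm_sum _ fun c _ => sm_sum _ fun c' _ => s3 c c' k) ?_ ?_
  · exact HiA.add K.h₁₂ K.h₂ s1 (fun k => (sm_hxu i).mul (s2 k)) (hi_ty1_A K hU h hS.1 i)
      (HiA.mulB K.h₁₂ K.h₂ (fun _ => sm_hxu i) s2 (hiB_const K.h₂ (sm_hxu i) s₁ n)
        (hiA_of_B K.h₁₂ K.h₂ s2 (h.cmp_B K hU (hS.2.1 i))))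
  · exact hi498_sum2_A K.h₁₂ K.h₂ s3 (fun c c' => hi_ty2_A K hU h (hS.2.2 i c c') c c')

theorem hi_ut_A (K : HiK q g Γ κ s₁ s₂) (hS : S.IsSm) (hU : ∀ k, SmTri (U k)) (h : HiX q g Γ s₁ s₂ n U)
    (i : Fin 3) : HiA s₁ s₂ n (fun k => S.ut q g (U k) i) := by
  have s1 : ∀ k, Sm (hty1 q g (hgDt S.M) (U k) i) := fun k => sm_hty1 K.hq K.hg hS.1.dt (hU k) i
  have s2 : ∀ k, Sm (hcmp (hgDt (S.A0 i)) (uT (U k))) := fun k => sm_hcmp (hS.2.1 i).dt (hU k).uT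
  have s3 : ∀ c c' k, Sm (hty2 (hgDt (S.A2 i c c')) (U k) c c') :=
    fun c c' k => sm_hty2 (hS.2.2 i c c').dt (hU k) c c'
  have s4 : ∀ k, Sm (hcmp S.M (uT (U k))) := fun k => sm_hcmp hS.1 (hU k).uT
  have s5 : ∀ k, Sm (uT (hLtT q g (U k)) i) := fun k => ((hU k).hLtT K.hq K.hg).uT i
  refine HiA.add K.h₁₂ K.h₂ (fun k => ((s1 k).add ((s4 k).mul (s5 k))).add ((sm_hxu i).mul (s2 k)))
    (fun k => sm_sum _ fun c _ => sm_sum _ fun c' _ => s3 c c' k) ?_ ?_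
  · refine HiA.add K.h₁₂ K.h₂ (fun k => (s1 k).add ((s4 k).mul (s5 k))) (fun k => (sm_hxu i).mul (s2 k)) ?_
      (HiA.mulB K.h₁₂ K.h₂ (fun _ => sm_hxu i) s2 (hiB_const K.h₂ (sm_hxu i) s₁ n)
        (hiA_of_B K.h₁₂ K.h₂ s2 (h.cmp_B K hU (hS.2.1 i).dt)))
    exact HiA.add K.h₁₂ K.h₂ s1 (fun k => (s4 k).mul (s5 k)) (hi_ty1_A K hU h hS.1.dt i)
      (HiA.mulB K.h₁₂ K.h₂ s4 s5 (h.cmp_B K hU hS.1) (h.LtT_A K hU i))
  · exact hi498_sum2_A K.h₁₂ K.h₂ s3 (fun c c' => hi_ty2_A K hU h (hS.2.2 i c c').dt c c')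

theorem hi_lin_A (K : HiK q g Γ κ s₁ s₂) (hS : S.IsSm) (hU : ∀ k, SmTri (U k)) (hV : ∀ k, SmTri (V k))
    (h : HiX q g Γ s₁ s₂ n U) (h' : HiX q g Γ s₁ s₂ n V) (i : Fin 3) :
    HiA s₁ s₂ n (fun k => S.lin q g (U k) (V k) i) := by
  have s1 : ∀ k, Sm (hly1 q g S.M (U k) (V k) i) := fun k => sm_hly1 K.hq K.hg hS.1 (hU k) (hV k) i
  have s2 : ∀ k, Sm (hcmpL (S.A0 i) (uT (U k)) (uT (V k))) := fun k => sm_hcmpL (hS.2.1 i) (hU k).uT (hV k).uT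
  have s3 : ∀ c c' k, Sm (hly2 (S.A2 i c c') (U k) (V k) c c') :=
    fun c c' k => sm_hly2 (hS.2.2 i c c') (hU k) (hV k) c c'
  refine HiA.add K.h₁₂ K.h₂ (fun k => (s1 k).add ((sm_hxu i).mul (s2 k)))
    (fun k => sm_sum _ fun c _ => sm_sum _ fun c' _ => s3 c c' k) ?_ ?_
  · exact HiA.add K.h₁₂ K.h₂ s1 (fun k => (sm_hxu i).mul (s2 k)) (hi_ly1_A K hU hV h h' hS.1 i)
      (HiA.mulB K.h₁₂ K.h₂ (fun _ => sm_hxu i) s2 (hiB_const K.h₂ (sm_hxu i) s₁ n)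
        (hiA_of_B K.h₁₂ K.h₂ s2 (hi_ly0_B K hU hV h h' (hS.2.1 i))))
  · exact hi498_sum2_A K.h₁₂ K.h₂ s3 (fun c c' => hi_ly2_A K hU hV h h' (hS.2.2 i c c') c c')

theorem hi_lin_comm_A (K : HiK q g Γ κ s₁ s₂) (hS : S.IsSm) (hU : ∀ k, SmTri (U k)) (hV : ∀ k, SmTri (V k))
    (h : HiX q g Γ s₁ s₂ (n + 1) U) (h' : HiX q g Γ s₁ s₂ n V) (i : Fin 3) :
    HiA s₁ s₂ n (fun k p => dT (S.lin q g (U k) (V k) i) p - S.lin q g (U k) (dT3 (V k)) i p) := by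
  have hV' : ∀ k, SmTri (dT3 (V k)) := fun k => (hV k).dT3
  have s1 : ∀ k, Sm (hly1 q g S.M (U k) (V k) i) := fun k => sm_hly1 K.hq K.hg hS.1 (hU k) (hV k) i
  have s2 : ∀ k, Sm (hcmpL (S.A0 i) (uT (U k)) (uT (V k))) := fun k => sm_hcmpL (hS.2.1 i) (hU k).uT (hV k).uT
  have s3 : ∀ c c' k, Sm (hly2 (S.A2 i c c') (U k) (V k) c c') :=
    fun c c' k => sm_hly2 (hS.2.2 i c c') (hU k) (hV k) c c'
  have r1 : ∀ k, Sm (hly1 q g S.M (U k) (dT3 (V k)) i) := fun k => sm_hly1 K.hq K.hg hS.1 (hU k) (hV' k) i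
  have r2 : ∀ k, Sm (hcmpL (S.A0 i) (uT (U k)) (uT (dT3 (V k)))) :=
    fun k => sm_hcmpL (hS.2.1 i) (hU k).uT (hV' k).uT
  have r3 : ∀ c c' k, Sm (hly2 (S.A2 i c c') (U k) (dT3 (V k)) c c') :=
    fun c c' k => sm_hly2 (hS.2.2 i c c') (hU k) (hV' k) c c'
  have d1 : ∀ k, Sm (fun p => dT (hly1 q g S.M (U k) (V k) i) p - hly1 q g S.M (U k) (dT3 (V k)) i p) :=
    fun k => (s1 k).dT.sub (r1 k)
  have d2 : ∀ k, Sm (fun p => dT (hcmpL (S.A0 i) (uT (U k)) (uT (V k))) p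
      - hcmpL (S.A0 i) (uT (U k)) (uT (dT3 (V k))) p) := fun k => (s2 k).dT.sub (r2 k)
  have d3 : ∀ c c' k, Sm (fun p => dT (hly2 (S.A2 i c c') (U k) (V k) c c') p
      - hly2 (S.A2 i c c') (U k) (dT3 (V k)) c c' p) := fun c c' k => (s3 c c' k).dT.sub (r3 c c' k)
  have main : HiA s₁ s₂ n (fun k p =>
      ((dT (hly1 q g S.M (U k) (V k) i) p - hly1 q g S.M (U k) (dT3 (V k)) i p)
        + hxu i p * (dT (hcmpL (S.A0 i) (uT (U k)) (uT (V k))) p - hcmpL (S.A0 i) (uT (U k)) (uT (dT3 (V k))) p))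
        + ∑ c, ∑ c', (dT (hly2 (S.A2 i c c') (U k) (V k) c c') p
            - hly2 (S.A2 i c c') (U k) (dT3 (V k)) c c' p)) := by
    refine HiA.add K.h₁₂ K.h₂ (fun k => (d1 k).add ((sm_hxu i).mul (d2 k)))
      (fun k => sm_sum _ fun c _ => sm_sum _ fun c' _ => d3 c c' k) ?_ ?_
    · exact HiA.add K.h₁₂ K.h₂ d1 (fun k => (sm_hxu i).mul (d2 k)) (hi_ly1_comm_A K hU hV h h' hS.1 i)
        (HiA.mulB K.h₁₂ K.h₂ (fun _ => sm_hxu i) d2 (hiB_const K.h₂ (sm_hxu i) s₁ n)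
          (hiA_of_B K.h₁₂ K.h₂ d2 (hi_ly0_comm_B K hU hV h h' (hS.2.1 i))))
    · exact hi498_sum2_A K.h₁₂ K.h₂ d3 (fun c c' => hi_ly2_comm_A K hU hV h h' (hS.2.2 i c c') c c')
  refine HiA.congr K.h₁₂ K.h₂
    (fun k => ((d1 k).add ((sm_hxu i).mul (d2 k))).add (sm_sum _ fun c _ => sm_sum _ fun c' _ => d3 c c' k))
    (fun k => (sm_lin K.hq K.hg hS (hU k) (hV k) i).dT.sub (sm_lin K.hq K.hg hS (hU k) (hV' k) i)) main ?_
  intro k t ht y _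
  have e1 : dT (S.lin q g (U k) (V k) i) (t, y)
      = dT (hly1 q g S.M (U k) (V k) i) (t, y) + hxu i (t, y) * dT (hcmpL (S.A0 i) (uT (U k)) (uT (V k))) (t, y)
        + ∑ c, ∑ c', dT (hly2 (S.A2 i c c') (U k) (V k) c c') (t, y) := by
    have a1 := dT_add ((s1 k).add ((sm_hxu i).mul (s2 k)))
      (sm_sum Finset.univ fun c _ => sm_sum Finset.univ fun c' _ => s3 c c' k) ht y
    have a2 := dT_add (s1 k) ((sm_hxu i).mul (s2 k)) ht y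
    have a3 : dT (fun p => hxu i p * hcmpL (S.A0 i) (uT (U k)) (uT (V k)) p) (t, y)
        = hxu i (t, y) * dT (hcmpL (S.A0 i) (uT (U k)) (uT (V k))) (t, y) :=
      dT_y_mul (fun z => if i = 2 then Xf z else 1) (s2 k) ht y
    have a4 := hi498_dT_sum Finset.univ
      (F := fun c p => ∑ c', hly2 (S.A2 i c c') (U k) (V k) c c' p)
      (fun c _ => sm_sum Finset.univ fun c' _ => s3 c c' k) ht y
    have a5 : ∀ c, dT (fun p => ∑ c', hly2 (S.A2 i c c') (U k) (V k) c c' p) (t, y)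
        = ∑ c', dT (hly2 (S.A2 i c c') (U k) (V k) c c') (t, y) :=
      fun c => hi498_dT_sum Finset.univ (fun c' _ => s3 c c' k) ht y
    calc dT (S.lin q g (U k) (V k) i) (t, y)
        = dT (fun p => (hly1 q g S.M (U k) (V k) i p + hxu i p * hcmpL (S.A0 i) (uT (U k)) (uT (V k)) p)
            + ∑ c, ∑ c', hly2 (S.A2 i c c') (U k) (V k) c c' p) (t, y) := rfl
      _ = _ := by
        rw [a1, a2, a3, a4]
        simp only [a5]
  show dT (S.lin q g (U k) (V k) i) (t, y) - S.lin q g (U k) (dT3 (V k)) i (t, y) = _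
  rw [e1]
  simp only [HNSt.lin, Finset.sum_sub_distrib]
  ring

end

theorem hi_lin_hygiene : True := by
  have := @HNSt.ut.eq_1
  trivial

end Claimed.Agent.R324.Core
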