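/-
Row 324, module HI, part E, file Rem: the equations of the time derivatives `U^J_k = dT3^[J] (U k)` of the iterates, in u-form.      `τc = τs + Δ`, `θ = hiTh τc`.
   `hdef W = ∂_t W - L̃ W`,      `hdef (∂_t W) = ∂_t (hdef W) + L̃_T W`       (`hi_def_succ`),
   `uT (hdef U_{k+1}) = θ (S.uf U_k - uT Res) + uT S_{β,k}`  on the strip       (`hi_def0`: `Iter.eq`, `hi_uf_eq`),
   `hiR J k := uT (hdef U^J_{k+1}) - θ S.lin (U_k) [U^J_k]`       (definition, HI/Defs.lean).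
Model: R325/Core/HI/Rem.lean.
-/
import Claimed.Agent.R324.Core.HI.Lin
import Claimed.Agent.R324.Core.HI.Beta

set_option autoImplicit false

namespace Claimed.Agent.R324.Core

open Set Filter Topology MeasureTheory
open scoped ContDiff

variable {q : ℝ} {g : Bg} {Γ : ℝ} {κ : HiC} {S : HNSt} {ε τs Δ : ℝ} {N : ℕ} {Ac : Fin N → Tri}
  {U : ℕ → Tri} {β : ℕ → ℝ → EuclideanSpace ℝ (Fin N)} {t : ℝ}

theorem HiCtx.smU (C : HiCtx q g Γ κ S ε τs Δ N Ac U β) (k : ℕ) : SmTri (U k) := fun j => C.it.sm k j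

theorem HiCtx.K (C : HiCtx q g Γ κ S ε τs Δ N Ac U β) {s₂ : ℝ} (h₁₂ : tOf τs ≤ s₂) (h₂ : s₂ < 0) :
    HiK q g Γ κ (tOf τs) s₂ :=
  { hq := C.hq, hg := C.hg.sm, hΓ := C.hΓ, hU := C.hU, h₁ := C.hts, h₁₂ := h₁₂, h₂ := h₂ }

theorem sm_hiR (C : HiCtx q g Γ κ S ε τs Δ N Ac U β) (J k : ℕ) : SmTri (hiR q g S (τs + Δ) U J k) := by
  intro i
  exact ((((C.smU (k + 1)).dT3_iter J).hdef C.hq C.hg.sm).uT i).sub
    ((sm_hiTh _).mul (sm_lin C.hq C.hg.sm C.hS.sm (C.smU k) ((C.smU k).dT3_iter J) i))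

/-- all time derivatives of the iterates vanish for `t ≤ ts` on `[-1,1]`  (`Iter.zero`, `hi_dT_iter_van`, `hi_dT3_iter_apply`). -/
theorem hi_UJ_van (C : HiCtx q g Γ κ S ε τs Δ N Ac U β) (J k : ℕ) (j : Fin 3) :
    HiVan (tOf τs) (dT3^[J] (U k) j) := by
  rw [hi_dT3_iter_apply]
  exact hi_dT_iter_van (C.it.sm k j) (hi_tOf_neg τs) (C.it.zero k j) J

/-- `U_0 = 0`, hence all its derivatives vanish identically. -/
theorem hi_UJ_zero (C : HiCtx q g Γ κ S ε τs Δ N Ac U β) (J : ℕ) (j : Fin 3) (p : ℝ × ℝ) :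
    dT3^[J] (U 0) j p = 0 := by
  rw [hi_dT3_iter_apply]
  have h0 : U 0 j = fun _ => 0 := funext (C.it.u0 j)
  rw [h0]
  have h1 : ∀ n : ℕ, dT^[n] (fun _ : ℝ × ℝ => (0 : ℝ)) = fun _ => 0 := by
    intro n
    induction n with
    | zero => rfl
    | succ n ih =>
      rw [Function.iterate_succ_apply', ih]
      exact funext fun p => dT_const 0 p
  rw [h1 J]

theorem hi_def_succ (hq : 1 < q) (hg : BgSm g) {W : Tri} (hW : SmTri W) (i : Fin 3) (ht : t < 0) (y : ℝ) :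
    uT (hdef q g (dT3 W)) i (t, y) = dT (uT (hdef q g W) i) (t, y) + uT (hLtT q g W) i (t, y) := by
  rw [hi_dT_uT (hW.hdef hq hg) i ht y]
  have key : ∀ j, hdef q g (dT3 W) j (t, y) = dT3 (hdef q g W) j (t, y) + hLtT q g W j (t, y) := by
    intro j
    have h1 : dT3 (hdef q g W) j (t, y) = dT (dT (W j)) (t, y) - dT (Lt q g W j) (t, y) :=
      dT_sub (hW j).dT (sm_Lt hq hg hW j) ht y
    rw [h1]
    simp only [hdef, hLtT, dT3]
    ring
  unfold uT
  split_ifs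
  · rw [key 2]
    ring
  · exact key i

theorem hi_def0 (C : HiCtx q g Γ κ S ε τs Δ N Ac U β) (k : ℕ) (i : Fin 3) :
    HiEq (uT (hdef q g (U (k + 1))) i)
      (fun p => hiTh (τs + Δ) p * (S.uf q g (U k) i p - uT (Res q g) i p) + uT (hiSb Ac (β k)) i p) := by
  intro t ht y hy
  show _ = hiTh (τs + Δ) (t, y) * (S.uf q g (U k) i (t, y) - uT (Res q g) i (t, y))
    + uT (hiSb Ac (β k)) i (t, y)
  rw [← hi_uf_eq C.hS (C.smU k) i ht y]
  have key : ∀ j, hdef q g (U (k + 1)) j (t, y)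
      = hiTh (τs + Δ) (t, y) * (NN q g (U k) j (t, y) - Res q g j (t, y)) + hiSb Ac (β k) j (t, y) := by
    intro j
    have h1 := C.it.eq k j t ht y hy
    simp only [hdef, hiTh, hiSb]
    rw [h1]
    ring
  unfold uT
  split_ifs
  · rw [key 2]
    ring
  · exact key i

/-- `hi_def_succ` for `W = U_{k+1}`, `hi_dT_congr` applied to `hi_def0`, `dT_mul`, `hi_dT_uf`. -/
theorem hi_R_one (C : HiCtx q g Γ κ S ε τs Δ N Ac U β) (k : ℕ) (i : Fin 3) :
    HiEq (hiR q g S (τs + Δ) U 1 k i)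
      (fun p => hiTh (τs + Δ) p * S.ut q g (U k) i p
        + dT (hiTh (τs + Δ)) p * (S.uf q g (U k) i p - uT (Res q g) i p)
        - hiTh (τs + Δ) p * dT (uT (Res q g) i) p + dT (uT (hiSb Ac (β k)) i) p
        + uT (hLtT q g (U (k + 1))) i p) := by
  intro t ht y hy
  have hq := C.hq
  have hg : BgSm g := C.hg.sm
  have hS : S.IsSm := C.hS.sm
  have hUk : SmTri (U k) := C.smU k
  have hUk1 : SmTri (U (k + 1)) := C.smU (k + 1)
  have sθ : Sm (hiTh (τs + Δ)) := sm_hiTh (τs + Δ)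
  have suf : Sm (S.uf q g (U k) i) := sm_uf hq hg hS hUk i
  have sRes : Sm (uT (Res q g) i) := SmTri.uT (fun j => hg.smRes q j) i
  have sSb : Sm (uT (hiSb Ac (β k)) i) := (sm_hiSb C k).uT i
  have h1 := hi_def_succ hq hg hUk1 i ht y
  have h0 := hi_dT_congr (hi_def0 C k i) t ht y hy
  have e1 : dT (fun p => hiTh (τs + Δ) p * (S.uf q g (U k) i p - uT (Res q g) i p)
        + uT (hiSb Ac (β k)) i p) (t, y)
      = (dT (hiTh (τs + Δ)) (t, y) * (S.uf q g (U k) i (t, y) - uT (Res q g) i (t, y))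
          + hiTh (τs + Δ) (t, y) * (dT (S.uf q g (U k) i) (t, y) - dT (uT (Res q g) i) (t, y)))
        + dT (uT (hiSb Ac (β k)) i) (t, y) := by
    rw [dT_add (sθ.mul (suf.sub sRes)) sSb ht y, dT_mul sθ (suf.sub sRes) ht y,
      dT_sub suf sRes ht y]
  have e2 := hi_dT_uf hq hg hS hUk i ht y
  simp only [hiR, Function.iterate_one]
  rw [h1, h0, e1, e2]
  ring

/-- identity for `t < 0`, all `y` (no equation is used): `hi_def_succ` for `W = U^J_{k+1}`, definition of `hiR`, `dT_add`, `dT_mul`; `Function.iterate_succ_apply'`. -/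
theorem hi_R_succ (C : HiCtx q g Γ κ S ε τs Δ N Ac U β) (J k : ℕ) (i : Fin 3) :
    HiEq (hiR q g S (τs + Δ) U (J + 1) k i)
      (fun p => dT (hiR q g S (τs + Δ) U J k i) p + uT (hLtT q g (dT3^[J] (U (k + 1)))) i p
        + dT (hiTh (τs + Δ)) p * S.lin q g (U k) (dT3^[J] (U k)) i p
        + hiTh (τs + Δ) p * (dT (S.lin q g (U k) (dT3^[J] (U k)) i) p
            - S.lin q g (U k) (dT3 (dT3^[J] (U k))) i p)) := by
  intro t ht y _
  have hq := C.hq
  have hg : BgSm g := C.hg.sm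
  have hS : S.IsSm := C.hS.sm
  have hUk : SmTri (U k) := C.smU k
  have hW : SmTri (dT3^[J] (U (k + 1))) := (C.smU (k + 1)).dT3_iter J
  have hV : SmTri (dT3^[J] (U k)) := hUk.dT3_iter J
  have sθ : Sm (hiTh (τs + Δ)) := sm_hiTh (τs + Δ)
  have slin : Sm (S.lin q g (U k) (dT3^[J] (U k)) i) := sm_lin hq hg hS hUk hV i
  have sdef : Sm (uT (hdef q g (dT3^[J] (U (k + 1)))) i) := (hW.hdef hq hg).uT i
  have h1 := hi_def_succ hq hg hW i ht y
  have e1 : dT (hiR q g S (τs + Δ) U J k i) (t, y)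
      = dT (uT (hdef q g (dT3^[J] (U (k + 1)))) i) (t, y)
        - (dT (hiTh (τs + Δ)) (t, y) * S.lin q g (U k) (dT3^[J] (U k)) i (t, y)
          + hiTh (τs + Δ) (t, y) * dT (S.lin q g (U k) (dT3^[J] (U k)) i) (t, y)) := by
    have : hiR q g S (τs + Δ) U J k i = fun p => uT (hdef q g (dT3^[J] (U (k + 1)))) i p
        - hiTh (τs + Δ) p * S.lin q g (U k) (dT3^[J] (U k)) i p := rfl
    rw [this, dT_sub sdef (sθ.mul slin) ht y, dT_mul sθ slin ht y]
  have e0 : hiR q g S (τs + Δ) U (J + 1) k i (t, y)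
      = uT (hdef q g (dT3 (dT3^[J] (U (k + 1))))) i (t, y)
        - hiTh (τs + Δ) (t, y) * S.lin q g (U k) (dT3 (dT3^[J] (U k))) i (t, y) := by
    simp only [hiR, Function.iterate_succ_apply']
  rw [e0, h1]
  simp only [e1]
  ring

end Claimed.Agent.R324.Core
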