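/-
Row 324, module HI, PART S, file SCmp (S1 of origin/helper402:docs/R324_HI.md, composition): `u_b ∈ HiW hw0 I r` (all `b`) ⇒ `hcmp G u ∈ HiW hw0 I r`, for every generic smooth `G`.      Author: helper182.      SORRY-FREE (modulo HI/Gen.lean).
Induction on `r` at `I = 0`, then on `I`, for ALL `G`; chain rules `hi_dT_hcmp`, `hi_dY_hcmp` of HI/Gen.lean; base: `hi_G_bdd`.
-/
import Claimed.Agent.R324.Core.HI.W
import Claimed.Agent.R324.Core.HI.Gen

set_option autoImplicit false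

namespace Claimed.Agent.R324.Core

open Set Filter Topology MeasureTheory
open scoped ContDiff

variable {s₁ s₂ : ℝ} {I r : ℕ} {u u' : ℕ → Tri} {G : HGf}

/-- `hcmpL` from the classes of its coefficients. -/
theorem his_cmpL_of {w : ℝ → ℝ} (hw : HwOK w) (h₂ : s₂ < 0) (hu : ∀ k, SmTri (u k)) (hu' : ∀ k, SmTri (u' k))
    (hc : ∀ b, HiW hw0 s₁ s₂ I r (fun k => hcmp (hgDx b G) (u k))) (h' : ∀ b, HiW w s₁ s₂ I r (fun k => u' k b))
    (hG : HGSm G) : HiW w s₁ s₂ I r (fun k => hcmpL G (u k) (u' k)) :=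
  hiW_sum hw h₂ Finset.univ (𝓗 := fun b k p => hcmp (hgDx b G) (u k) p * u' k b p)
    (fun b _ k => (sm_hcmp (hG.dx b) (hu k)).mul (hu' k b))
    (fun b _ => HiW.mul0 hw h₂ (fun k => sm_hcmp (hG.dx b) (hu k)) (fun k => hu' k b) (hc b) (h' b))

/-- composition, `I = 0`, `r = 0`. -/
theorem his_cmp_00 (h₂ : s₂ < 0) (h : ∀ b, HiW hw0 s₁ s₂ 0 0 (fun k => u k b))
    (hG : HGSm G) : HiW hw0 s₁ s₂ 0 0 (fun k => hcmp G (u k)) := by
  choose C hC0 hC using fun b => (h b).bound (le_refl 0) (le_refl 0)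
  obtain ⟨C', _, hC'⟩ := hi_G_bdd hG s₁ h₂ (∑ b, C b)
  refine hiW_zero_zero (C := C') fun k t ht y hy => ?_
  unfold hw0
  rw [one_mul]
  refine hC' t ht y hy _ fun b => ?_
  have h1 : hw0 y * |u k b (t, y)| ≤ C b := hC b k t ht y hy
  unfold hw0 at h1
  rw [one_mul] at h1
  exact h1.trans (Finset.single_le_sum (f := C) (fun i _ => hC0 i) (Finset.mem_univ b))

/-- composition, `I = 0`. -/
theorem his_cmp_0 (h₂ : s₂ < 0) (hu : ∀ k, SmTri (u k)) (h : ∀ b, HiW hw0 s₁ s₂ 0 r (fun k => u k b))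
    (hG : HGSm G) : HiW hw0 s₁ s₂ 0 r (fun k => hcmp G (u k)) := by
  induction r generalizing G with
  | zero => exact his_cmp_00 h₂ h hG
  | succ r ih =>
    have hr : ∀ b, HiW hw0 s₁ s₂ 0 r (fun k => u k b) := fun b => (h b).mono le_rfl (Nat.le_succ r)
    refine hiW_of_dY h₂ (fun k => sm_hcmp hG (hu k)) ((ih hr hG).mono le_rfl (Nat.zero_le r)) ?_
    have h1 : HiW hw0 s₁ s₂ 0 r (fun k => hcmp (hgDy G) (u k)) := ih hr hG.dy
    have h2 : HiW hw0 s₁ s₂ 0 r (fun k => hcmpL G (u k) (fun b => dY (u k b))) :=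
      his_cmpL_of hwOK_0 h₂ hu (fun k b => (hu k b).dY) (fun b => ih hr (hG.dx b))
        (fun b => (h b).dY h₂ (fun k => hu k b)) hG
    refine HiW.congr h₂
      (fun k => (sm_hcmp hG.dy (hu k)).add (sm_hcmpL hG (hu k) (fun b => (hu k b).dY)))
      (fun k => (sm_hcmp hG (hu k)).dY)
      (HiW.add hwOK_0 h₂ (fun k => sm_hcmp hG.dy (hu k)) (fun k => sm_hcmpL hG (hu k) (fun b => (hu k b).dY))
        h1 h2) ?_
    intro k t ht y _
    exact hi_dY_hcmp hG (hu k) ht y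

/-- **composition.** -/
theorem his_cmp (h₂ : s₂ < 0) (hu : ∀ k, SmTri (u k)) (h : ∀ b, HiW hw0 s₁ s₂ I r (fun k => u k b))
    (hG : HGSm G) : HiW hw0 s₁ s₂ I r (fun k => hcmp G (u k)) := by
  induction I generalizing G with
  | zero => exact his_cmp_0 h₂ hu h hG
  | succ I ih =>
    have hI : ∀ b, HiW hw0 s₁ s₂ I r (fun k => u k b) := fun b => (h b).mono (Nat.le_succ I) le_rfl
    refine hiW_of_dT ((ih hI hG).mono (Nat.zero_le I) le_rfl) ?_
    have h1 : HiW hw0 s₁ s₂ I r (fun k => hcmp (hgDt G) (u k)) := ih hI hG.dt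
    have h2 : HiW hw0 s₁ s₂ I r (fun k => hcmpL G (u k) (dT3 (u k))) :=
      his_cmpL_of hwOK_0 h₂ hu (fun k => (hu k).dT3) (fun b => ih hI (hG.dx b))
        (fun b => (h b).dT) hG
    refine HiW.congr h₂
      (fun k => (sm_hcmp hG.dt (hu k)).add (sm_hcmpL hG (hu k) (hu k).dT3))
      (fun k => (sm_hcmp hG (hu k)).dT)
      (HiW.add hwOK_0 h₂ (fun k => sm_hcmp hG.dt (hu k)) (fun k => sm_hcmpL hG (hu k) (hu k).dT3)
        h1 h2) ?_
    intro k t ht y _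
    exact hi_dT_hcmp hG (hu k) ht y

/-- `Σ_b G_{ξ_b}(p;u) u'_b`, with a weight on `u'`. -/
theorem his_cmpL {w : ℝ → ℝ} (hw : HwOK w) (h₂ : s₂ < 0) (hu : ∀ k, SmTri (u k)) (hu' : ∀ k, SmTri (u' k))
    (h : ∀ b, HiW hw0 s₁ s₂ I r (fun k => u k b)) (h' : ∀ b, HiW w s₁ s₂ I r (fun k => u' k b))
    (hG : HGSm G) : HiW w s₁ s₂ I r (fun k => hcmpL G (u k) (u' k)) :=
  his_cmpL_of hw h₂ hu hu' (fun b => his_cmp h₂ hu h (hG.dx b)) h' hG

end Claimed.Agent.R324.Core
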