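/-
Row 324, module HI, file StGen (sub-architect helper13): closure rules of the class `HGSm` (smooth coefficient functions `G (t,y) ξ`), and the
classes `HstQ1`, `HstQ2` of polynomials of degree ≤ 1, ≤ 2 in the jets `π : Fin 5 → ℝ` (`π 4 = 1`) with coefficients in `HGSm`.
Used only for `hi_struct` (HI/Struct.lean).
-/
import Claimed.Agent.R324.Core.HI.Defs

set_option autoImplicit false

namespace Claimed.Agent.R324.Core

open Set Filter Topology MeasureTheory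
open scoped ContDiff

noncomputable section

variable {G G' : HGf}

/-! ### closure rules of `HGSm` -/

theorem hst_of_sm {f : Fn} (hf : Sm f) : HGSm (fun p _ => f p) := by
  unfold HGSm
  refine ContDiffOn.comp (t := Iio (0 : ℝ) ×ˢ (univ : Set ℝ)) hf contDiff_fst.contDiffOn ?_
  intro z hz
  exact hz.1

theorem hst_const (c : ℝ) : HGSm (fun _ _ => c) := contDiffOn_const

theorem hst_xi (b : Fin 3) : HGSm (fun _ ξ => ξ b) := by
  unfold HGSm
  exact ((contDiff_apply ℝ ℝ b).comp contDiff_snd).contDiffOn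

theorem hst_add (h : HGSm G) (h' : HGSm G') : HGSm (fun p ξ => G p ξ + G' p ξ) := ContDiffOn.add h h'

theorem hst_sub (h : HGSm G) (h' : HGSm G') : HGSm (fun p ξ => G p ξ - G' p ξ) := ContDiffOn.sub h h'

theorem hst_mul (h : HGSm G) (h' : HGSm G') : HGSm (fun p ξ => G p ξ * G' p ξ) := ContDiffOn.mul h h'

theorem hst_neg (h : HGSm G) : HGSm (fun p ξ => -G p ξ) := ContDiffOn.neg h

theorem hst_pow (h : HGSm G) (n : ℕ) : HGSm (fun p ξ => G p ξ ^ n) := ContDiffOn.pow h n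

theorem hst_div_const (h : HGSm G) (c : ℝ) : HGSm (fun p ξ => G p ξ / c) := ContDiffOn.div_const h c

theorem hst_comp {φ : ℝ → ℝ} (hφ : ContDiff ℝ ∞ φ) (h : HGSm G) : HGSm (fun p ξ => φ (G p ξ)) :=
  hφ.comp_contDiffOn h

theorem hst_exp (h : HGSm G) : HGSm (fun p ξ => Real.exp (G p ξ)) := ContDiffOn.exp h

theorem hst_div {f : Fn} (h : HGSm G) (hf : Sm f) (h0 : ∀ t < 0, ∀ y, f (t, y) ≠ 0) :
    HGSm (fun p ξ => G p ξ / f p) := by
  refine ContDiffOn.div h (hst_of_sm hf) ?_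
  intro z hz
  exact h0 z.1.1 hz.1.1 z.1.2

/-! ### polynomials in the jets -/

/-- functions of `(t,y)`, `ξ ∈ ℝ³` and the jets `π ∈ ℝ⁵`. -/
abbrev HstF := ℝ × ℝ → (Fin 3 → ℝ) → (Fin 5 → ℝ) → ℝ

/-- affine in the jets (linear forms in `π`, `π 4 = 1`). -/
def HstQ1 (F : HstF) : Prop :=
  ∃ l : Fin 5 → HGf, (∀ c, HGSm (l c)) ∧
    ∀ p ξ (π : Fin 5 → ℝ), π 4 = 1 → F p ξ π = ∑ c, l c p ξ * π c

/-- polynomials of degree ≤ 2 in the jets (quadratic forms in `π`, `π 4 = 1`). -/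
def HstQ2 (F : HstF) : Prop :=
  ∃ A : Fin 5 → Fin 5 → HGf, (∀ c c', HGSm (A c c')) ∧
    ∀ p ξ (π : Fin 5 → ℝ), π 4 = 1 → F p ξ π = ∑ c, ∑ c', A c c' p ξ * (π c * π c')

variable {F F' : HstF}

theorem hst_q1_coord (c : Fin 5) : HstQ1 (fun _ _ π => π c) := by
  refine ⟨fun c' _ _ => if c' = c then 1 else 0, fun c' => hst_const _, fun p ξ π _ => ?_⟩
  simp

theorem hst_q1_of (h : HGSm G) : HstQ1 (fun p ξ _ => G p ξ) := by
  refine ⟨fun c' p ξ => if c' = 4 then G p ξ else 0, fun c' => ?_, fun p ξ π hπ => ?_⟩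
  · by_cases hc : c' = 4
    · simpa [hc] using h
    · simpa [hc] using hst_const 0
  · simp [hπ]

theorem hst_q1_add (h : HstQ1 F) (h' : HstQ1 F') : HstQ1 (fun p ξ π => F p ξ π + F' p ξ π) := by
  obtain ⟨l, hl, e⟩ := h
  obtain ⟨l', hl', e'⟩ := h'
  refine ⟨fun c p ξ => l c p ξ + l' c p ξ, fun c => hst_add (hl c) (hl' c), fun p ξ π hπ => ?_⟩
  beta_reduce
  rw [e p ξ π hπ, e' p ξ π hπ, ← Finset.sum_add_distrib]
  exact Finset.sum_congr rfl fun c _ => by ring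

theorem hst_q1_smul (h : HGSm G) (h' : HstQ1 F) : HstQ1 (fun p ξ π => G p ξ * F p ξ π) := by
  obtain ⟨l, hl, e⟩ := h'
  refine ⟨fun c p ξ => G p ξ * l c p ξ, fun c => hst_mul h (hl c), fun p ξ π hπ => ?_⟩
  beta_reduce
  rw [e p ξ π hπ, Finset.mul_sum]
  exact Finset.sum_congr rfl fun c _ => by ring

theorem hst_q1_neg (h : HstQ1 F) : HstQ1 (fun p ξ π => -F p ξ π) := by
  have := hst_q1_smul (hst_const (-1)) h
  simpa using this

theorem hst_q1_sub (h : HstQ1 F) (h' : HstQ1 F') : HstQ1 (fun p ξ π => F p ξ π - F' p ξ π) := by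
  have := hst_q1_add h (hst_q1_neg h')
  simpa [sub_eq_add_neg] using this

theorem hst_q2_mul (h : HstQ1 F) (h' : HstQ1 F') : HstQ2 (fun p ξ π => F p ξ π * F' p ξ π) := by
  obtain ⟨l, hl, e⟩ := h
  obtain ⟨l', hl', e'⟩ := h'
  refine ⟨fun c c' p ξ => l c p ξ * l' c' p ξ, fun c c' => hst_mul (hl c) (hl' c'), fun p ξ π hπ => ?_⟩
  beta_reduce
  rw [e p ξ π hπ, e' p ξ π hπ, Finset.sum_mul_sum]
  exact Finset.sum_congr rfl fun c _ => Finset.sum_congr rfl fun c' _ => by ring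

theorem hst_q2_of_q1 (h : HstQ1 F) : HstQ2 F := by
  have := hst_q2_mul h (hst_q1_of (hst_const 1))
  simpa using this

theorem hst_q2_of (h : HGSm G) : HstQ2 (fun p ξ _ => G p ξ) := hst_q2_of_q1 (hst_q1_of h)

theorem hst_q2_add (h : HstQ2 F) (h' : HstQ2 F') : HstQ2 (fun p ξ π => F p ξ π + F' p ξ π) := by
  obtain ⟨l, hl, e⟩ := h
  obtain ⟨l', hl', e'⟩ := h'
  refine ⟨fun c c' p ξ => l c c' p ξ + l' c c' p ξ, fun c c' => hst_add (hl c c') (hl' c c'), fun p ξ π hπ => ?_⟩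
  beta_reduce
  rw [e p ξ π hπ, e' p ξ π hπ, ← Finset.sum_add_distrib]
  refine Finset.sum_congr rfl fun c _ => ?_
  rw [← Finset.sum_add_distrib]
  exact Finset.sum_congr rfl fun c' _ => by ring

theorem hst_q2_smul (h : HGSm G) (h' : HstQ2 F) : HstQ2 (fun p ξ π => G p ξ * F p ξ π) := by
  obtain ⟨l, hl, e⟩ := h'
  refine ⟨fun c c' p ξ => G p ξ * l c c' p ξ, fun c c' => hst_mul h (hl c c'), fun p ξ π hπ => ?_⟩
  beta_reduce
  rw [e p ξ π hπ, Finset.mul_sum]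
  refine Finset.sum_congr rfl fun c _ => ?_
  rw [Finset.mul_sum]
  exact Finset.sum_congr rfl fun c' _ => by ring

theorem hst_q2_neg (h : HstQ2 F) : HstQ2 (fun p ξ π => -F p ξ π) := by
  have := hst_q2_smul (hst_const (-1)) h
  simpa using this

theorem hst_q2_sub (h : HstQ2 F) (h' : HstQ2 F') : HstQ2 (fun p ξ π => F p ξ π - F' p ξ π) := by
  have := hst_q2_add h (hst_q2_neg h')
  simpa [sub_eq_add_neg] using this

theorem hst_q2_sq (h : HstQ1 F) : HstQ2 (fun p ξ π => F p ξ π ^ 2) := by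
  have := hst_q2_mul h h
  simpa [sq] using this

/-- hygiene. -/
theorem hst_gen_hygiene : True := by
  have := @HstQ1.eq_1
  have := @HstQ2.eq_1
  trivial

end

end Claimed.Agent.R324.Core
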